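/-
Row 123 (S0163): orbits of the explicit map in stereographic coordinates, and statement-level
definitions used by the dynamics modules.
-/
import Crest.Agent.R123.Defs

set_option autoImplicit false

namespace Crest.Agent.R123

noncomputable section

open Real

/-- height of the point of the sphere with stereographic coordinate `ζ` -/
def hh (ζ : ℂ) : ℝ := (‖ζ‖ ^ 2 - 1) / (‖ζ‖ ^ 2 + 1)

/-- first component of the point of the sphere with stereographic coordinate `ζ` -/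
def zz (ζ : ℂ) : ℂ := ((2 / (‖ζ‖ ^ 2 + 1) : ℝ) : ℂ) * ζ

/-- shift of carrier number `j` -/
def bb (j : Fin 2) : ℝ := if j = 0 then 0 else 1 / 2

/-- An orbit of the explicit map, in coordinates `(ζ, t, ρ, x₀, x₁)`, `t` lifted to `ℝ`. -/
structure Orb where
  ζ : ℕ → ℂ
  t : ℕ → ℝ
  ρ : ℕ → ℝ
  x : Fin 2 → ℕ → ℂ
  hζ : ∀ n, ζ (n + 1) = ζ n ^ 2 + kick (t n) (ρ n) (x 0 n) (x 1 n)
  ht : ∀ n, t (n + 1) = t n + adv (hh (ζ n)) (ρ n)
  hρ : ∀ n, ρ (n + 1) = lev (hh (ζ n)) (t n) (ρ n)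
  hx : ∀ j n, x j (n + 1) = car (bb j) (zz (ζ n)) (hh (ζ n)) (t n) (ρ n) (x j n)
  hρ0 : |ρ 0| ≤ 6
  hx0 : ∀ j, ‖x j 0‖ ≤ 6

/-- the jump at time `l` is `< η` in all coordinates -/
def Orb.small (o : Orb) (η : ℝ) (l : ℕ) : Prop :=
  |hh (o.ζ (l + 1)) - hh (o.ζ l)| < η ∧ ‖zz (o.ζ (l + 1)) - zz (o.ζ l)‖ < η ∧
    |o.t (l + 1) - o.t l| < η ∧ |o.ρ (l + 1) - o.ρ l| < η ∧
    ∀ j, ‖o.x j (l + 1) - o.x j l‖ < η

/-- real saturation -/
def satR (y : ℝ) : ℝ := y / √(1 + y ^ 2)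

end

end Crest.Agent.R123
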