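/-
Row 123 (S0163): basic facts about the functions of `Defs.lean`.
-/
import Crest.Agent.R123.Orb

set_option autoImplicit false

namespace Crest.Agent.R123

noncomputable section

open Real

/-! ### smoothstep -/

lemma ss_of_nonpos {x : ℝ} (h : x ≤ 0) : ss x = 0 := by
  have : max 0 (min x 1) = 0 := max_eq_left (le_trans (min_le_left _ _) h)
  simp [ss, this]

lemma ss_of_one_le {x : ℝ} (h : 1 ≤ x) : ss x = 1 := by
  have : max 0 (min x 1) = 1 := by rw [min_eq_right h]; simp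
  simp only [ss, this]; norm_num

lemma clamp_nonneg (x : ℝ) : 0 ≤ max 0 (min x 1) := le_max_left _ _

lemma clamp_le_one (x : ℝ) : max 0 (min x 1) ≤ 1 := max_le zero_le_one (min_le_right _ _)

lemma ss_nonneg (x : ℝ) : 0 ≤ ss x := by
  have h0 := clamp_nonneg x
  have h1 := clamp_le_one x
  exact mul_nonneg (sq_nonneg _) (by linarith)

lemma ss_le_one (x : ℝ) : ss x ≤ 1 := by
  have h0 := clamp_nonneg x
  have h1 := clamp_le_one x
  unfold ss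
  nlinarith [mul_nonneg (sq_nonneg (1 - max 0 (min x 1))) (by linarith : (0:ℝ) ≤ 1 + 2 * max 0 (min x 1))]

lemma ss_of_mem {x : ℝ} (h0 : 0 ≤ x) (h1 : x ≤ 1) : ss x = x ^ 2 * (3 - 2 * x) := by
  have : max 0 (min x 1) = x := by rw [min_eq_left h1, max_eq_right h0]
  simp only [ss, this]

lemma clamp_mono {x y : ℝ} (h : x ≤ y) : max 0 (min x 1) ≤ max 0 (min y 1) :=
  max_le_max le_rfl (min_le_min h le_rfl)

lemma clamp_lip (x y : ℝ) : |max 0 (min x 1) - max 0 (min y 1)| ≤ |x - y| := by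
  have h1 : |max 0 (min x 1) - max 0 (min y 1)| ≤ |min x 1 - min y 1| := by
    have := abs_max_sub_max_le_abs (min x 1) (min y 1) 0
    simpa [max_comm] using this
  have h2 : |min x 1 - min y 1| ≤ |x - y| := by
    have := abs_min_sub_min_le_max x 1 y 1
    simpa using this
  exact h1.trans h2

lemma ss_mono {x y : ℝ} (h : x ≤ y) : ss x ≤ ss y := by
  have h0 := clamp_nonneg x
  have h1 := clamp_le_one x
  have h2 := clamp_nonneg y
  have h3 := clamp_le_one y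
  have h4 := clamp_mono h
  unfold ss
  set a := max 0 (min x 1)
  set b := max 0 (min y 1)
  nlinarith [mul_nonneg (sub_nonneg.2 h4) (by nlinarith : (0:ℝ) ≤ 3 * (a + b) - 2 * (a^2 + a*b + b^2))]

lemma ss_lip (x y : ℝ) : |ss x - ss y| ≤ 3 / 2 * |x - y| := by
  have h0 := clamp_nonneg x
  have h1 := clamp_le_one x
  have h2 := clamp_nonneg y
  have h3 := clamp_le_one y
  have h4 := clamp_lip x y
  unfold ss
  set a := max 0 (min x 1)
  set b := max 0 (min y 1)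
  have e : a ^ 2 * (3 - 2 * a) - b ^ 2 * (3 - 2 * b) =
      (a - b) * (3 * (a + b) - 2 * (a ^ 2 + a * b + b ^ 2)) := by ring
  rw [e, abs_mul]
  have hb : |3 * (a + b) - 2 * (a ^ 2 + a * b + b ^ 2)| ≤ 3 / 2 := by
    rw [abs_le]; constructor
    · nlinarith
    · nlinarith [sq_nonneg (a - b), sq_nonneg (a + b - 1)]
  calc |a - b| * |3 * (a + b) - 2 * (a ^ 2 + a * b + b ^ 2)| ≤ |x - y| * (3/2) := by
        apply mul_le_mul h4 hb (abs_nonneg _) (abs_nonneg _)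
    _ = 3 / 2 * |x - y| := by ring

lemma ss_pos {x : ℝ} (h : 0 < x) : 0 < ss x := by
  have h2 : 0 < max 0 (min x 1) := lt_max_of_lt_right (lt_min h one_pos)
  have h1 := clamp_le_one x
  exact mul_pos (by positivity) (by linarith)

lemma ss_eq_zero_iff {x : ℝ} : ss x = 0 ↔ x ≤ 0 := by
  constructor
  · intro h; by_contra hc; push Not at hc; exact (ss_pos hc).ne' h
  · exact ss_of_nonpos

lemma ss_le_sq {x : ℝ} (h : 0 ≤ x) : ss x ≤ 3 * x ^ 2 := by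
  have h0 := clamp_nonneg x
  have h5 : max 0 (min x 1) ≤ x := max_le h (min_le_left _ _)
  unfold ss
  set a := max 0 (min x 1)
  have : a ^ 2 ≤ x ^ 2 := by nlinarith
  nlinarith [sq_nonneg a]

/-! ### speed and number of steps -/

lemma om_nonneg (ρ : ℝ) : 0 ≤ om ρ := by unfold om; have := ss_nonneg ρ; positivity

lemma om_le (ρ : ℝ) : om ρ ≤ 1 / 100 := by unfold om; have := ss_le_one ρ; linarith

lemma om_of_nonpos {ρ : ℝ} (h : ρ ≤ 0) : om ρ = 0 := by simp [om, ss_of_nonpos h]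

lemma om_of_one_le {ρ : ℝ} (h : 1 ≤ ρ) : om ρ = 1 / 100 := by simp [om, ss_of_one_le h]

lemma om_pos {ρ : ℝ} (h : 0 < ρ) : 0 < om ρ := by unfold om; have := ss_pos h; positivity

lemma om_mono {a b : ℝ} (h : a ≤ b) : om a ≤ om b := by unfold om; have := ss_mono h; linarith

lemma om_lip (a b : ℝ) : |om a - om b| ≤ 3 / 200 * |a - b| := by
  unfold om
  have := ss_lip a b
  rw [← sub_div, abs_div, abs_of_pos (by norm_num : (0:ℝ) < 100)]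
  linarith

lemma om_le_sq {ρ : ℝ} (h : 0 ≤ ρ) : om ρ ≤ 3 / 100 * ρ ^ 2 := by
  unfold om; have := ss_le_sq h; linarith

lemma mm_pos {ρ : ℝ} (h : 0 < ρ) : 0 < mm ρ := inv_pos.2 (om_pos h)

lemma mm_ge {ρ : ℝ} (h : 0 < ρ) : 100 ≤ mm ρ := by
  unfold mm
  rw [le_inv_comm₀ (by norm_num) (om_pos h)]
  have := om_le ρ; norm_num at this ⊢; exact this

lemma mm_of_one_le {ρ : ℝ} (h : 1 ≤ ρ) : mm ρ = 100 := by
  unfold mm; rw [om_of_one_le h]; norm_num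

lemma om_mul_mm {ρ : ℝ} (h : 0 < ρ) : om ρ * mm ρ = 1 := mul_inv_cancel₀ (om_pos h).ne'

lemma mm_mul_om {ρ : ℝ} (h : 0 < ρ) : mm ρ * om ρ = 1 := inv_mul_cancel₀ (om_pos h).ne'

lemma mm_anti {a b : ℝ} (ha : 0 < a) (h : a ≤ b) : mm b ≤ mm a := by
  unfold mm; exact inv_anti₀ (om_pos ha) (om_mono h)

lemma flat_of_nonpos {N ρ : ℝ} (h : ρ ≤ 0) : flat N ρ = 0 := by simp [flat, h]

lemma flat_of_pos {N ρ : ℝ} (h : 0 < ρ) : flat N ρ = exp (-N * mm ρ) := by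
  simp [flat, not_le.2 h]

lemma flat_nonneg (N ρ : ℝ) : 0 ≤ flat N ρ := by
  unfold flat; split_ifs; exact le_rfl; exact (exp_pos _).le

lemma flat_le {N : ℝ} (hN : 0 ≤ N) (ρ : ℝ) : flat N ρ ≤ exp (-N * 100) := by
  unfold flat; split_ifs with h
  · exact (exp_pos _).le
  · push Not at h
    apply exp_le_exp.2
    have := mm_ge h
    nlinarith

lemma flat_pos {N ρ : ℝ} (h : 0 < ρ) : 0 < flat N ρ := by rw [flat_of_pos h]; exact exp_pos _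

lemma exp_neg_hundred : exp (-(1:ℝ) * 100) ≤ 1 / 1000 := by
  have h1 : exp (-(1:ℝ) * 100) = (exp 100)⁻¹ := by rw [← exp_neg]; norm_num
  rw [h1, inv_le_comm₀ (exp_pos _) (by norm_num)]
  have h2 : (1000:ℝ) ≤ exp 100 := by
    have h3 : exp (100:ℝ) = (exp 10) ^ (10:ℕ) := by rw [← exp_nat_mul]; norm_num
    have h4 : (11:ℝ) ≤ exp 10 := by have := add_one_le_exp (10:ℝ); linarith
    rw [h3]
    calc (1000:ℝ) ≤ 11 ^ 10 := by norm_num
      _ ≤ (exp 10) ^ 10 := by gcongr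
  norm_num; linarith

lemma Bk_of_nonpos {ρ : ℝ} (h : ρ ≤ 0) : Bk ρ = 0 := by
  simp [Bk, flat_of_nonpos h, ss_of_nonpos (by linarith : ρ - 2 ≤ 0)]

lemma Bk_nonneg (ρ : ℝ) : 0 ≤ Bk ρ := by
  unfold Bk; have := flat_nonneg 1 ρ; have := ss_nonneg (ρ - 2); positivity

lemma Bk_le (ρ : ℝ) : Bk ρ ≤ 9 + 1 / 1000 := by
  unfold Bk
  have h1 : flat 1 ρ ≤ 1 / 1000 := (flat_le zero_le_one ρ).trans exp_neg_hundred
  have h2 := ss_le_one (ρ - 2)
  linarith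

lemma Bk_of_le_two {ρ : ℝ} (h : ρ ≤ 2) : Bk ρ = flat 1 ρ := by
  simp [Bk, ss_of_nonpos (by linarith : ρ - 2 ≤ 0)]

lemma Bk_le_of_le_two {ρ : ℝ} (h : ρ ≤ 2) : Bk ρ ≤ 1 / 1000 := by
  rw [Bk_of_le_two h]; exact (flat_le zero_le_one ρ).trans exp_neg_hundred

lemma Bk_ge_flat (ρ : ℝ) : flat 1 ρ ≤ Bk ρ := by
  unfold Bk; have := ss_nonneg (ρ - 2); linarith

lemma Bk_ge_nine {ρ : ℝ} (h : 3 ≤ ρ) : 9 ≤ Bk ρ := by
  unfold Bk
  rw [ss_of_one_le (by linarith : 1 ≤ ρ - 2)]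
  have := flat_nonneg 1 ρ; linarith

/-! ### windows -/

lemma Rw_nonneg (u : ℝ) : 0 ≤ Rw u := mul_nonneg (ss_nonneg _) (ss_nonneg _)
lemma Rw_le_one (u : ℝ) : Rw u ≤ 1 := mul_le_one₀ (ss_le_one _) (ss_nonneg _) (ss_le_one _)
lemma Dw_nonneg (u : ℝ) : 0 ≤ Dw u := mul_nonneg (ss_nonneg _) (ss_nonneg _)
lemma Dw_le_one (u : ℝ) : Dw u ≤ 1 := mul_le_one₀ (ss_le_one _) (ss_nonneg _) (ss_le_one _)
lemma Ww_nonneg (u : ℝ) : 0 ≤ Ww u := mul_nonneg (ss_nonneg _) (ss_nonneg _)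
lemma Ww_le_one (u : ℝ) : Ww u ≤ 1 := mul_le_one₀ (ss_le_one _) (ss_nonneg _) (ss_le_one _)
lemma Xw_nonneg (u : ℝ) : 0 ≤ Xw u := mul_nonneg (ss_nonneg _) (ss_nonneg _)
lemma Xw_le_one (u : ℝ) : Xw u ≤ 1 := mul_le_one₀ (ss_le_one _) (ss_nonneg _) (ss_le_one _)

lemma Rw_eq_zero {u : ℝ} (h : u ≤ -3 ∨ -2 ≤ u) : Rw u = 0 := by
  rcases h with h | h
  · rw [Rw, ss_of_nonpos (by linarith), zero_mul]
  · rw [Rw, ss_of_nonpos (by linarith : 10 * (-2 - u) ≤ 0), mul_zero]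

lemma Rw_eq_one {u : ℝ} (h : -29 / 10 ≤ u) (h' : u ≤ -21 / 10) : Rw u = 1 := by
  rw [Rw, ss_of_one_le (by linarith), ss_of_one_le (by linarith), one_mul]

lemma Dw_eq_zero {u : ℝ} (h : u ≤ -3 / 4 ∨ 17 / 20 ≤ u) : Dw u = 0 := by
  rcases h with h | h
  · rw [Dw, ss_of_nonpos (by linarith), zero_mul]
  · rw [Dw, ss_of_nonpos (by linarith : 4 * (17 / 20 - u) ≤ 0), mul_zero]

lemma Dw_eq_one {u : ℝ} (h : -1 / 2 ≤ u) (h' : u ≤ 3 / 5) : Dw u = 1 := by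
  rw [Dw, ss_of_one_le (by linarith), ss_of_one_le (by linarith), one_mul]

lemma Ww_eq_zero {u : ℝ} (h : u ≤ 1 ∨ 3 ≤ u) : Ww u = 0 := by
  rcases h with h | h
  · rw [Ww, ss_of_nonpos (by linarith), zero_mul]
  · rw [Ww, ss_of_nonpos (by linarith : 2 * (3 - u) ≤ 0), mul_zero]

lemma Ww_eq_one {u : ℝ} (h : 3 / 2 ≤ u) (h' : u ≤ 5 / 2) : Ww u = 1 := by
  rw [Ww, ss_of_one_le (by linarith), ss_of_one_le (by linarith), one_mul]

lemma Xw_eq_zero {f : ℝ} (h : f ≤ 1 / 10 ∨ 9 / 10 ≤ f) : Xw f = 0 := by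
  rcases h with h | h
  · rw [Xw, ss_of_nonpos (by linarith), zero_mul]
  · rw [Xw, ss_of_nonpos (by linarith : 10 * (9 / 10 - f) ≤ 0), mul_zero]

lemma Xw_eq_one {f : ℝ} (h : 1 / 5 ≤ f) (h' : f ≤ 4 / 5) : Xw f = 1 := by
  rw [Xw, ss_of_one_le (by linarith), ss_of_one_le (by linarith), one_mul]

lemma gp_nonneg (h : ℝ) : 0 ≤ gp h := ss_nonneg _
lemma gp_le_one (h : ℝ) : gp h ≤ 1 := ss_le_one _
lemma gf_nonneg (h : ℝ) : 0 ≤ gf h := ss_nonneg _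
lemma gf_le_one (h : ℝ) : gf h ≤ 1 := ss_le_one _

lemma gp_eq_zero {h : ℝ} (hh : h ≤ -3 / 5) : gp h = 0 := ss_of_nonpos (by linarith)
lemma gp_eq_one {h : ℝ} (hh : -1 / 5 ≤ h) : gp h = 1 := ss_of_one_le (by linarith)
lemma gf_eq_one {h : ℝ} (hh : 1 / 250 ≤ 1 - h) : gf h = 1 := ss_of_one_le (by linarith)
lemma gf_eq_zero {h : ℝ} (hh : 1 - h ≤ 1 / 1000) : gf h = 0 := ss_of_nonpos (by linarith)

/-! ### level clip -/

lemma cl_of_nonpos {x : ℝ} (h : x ≤ 0) : cl x = 0 := by simp [cl, max_eq_right h]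

lemma cl_nonneg (x : ℝ) : 0 ≤ cl x := by
  unfold cl; have := le_max_right x 0; positivity

lemma kap_of_mem {ρ : ℝ} (h0 : 0 ≤ ρ) (h4 : ρ ≤ 4) : kap ρ = ρ := by
  unfold kap; rw [cl_of_nonpos (by linarith), cl_of_nonpos (by linarith)]; ring

lemma kap_of_nonpos {ρ : ℝ} (h0 : ρ ≤ 0) : kap ρ = ρ / (1 - ρ) := by
  unfold kap; rw [cl_of_nonpos (by linarith : ρ - 4 ≤ 0)]
  unfold cl; rw [max_eq_left (by linarith : (0:ℝ) ≤ -ρ)]
  have : (1:ℝ) - ρ ≠ 0 := by linarith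
  have : (1:ℝ) + -ρ ≠ 0 := by linarith
  field_simp; ring

lemma kap_of_ge {ρ : ℝ} (h4 : 4 ≤ ρ) : kap ρ = 4 + (ρ - 4) / (ρ - 3) := by
  unfold kap; rw [cl_of_nonpos (by linarith : -ρ ≤ 0)]
  unfold cl; rw [max_eq_left (by linarith : (0:ℝ) ≤ ρ - 4)]
  have h1 : (ρ:ℝ) - 3 ≠ 0 := by linarith
  have h2 : (1:ℝ) + (ρ - 4) = ρ - 3 := by ring
  rw [h2]
  field_simp; ring

lemma kap_le {ρ : ℝ} (h : 0 ≤ ρ) : kap ρ ≤ ρ := by
  unfold kap; rw [cl_of_nonpos (by linarith : -ρ ≤ 0)]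
  have := cl_nonneg (ρ - 4); linarith

lemma kap_ge_min {ρ : ℝ} (h : 0 ≤ ρ) : min ρ 4 ≤ kap ρ := by
  rcases le_total ρ 4 with h4 | h4
  · rw [kap_of_mem h h4]; exact min_le_left _ _
  · rw [kap_of_ge h4, min_eq_right h4]
    have : 0 ≤ (ρ - 4) / (ρ - 3) := div_nonneg (by linarith) (by linarith)
    linarith

lemma kap_lt_five (ρ : ℝ) : kap ρ < 5 := by
  rcases le_total ρ 4 with h4 | h4
  · rcases le_total ρ 0 with h0 | h0
    · rw [kap_of_nonpos h0]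
      have : ρ / (1 - ρ) ≤ 0 := div_nonpos_of_nonpos_of_nonneg h0 (by linarith)
      linarith
    · rw [kap_of_mem h0 h4]; linarith
  · rw [kap_of_ge h4]
    have : (ρ - 4) / (ρ - 3) < 1 := by rw [div_lt_one (by linarith)]; linarith
    linarith

lemma kap_gt (ρ : ℝ) : -1 < kap ρ := by
  rcases le_total 0 ρ with h0 | h0
  · have := kap_ge_min h0
    have : 0 ≤ min ρ 4 := le_min h0 (by norm_num)
    linarith
  · rw [kap_of_nonpos h0, neg_lt, ← neg_div, div_lt_one (by linarith)]; linarith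

/-! ### stereographic coordinate -/

lemma hh_lt_one (ζ : ℂ) : hh ζ < 1 := by
  unfold hh; rw [div_lt_one (by positivity)]; linarith

lemma hh_ge (ζ : ℂ) : -1 ≤ hh ζ := by
  unfold hh; rw [le_div_iff₀ (by positivity)]; nlinarith [sq_nonneg ‖ζ‖]

lemma one_add_hh (ζ : ℂ) : 1 + hh ζ = 2 * ‖ζ‖ ^ 2 / (‖ζ‖ ^ 2 + 1) := by
  unfold hh; have : ‖ζ‖ ^ 2 + 1 ≠ 0 := by positivity
  field_simp; ring

lemma one_sub_hh (ζ : ℂ) : 1 - hh ζ = 2 / (‖ζ‖ ^ 2 + 1) := by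
  unfold hh; have : ‖ζ‖ ^ 2 + 1 ≠ 0 := by positivity
  field_simp; ring

lemma one_add_hh_le (ζ : ℂ) : 1 + hh ζ ≤ 2 * ‖ζ‖ ^ 2 := by
  rw [one_add_hh]; rw [div_le_iff₀ (by positivity)]; nlinarith [sq_nonneg ‖ζ‖, sq_nonneg (‖ζ‖^2)]

lemma min_le_one_add_hh (ζ : ℂ) : min 1 (‖ζ‖ ^ 2) ≤ 1 + hh ζ := by
  rw [one_add_hh, le_div_iff₀ (by positivity)]
  rcases le_total (‖ζ‖ ^ 2) 1 with h | h
  · rw [min_eq_right h]; nlinarith [sq_nonneg ‖ζ‖]
  · rw [min_eq_left h]; nlinarith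

lemma norm_zz (ζ : ℂ) : ‖zz ζ‖ = 2 * ‖ζ‖ / (‖ζ‖ ^ 2 + 1) := by
  unfold zz; rw [norm_mul, Complex.norm_real, Real.norm_of_nonneg (by positivity)]; ring

lemma zz_div_norm (ζ : ℂ) : zz ζ / (‖zz ζ‖ : ℂ) = ζ / (‖ζ‖ : ℂ) := by
  by_cases h : ζ = 0
  · simp [h, zz]
  · have h1 : (‖ζ‖ : ℂ) ≠ 0 := by simpa using h
    rw [norm_zz]
    unfold zz
    have h2 : ((‖ζ‖ ^ 2 + 1 : ℝ) : ℂ) ≠ 0 := by
      rw [Ne, Complex.ofReal_eq_zero]; positivity
    push_cast at h2 ⊢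
    field_simp

lemma hh_le_of_norm_le {ζ : ℂ} (h : ‖ζ‖ ≤ 1 / 2) : hh ζ ≤ -3 / 5 := by
  unfold hh; rw [div_le_iff₀ (by positivity)]; nlinarith [norm_nonneg ζ]

lemma gp_hh_eq_zero {ζ : ℂ} (h : ‖ζ‖ ≤ 1 / 2) : gp (hh ζ) = 0 := gp_eq_zero (hh_le_of_norm_le h)

lemma gp_hh_eq_one {ζ : ℂ} (h : 2 / 3 ≤ ‖ζ‖ ^ 2) : gp (hh ζ) = 1 := by
  apply gp_eq_one; unfold hh; rw [le_div_iff₀ (by positivity)]; nlinarith

lemma gf_hh_eq_one {ζ : ℂ} (h : ‖ζ‖ ≤ 20) : gf (hh ζ) = 1 := by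
  apply gf_eq_one; rw [one_sub_hh, le_div_iff₀ (by positivity)]; nlinarith [norm_nonneg ζ]

/-! ### saturation -/

lemma norm_sat (v : ℂ) : ‖sat v‖ = satR ‖v‖ := by
  unfold sat satR
  rw [norm_mul, Complex.norm_real, Real.norm_of_nonneg (by positivity)]; ring

lemma sat_real_mul (r : ℝ) (hr : 0 ≤ r) (e : ℂ) (he : ‖e‖ = 1) :
    sat ((r : ℂ) * e) = ((satR r : ℝ) : ℂ) * e := by
  have h1 : ‖(r : ℂ) * e‖ = r := by
    rw [norm_mul, he, Complex.norm_real, Real.norm_of_nonneg hr, mul_one]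
  unfold sat satR
  rw [h1]
  push_cast
  ring

lemma satR_nonneg {y : ℝ} (h : 0 ≤ y) : 0 ≤ satR y := by unfold satR; positivity

lemma satR_lt_one (y : ℝ) : satR y < 1 := by
  unfold satR; rw [div_lt_one (by positivity)]
  exact Real.lt_sqrt_of_sq_lt (by linarith)

lemma satR_zero : satR 0 = 0 := by simp [satR]

lemma sat_zero : sat 0 = 0 := by simp [sat]

lemma gain_nonneg (t : ℝ) : 0 ≤ gain t := by
  unfold gain; have := Real.cos_le_one (2 * π * t); have := exp_pos 3000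
  apply mul_nonneg this.le; linarith

/-! ### centred time -/

lemma cen_eq {t : ℝ} {k : ℤ} (h : |t - k| < 1 / 2) : cen t = t - k := by
  unfold cen
  have : round t = k := by
    rw [round_eq, Int.floor_eq_iff]
    rw [abs_lt] at h
    constructor <;> linarith
  rw [this]

lemma abs_cen_le (t : ℝ) : |cen t| ≤ 1 / 2 := abs_sub_round t

end

end Crest.Agent.R123
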