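import Mathlib

set_option autoImplicit false
open scoped Manifold ContDiff Topology
open Set

namespace Crest.Agent.R123

section transport

variable {E F : Type} [NormedAddCommGroup E] [NormedSpace ℝ E]
  [NormedAddCommGroup F] [NormedSpace ℝ F]

/-- Transport the model space of a charted space along a continuous linear equivalence. -/
@[reducible] def tCharted (e : E ≃L[ℝ] F) (M : Type) [TopologicalSpace M] [ChartedSpace E M] :
    ChartedSpace F M where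
  atlas := (fun c => c.trans e.toHomeomorph.toOpenPartialHomeomorph) '' atlas E M
  chartAt x := (chartAt E x).trans e.toHomeomorph.toOpenPartialHomeomorph
  mem_chart_source x := by simp
  chart_mem_atlas x := ⟨chartAt E x, chart_mem_atlas E x, rfl⟩

theorem tCharted_isManifold (e : E ≃L[ℝ] F) (M : Type) [TopologicalSpace M] [ChartedSpace E M]
    [IsManifold 𝓘(ℝ, E) ∞ M] :
    @IsManifold ℝ _ F _ _ F _ 𝓘(ℝ, F) ∞ M _ (tCharted e M) := by
  let _ := tCharted e M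
  apply isManifold_of_contDiffOn
  rintro _ _ ⟨c, hc, rfl⟩ ⟨c', hc', rfl⟩
  have h := (contDiffGroupoid ∞ 𝓘(ℝ, E)).compatible hc hc'
  rw [contDiffGroupoid, mem_groupoid_of_pregroupoid] at h
  have h1 := h.1
  simp only [contDiffPregroupoid, mfld_simps] at h1
  have h2 : ContDiffOn ℝ ∞ (e ∘ (c' ∘ c.symm) ∘ e.symm)
      (e.symm ⁻¹' (c.target ∩ c.symm ⁻¹' c'.source)) := by
    refine (e.contDiff.comp_contDiffOn (h1.comp e.symm.contDiff.contDiffOn ?_))
    intro x hx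
    simpa using hx
  refine h2.congr_mono ?_ ?_
  · intro x hx
    simp
  · intro x hx
    simpa using hx

theorem tCharted_contMDiff (e : E ≃L[ℝ] F) (M : Type) [TopologicalSpace M] [ChartedSpace E M]
    [IsManifold 𝓘(ℝ, E) ∞ M] (f : M → M) (hf : ContMDiff 𝓘(ℝ, E) 𝓘(ℝ, E) 1 f) :
    @ContMDiff ℝ _ F _ _ F _ 𝓘(ℝ, F) M _ (tCharted e M) F _ _ F _ 𝓘(ℝ, F) M _
      (tCharted e M) 1 f := by
  have h1M : IsManifold 𝓘(ℝ, E) 1 M := IsManifold.of_le (n := ∞) (by norm_num)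
  have hc := (contMDiff_iff (I := 𝓘(ℝ, E)) (I' := 𝓘(ℝ, E)) (n := 1) (f := f)).1 hf
  let _ := tCharted e M
  have hM : @IsManifold ℝ _ F _ _ F _ 𝓘(ℝ, F) ∞ M _ (tCharted e M) := tCharted_isManifold e M
  have hM1 : IsManifold 𝓘(ℝ, F) 1 M := IsManifold.of_le (n := ∞) (by norm_num)
  rw [contMDiff_iff]
  refine ⟨hc.1, fun x y => ?_⟩
  have h : ContDiffOn ℝ 1 (chartAt E y ∘ f ∘ (chartAt E x).symm)
      ((chartAt E x).target ∩ (chartAt E x).symm ⁻¹' (f ⁻¹' (chartAt E y).source)) := by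
    have h := hc.2 x y
    simpa only [mfld_simps] using h
  have h2 : ContDiffOn ℝ 1 (e ∘ (chartAt E y ∘ f ∘ (chartAt E x).symm) ∘ e.symm)
      (e.symm ⁻¹' ((chartAt E x).target ∩ (chartAt E x).symm ⁻¹' (f ⁻¹' (chartAt E y).source))) :=
    e.contDiff.comp_contDiffOn (h.comp e.symm.contDiff.contDiffOn (fun x hx => hx))
  have hch : ∀ x : M, chartAt F x = (chartAt E x).trans e.toHomeomorph.toOpenPartialHomeomorph :=
    fun _ => rfl
  refine h2.congr_mono ?_ ?_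
  · intro z hz
    simp [extChartAt, hch]
  · intro z hz
    simpa [extChartAt, hch] using hz

end transport

end Crest.Agent.R123

namespace Crest.Agent.R123

open Metric Module

section product

variable (E : Type) [NormedAddCommGroup E] [InnerProductSpace ℝ E] [Fact (finrank ℝ E = 2 + 1)]
variable (E' : Type) [NormedAddCommGroup E'] [InnerProductSpace ℝ E'] [Fact (finrank ℝ E' = 1 + 1)]

/-- The product of three spheres of `E` and one of `E'`. -/
abbrev PM : Type := sphere (0 : E) 1 × sphere (0 : E) 1 × sphere (0 : E) 1 × sphere (0 : E') 1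

abbrev Mod7 : Type := EuclideanSpace ℝ (Fin 2) × EuclideanSpace ℝ (Fin 2) ×
  EuclideanSpace ℝ (Fin 2) × EuclideanSpace ℝ (Fin 1)

@[reducible] noncomputable def pmCharted : ChartedSpace Mod7 (PM E E') :=
  inferInstanceAs (ChartedSpace (ModelProd (EuclideanSpace ℝ (Fin 2))
    (ModelProd (EuclideanSpace ℝ (Fin 2)) (ModelProd (EuclideanSpace ℝ (Fin 2))
      (EuclideanSpace ℝ (Fin 1))))) (PM E E'))

theorem model_eq : (𝓘(ℝ, Mod7)) = (𝓡 2).prod ((𝓡 2).prod ((𝓡 2).prod (𝓡 1))) := by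
  rw [modelWithCornersSelf_prod, modelWithCornersSelf_prod, modelWithCornersSelf_prod]

theorem pm_isManifold : @IsManifold ℝ _ Mod7 _ _ Mod7 _ 𝓘(ℝ, Mod7) ∞ (PM E E') _
    (pmCharted E E') := by
  rw [model_eq]
  exact inferInstanceAs (IsManifold ((𝓡 2).prod ((𝓡 2).prod ((𝓡 2).prod (𝓡 1)))) ∞ (PM E E'))

/-- The inclusion of the product of spheres in the ambient product. -/
def pmι (p : PM E E') : E × E × E × E' := (p.1, p.2.1, p.2.2.1, p.2.2.2)

theorem pmι_contMDiff : ContMDiff ((𝓡 2).prod ((𝓡 2).prod ((𝓡 2).prod (𝓡 1))))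
    𝓘(ℝ, E × E × E × E') ∞ (pmι E E') := by
  have h1 : ContMDiff ((𝓡 2).prod ((𝓡 2).prod ((𝓡 2).prod (𝓡 1)))) 𝓘(ℝ, E) ∞
      (fun p : PM E E' => (p.1 : E)) := contMDiff_coe_sphere.comp contMDiff_fst
  have h2 : ContMDiff ((𝓡 2).prod ((𝓡 2).prod ((𝓡 2).prod (𝓡 1)))) 𝓘(ℝ, E) ∞
      (fun p : PM E E' => (p.2.1 : E)) :=
    contMDiff_coe_sphere.comp (contMDiff_fst.comp contMDiff_snd)
  have h3 : ContMDiff ((𝓡 2).prod ((𝓡 2).prod ((𝓡 2).prod (𝓡 1)))) 𝓘(ℝ, E) ∞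
      (fun p : PM E E' => (p.2.2.1 : E)) :=
    contMDiff_coe_sphere.comp (contMDiff_fst.comp (contMDiff_snd.comp contMDiff_snd))
  have h4 : ContMDiff ((𝓡 2).prod ((𝓡 2).prod ((𝓡 2).prod (𝓡 1)))) 𝓘(ℝ, E') ∞
      (fun p : PM E E' => (p.2.2.2 : E')) :=
    contMDiff_coe_sphere.comp (contMDiff_snd.comp (contMDiff_snd.comp contMDiff_snd))
  exact h1.prodMk_space (h2.prodMk_space (h3.prodMk_space h4))

theorem pm_contMDiff {f : PM E E' → PM E E'} {F : E × E × E × E' → E × E × E × E'}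
    (hF : ∀ p, ContDiffAt ℝ 1 F (pmι E E' p)) (hf : ∀ p, pmι E E' (f p) = F (pmι E E' p)) :
    ContMDiff ((𝓡 2).prod ((𝓡 2).prod ((𝓡 2).prod (𝓡 1))))
      ((𝓡 2).prod ((𝓡 2).prod ((𝓡 2).prod (𝓡 1)))) 1 f := by
  have hι := (pmι_contMDiff E E').of_le (n := ∞) (m := 1) (by norm_num)
  have hFι : ContMDiff ((𝓡 2).prod ((𝓡 2).prod ((𝓡 2).prod (𝓡 1))))
      𝓘(ℝ, E × E × E × E') 1 (fun p => F (pmι E E' p)) := by
    intro p
    exact ContMDiffAt.comp p ((hF p).contMDiffAt) (hι p)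
  have hFι' : ContMDiff ((𝓡 2).prod ((𝓡 2).prod ((𝓡 2).prod (𝓡 1))))
      𝓘(ℝ, E × E × E × E') 1 (fun p => pmι E E' (f p)) := by
    simpa only [hf] using hFι
  have c1 : ContMDiff ((𝓡 2).prod ((𝓡 2).prod ((𝓡 2).prod (𝓡 1)))) 𝓘(ℝ, E) 1
      (fun p => ((f p).1 : E)) := contDiff_fst.contMDiff.comp hFι'
  have c2 : ContMDiff ((𝓡 2).prod ((𝓡 2).prod ((𝓡 2).prod (𝓡 1)))) 𝓘(ℝ, E) 1
      (fun p => ((f p).2.1 : E)) := (contDiff_fst.comp contDiff_snd).contMDiff.comp hFι'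
  have c3 : ContMDiff ((𝓡 2).prod ((𝓡 2).prod ((𝓡 2).prod (𝓡 1)))) 𝓘(ℝ, E) 1
      (fun p => ((f p).2.2.1 : E)) :=
    (contDiff_fst.comp (contDiff_snd.comp contDiff_snd)).contMDiff.comp hFι'
  have c4 : ContMDiff ((𝓡 2).prod ((𝓡 2).prod ((𝓡 2).prod (𝓡 1)))) 𝓘(ℝ, E') 1
      (fun p => ((f p).2.2.2 : E')) :=
    (contDiff_snd.comp (contDiff_snd.comp contDiff_snd)).contMDiff.comp hFι'
  have d1 := c1.codRestrict_sphere (n := 2) (fun p => (f p).1.2)
  have d2 := c2.codRestrict_sphere (n := 2) (fun p => (f p).2.1.2)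
  have d3 := c3.codRestrict_sphere (n := 2) (fun p => (f p).2.2.1.2)
  have d4 := c4.codRestrict_sphere (n := 1) (fun p => (f p).2.2.2.2)
  exact d1.prodMk (d2.prodMk (d3.prodMk d4))

/-- The model space `ℝ² × ℝ² × ℝ² × ℝ¹` is linearly isomorphic to `ℝ⁷`. -/
noncomputable def mod7Equiv : Mod7 ≃L[ℝ] EuclideanSpace ℝ (Fin 7) :=
  ContinuousLinearEquiv.ofFinrankEq (by simp)

/-- **Manifold package**: the product `S² × S² × S² × S¹` is a smooth `7`-manifold, and a self-map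
which is the restriction of an ambient map which is `C¹` near the product is `C¹`. -/
theorem manifold_package (f : PM E E' → PM E E') (F : E × E × E × E' → E × E × E × E')
    (hF : ∀ p, ContDiffAt ℝ 1 F (pmι E E' p)) (hf : ∀ p, pmι E E' (f p) = F (pmι E E' p)) :
    ∃ (_ : ChartedSpace (EuclideanSpace ℝ (Fin 7)) (PM E E'))
      (_ : IsManifold (modelWithCornersSelf ℝ (EuclideanSpace ℝ (Fin 7))) ∞ (PM E E')),
      ContMDiff (modelWithCornersSelf ℝ (EuclideanSpace ℝ (Fin 7)))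
        (modelWithCornersSelf ℝ (EuclideanSpace ℝ (Fin 7))) 1 f := by
  let _ := pmCharted E E'
  have _ : IsManifold 𝓘(ℝ, Mod7) ∞ (PM E E') := pm_isManifold E E'
  have h : ContMDiff 𝓘(ℝ, Mod7) 𝓘(ℝ, Mod7) 1 f := by
    rw [model_eq]
    exact pm_contMDiff E E' hF hf
  exact ⟨tCharted mod7Equiv (PM E E'), tCharted_isManifold mod7Equiv (PM E E'),
    tCharted_contMDiff mod7Equiv (PM E E') f h⟩

end product

end Crest.Agent.R123
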