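/-
R123 / S0163, task CLOCK : values of the clock functions at `hour σ`.
-/
import Crest.Agent.R123.Defs

set_option autoImplicit false

namespace Crest.Agent.R123

open Real (smoothTransition)

lemma hour_add (a b : ℝ) : hour (a + b) = hour a * hour b := by
  unfold hour
  rw [← Complex.exp_add]
  congr 1
  push_cast
  ring

lemma norm_hour (a : ℝ) : ‖hour a‖ = 1 := by
  unfold hour
  exact Complex.norm_exp_ofReal_mul_I _

lemma hour_add_int (a : ℝ) (m : ℤ) : hour (a + 12 * m) = hour a := by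
  unfold hour
  rw [Complex.exp_eq_exp_iff_exists_int]
  refine ⟨m, ?_⟩
  push_cast
  ring

lemma hour_eq_cos_sin (t : ℝ) :
    hour t = ((Real.cos (Real.pi / 6 * t) : ℝ) : ℂ) + ((Real.sin (Real.pi / 6 * t) : ℝ) : ℂ) * Complex.I := by
  unfold hour
  rw [Complex.exp_mul_I, Complex.ofReal_cos, Complex.ofReal_sin]

lemma hour_re (t : ℝ) : (hour t).re = Real.cos (Real.pi / 6 * t) := by
  rw [hour_eq_cos_sin, Complex.add_re, Complex.ofReal_re, Complex.re_ofReal_mul, Complex.I_re]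
  ring

lemma hour_im (t : ℝ) : (hour t).im = Real.sin (Real.pi / 6 * t) := by
  rw [hour_eq_cos_sin, Complex.add_im, Complex.ofReal_im, Complex.im_ofReal_mul, Complex.I_im]
  ring

lemma conj_hour (t : ℝ) : (starRingEnd ℂ) (hour t) = hour (-t) := by
  apply Complex.ext
  · rw [Complex.conj_re, hour_re, hour_re, mul_neg, Real.cos_neg]
  · rw [Complex.conj_im, hour_im, hour_im, mul_neg, Real.sin_neg]

/-- every point of the circle is some hour -/
lemma exists_hour (z : S1) : ∃ t : ℝ, (z : ℂ) = hour t := by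
  have h : ‖(z : ℂ)‖ = 1 := by simp
  refine ⟨Complex.arg (z : ℂ) * 6 / Real.pi, ?_⟩
  unfold hour
  have hpi : Real.pi ≠ 0 := Real.pi_ne_zero
  have h1 : Real.pi / 6 * (Complex.arg (z : ℂ) * 6 / Real.pi) = Complex.arg (z : ℂ) := by
    field_simp
  rw [h1]
  have := Complex.norm_mul_exp_arg_mul_I (z : ℂ)
  rw [h] at this
  simpa using this.symm

lemma rho_hour (t : ℝ) : rho (hour t) = Real.cos (Real.pi / 6 * (t - 4)) := by
  unfold rho
  rw [conj_hour, ← hour_add, hour_re]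
  congr 1

lemma SZ_nonneg (z : ℂ) : 0 ≤ SZ z := smoothTransition.nonneg _
lemma SZ_le_one (z : ℂ) : SZ z ≤ 1 := smoothTransition.le_one _
lemma sz_nonneg (z : ℂ) : 0 ≤ sz z := smoothTransition.nonneg _
lemma sz_le_one (z : ℂ) : sz z ≤ 1 := smoothTransition.le_one _

lemma cos_clock (s : ℝ) (m : ℤ) :
    Real.cos (Real.pi / 6 * s) = Real.cos (Real.pi / 6 * (s - 12 * m)) := by
  have : Real.pi / 6 * (s - 12 * m) = Real.pi / 6 * s - m * (2 * Real.pi) := by ring
  rw [this, Real.cos_sub_int_mul_two_pi]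

lemma SZ_one {t : ℝ} (m : ℤ) (h1 : 12 * m + 1 ≤ t) (h2 : t ≤ 12 * m + 7) : SZ (hour t) = 1 := by
  unfold SZ
  apply smoothTransition.one_of_one_le
  rw [rho_hour, cos_clock _ m]
  have hpi := Real.pi_pos
  have : 0 ≤ Real.cos (Real.pi / 6 * (t - 4 - 12 * m)) := by
    apply Real.cos_nonneg_of_neg_pi_div_two_le_of_le
    · nlinarith
    · nlinarith
  linarith

lemma SZ_zero {t : ℝ} (m : ℤ) (h1 : 12 * m - 4 ≤ t) (h2 : t ≤ 12 * m) : SZ (hour t) = 0 := by
  unfold SZ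
  apply smoothTransition.zero_of_nonpos
  rw [rho_hour, cos_clock _ m]
  have hpi := Real.pi_pos
  have e : Real.cos (Real.pi / 6 * (t - 4 - 12 * m)) =
      - Real.cos (Real.pi / 6 * (t - 4 - 12 * m) + Real.pi) := by
    rw [Real.cos_add_pi]; ring
  rw [e]
  have h3 : Real.cos (Real.pi / 3) ≤ Real.cos (Real.pi / 6 * (t - 4 - 12 * m) + Real.pi) := by
    rw [← Real.cos_abs (Real.pi / 6 * (t - 4 - 12 * m) + Real.pi)]
    apply Real.cos_le_cos_of_nonneg_of_le_pi (abs_nonneg _)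
    · linarith
    · rw [abs_le]; constructor <;> nlinarith
  rw [Real.cos_pi_div_three] at h3
  linarith

lemma sz_one {t : ℝ} (m : ℤ) (h1 : 12 * m + 3 ≤ t) (h2 : t ≤ 12 * m + 5) : sz (hour t) = 1 := by
  unfold sz
  apply smoothTransition.one_of_one_le
  rw [rho_hour, cos_clock _ m]
  have hpi := Real.pi_pos
  have hpi4 := Real.pi_le_four
  have h3 := Real.one_sub_sq_div_two_le_cos (x := Real.pi / 6 * (t - 4 - 12 * m))
  have h4 : (Real.pi / 6 * (t - 4 - 12 * m)) ^ 2 ≤ (2 / 3) ^ 2 := by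
    rw [sq_le_sq, abs_mul, abs_of_pos (by positivity : (0:ℝ) < Real.pi / 6)]
    have : |t - 4 - 12 * (m : ℝ)| ≤ 1 := by rw [abs_le]; constructor <;> linarith
    rw [abs_of_pos (by norm_num : (0:ℝ) < 2 / 3)]
    calc Real.pi / 6 * |t - 4 - 12 * (m : ℝ)| ≤ Real.pi / 6 * 1 := by gcongr
      _ ≤ 2 / 3 := by linarith
  linarith

lemma sz_zero {t : ℝ} (m : ℤ) (h1 : 12 * m - 4 ≤ t) (h2 : t ≤ 12 * m + 2) : sz (hour t) = 0 := by
  unfold sz
  apply smoothTransition.zero_of_nonpos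
  rw [rho_hour, cos_clock _ m]
  have hpi := Real.pi_pos
  have e : Real.cos (Real.pi / 6 * (t - 4 - 12 * m)) =
      - Real.cos (Real.pi / 6 * (t - 4 - 12 * m) + Real.pi) := by
    rw [Real.cos_add_pi]; ring
  rw [e]
  have h3 : Real.cos (2 * Real.pi / 3) ≤ Real.cos (Real.pi / 6 * (t - 4 - 12 * m) + Real.pi) := by
    rw [← Real.cos_abs (Real.pi / 6 * (t - 4 - 12 * m) + Real.pi)]
    apply Real.cos_le_cos_of_nonneg_of_le_pi (abs_nonneg _)
    · linarith
    · rw [abs_le]; constructor <;> nlinarith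
  have h4 : Real.cos (2 * Real.pi / 3) = - (1 / 2) := by
    have : 2 * Real.pi / 3 = Real.pi - Real.pi / 3 := by ring
    rw [this, Real.cos_pi_sub, Real.cos_pi_div_three]
  rw [h4] at h3
  linarith

lemma gam_nonneg (z : ℂ) : 0 ≤ gam z := by
  unfold gam
  exact mul_nonneg (SZ_nonneg _) (by linarith [SZ_le_one (z * hour (-1))])

lemma gam_le_one (z : ℂ) : gam z ≤ 1 := by
  unfold gam
  exact mul_le_one₀ (SZ_le_one _) (by linarith [SZ_le_one (z * hour (-1))])
    (by linarith [SZ_nonneg (z * hour (-1))])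

lemma gam_hour (t : ℝ) : gam (hour t) = SZ (hour t) * (1 - SZ (hour (t - 1))) := by
  unfold gam
  rw [← hour_add, sub_eq_add_neg t 1]

lemma gam_first {t : ℝ} (m : ℤ) (h1 : 12 * m ≤ t) (h2 : t ≤ 12 * m + 1) :
    gam (hour t) = SZ (hour t) := by
  rw [gam_hour, SZ_zero (t := t - 1) m (by linarith) (by linarith)]
  ring

lemma gam_second {t : ℝ} (m : ℤ) (h1 : 12 * m + 1 ≤ t) (h2 : t ≤ 12 * m + 2) :
    gam (hour t) = 1 - SZ (hour (t - 1)) := by
  rw [gam_hour, SZ_one (t := t) m (by linarith) (by linarith)]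
  ring

lemma gam_zero {t : ℝ} (m : ℤ) (h1 : 12 * m + 2 ≤ t) (h2 : t ≤ 12 * m + 8) :
    gam (hour t) = 0 := by
  rw [gam_hour, SZ_one (t := t - 1) m (by linarith) (by linarith)]
  ring

lemma gam_reset {t : ℝ} (m : ℤ) (h1 : 12 * m - 4 ≤ t) (h2 : t ≤ 12 * m) :
    gam (hour t) = 0 := by
  rw [gam_hour, SZ_zero (t := t) m h1 h2]
  ring

lemma abs_re_mul_conj_hour (z : S1) : |((z : ℂ) * (starRingEnd ℂ) (hour 5)).re| ≤ 1 := by
  have h : ‖(z : ℂ)‖ = 1 := by simp
  calc |((z : ℂ) * (starRingEnd ℂ) (hour 5)).re| ≤ ‖(z : ℂ) * (starRingEnd ℂ) (hour 5)‖ :=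
        Complex.abs_re_le_norm _
    _ = 1 := by rw [norm_mul, RCLike.norm_conj, norm_hour, h, one_mul]

lemma psi_nonneg (z : S1) : 0 ≤ psi (z : ℂ) := by
  unfold psi
  have := (abs_le.1 (abs_re_mul_conj_hour z)).1
  linarith

lemma psi_le_one (z : S1) : psi (z : ℂ) ≤ 1 := by
  unfold psi
  have := (abs_le.1 (abs_re_mul_conj_hour z)).2
  linarith

lemma psi_eq_one_iff (z : S1) : psi (z : ℂ) = 1 ↔ (z : ℂ) = hour 5 := by
  have h : ‖(z : ℂ)‖ = 1 := by simp
  have hn : ‖(z : ℂ) * (starRingEnd ℂ) (hour 5)‖ = 1 := by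
    rw [norm_mul, RCLike.norm_conj, norm_hour, h, one_mul]
  have hh : (starRingEnd ℂ) (hour 5) * hour 5 = 1 := by
    rw [conj_hour, ← hour_add]
    simp [hour]
  constructor
  · intro hp
    unfold psi at hp
    have hre : ((z : ℂ) * (starRingEnd ℂ) (hour 5)).re = 1 := by linarith
    have him : ((z : ℂ) * (starRingEnd ℂ) (hour 5)).im = 0 := by
      have h2 := Complex.sq_norm ((z : ℂ) * (starRingEnd ℂ) (hour 5))
      rw [hn, Complex.normSq_apply, hre] at h2
      nlinarith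
    have h1 : (z : ℂ) * (starRingEnd ℂ) (hour 5) = 1 := Complex.ext (by simpa using hre) (by simpa using him)
    calc (z : ℂ) = (z : ℂ) * ((starRingEnd ℂ) (hour 5) * hour 5) := by rw [hh, mul_one]
      _ = ((z : ℂ) * (starRingEnd ℂ) (hour 5)) * hour 5 := by ring
      _ = hour 5 := by rw [h1, one_mul]
  · intro hz
    unfold psi
    rw [hz, mul_comm, hh]
    norm_num

lemma psi_hour (t : ℝ) : psi (hour t) = (1 + Real.cos (Real.pi / 6 * (t - 5))) / 2 := by
  unfold psi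
  rw [conj_hour, ← hour_add, hour_re]
  congr 1

/-- quadratic lower bound -/
lemma psi_ge (t : ℝ) (m : ℤ) : 1 - (t - (12 * m + 5)) ^ 2 ≤ psi (hour t) := by
  rw [psi_hour, cos_clock _ m]
  have h3 := Real.one_sub_sq_div_two_le_cos (x := Real.pi / 6 * (t - 5 - 12 * m))
  have hpi := Real.pi_pos
  have hpi4 := Real.pi_le_four
  have h4 : (Real.pi / 6 * (t - 5 - 12 * m)) ^ 2 ≤ (t - 5 - 12 * m) ^ 2 := by
    rw [mul_pow]
    have : (Real.pi / 6) ^ 2 ≤ 1 := by nlinarith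
    nlinarith [sq_nonneg (t - 5 - 12 * (m : ℝ))]
  have e : (t - (12 * m + 5)) ^ 2 = (t - 5 - 12 * (m:ℝ)) ^ 2 := by ring
  rw [e]
  nlinarith [sq_nonneg (t - 5 - 12 * (m : ℝ))]

end Crest.Agent.R123
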