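import Mathlib

/-! Row 123: a concrete layer over Mathlib's singular chains with real coefficients. -/

set_option autoImplicit false

open CategoryTheory AlgebraicTopology Simplicial Opposite

namespace Crest.Agent.R123.Hom

noncomputable section

/-- coefficients -/
abbrev RR : ModuleCat.{0} ℝ := ModuleCat.of ℝ ℝ

/-- the singular chain complex -/
abbrev SC (X : Type) [TopologicalSpace X] : ChainComplex (ModuleCat.{0} ℝ) ℕ :=
  ((singularChainComplexFunctor (ModuleCat.{0} ℝ)).obj RR).obj (TopCat.of X)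

/-- singular homology -/
abbrev SH (n : ℕ) (X : Type) [TopologicalSpace X] : ModuleCat.{0} ℝ := (SC X).homology n

/-- the standard simplex -/
abbrev Dn (n : ℕ) : Type := stdSimplex ℝ (Fin (n + 1))

variable {X Y Z : Type} [TopologicalSpace X] [TopologicalSpace Y] [TopologicalSpace Z]

/-- the simplex of the singular simplicial set given by a continuous map -/
def sx {n : ℕ} (σ : C(Dn n, X)) : (TopCat.toSSet.obj (TopCat.of X)) _⦋n⦌ :=
  (TopCat.toSSetObjEquiv (TopCat.of X) (op ⦋n⦌)).symm σ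

/-- generator of the chain group -/
def sgl {n : ℕ} (σ : C(Dn n, X)) : (SC X).X n :=
  (SSet.ιChainComplex (X := TopCat.toSSet.obj (TopCat.of X)) (R := RR) (sx σ)).hom (1 : ℝ)

/-- face inclusions -/
def face (n : ℕ) (i : Fin (n + 2)) : C(Dn n, Dn (n + 1)) :=
  ⟨stdSimplex.map i.succAbove, stdSimplex.continuous_map _⟩

theorem sx_surj {n : ℕ} (x : (TopCat.toSSet.obj (TopCat.of X)) _⦋n⦌) :
    ∃ σ : C(Dn n, X), sx σ = x :=
  ⟨TopCat.toSSetObjEquiv (TopCat.of X) (op ⦋n⦌) x, Equiv.symm_apply_apply _ _⟩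

theorem delta_sx {n : ℕ} (σ : C(Dn (n + 1), X)) (i : Fin (n + 2)) :
    (TopCat.toSSet.obj (TopCat.of X)).δ i (sx σ) = sx (σ.comp (face n i)) := by
  rfl

theorem map_sx {n : ℕ} (σ : C(Dn n, X)) (f : C(X, Y)) :
    (TopCat.toSSet.map (TopCat.ofHom f)).app _ (sx σ) = sx (f.comp σ) := by
  rfl

theorem d_sgl {n : ℕ} (σ : C(Dn (n + 1), X)) :
    ((SC X).d (n + 1) n).hom (sgl σ) = ∑ i : Fin (n + 2), (-1 : ℤ) ^ (i : ℕ) •
      sgl (σ.comp (face n i)) := by
  have h := SSet.ιChainComplex_d (X := TopCat.toSSet.obj (TopCat.of X)) (R := RR) (sx σ)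
  have h2 := congrArg (fun φ => φ.hom (1 : ℝ)) h
  simp only [ModuleCat.hom_comp, LinearMap.comp_apply, ModuleCat.hom_sum, LinearMap.sum_apply,
    ModuleCat.hom_zsmul, LinearMap.smul_apply, delta_sx] at h2
  exact h2

theorem map_sgl {n : ℕ} (σ : C(Dn n, X)) (f : C(X, Y)) :
    ((((singularChainComplexFunctor (ModuleCat.{0} ℝ)).obj RR).map (TopCat.ofHom f)).f n).hom
      (sgl σ) = sgl (f.comp σ) := by
  have h := SSet.ι_chainComplexMap_f (X := TopCat.toSSet.obj (TopCat.of X))
    (Y := TopCat.toSSet.obj (TopCat.of Y)) (R := RR) (TopCat.toSSet.map (TopCat.ofHom f)) (sx σ)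
  have h2 := congrArg (fun φ => φ.hom (1 : ℝ)) h
  exact h2

/-- linear maps out of the chain group -/
def liftC {n : ℕ} {V : Type} [AddCommGroup V] [Module ℝ V] (φ : C(Dn n, X) → V) :
    (SC X).X n →ₗ[ℝ] V :=
  ((TopCat.toSSet.obj (TopCat.of X)).isColimitChainComplexXCofan RR n |>.desc
    (Limits.Cofan.mk (ModuleCat.of ℝ V) fun x => ModuleCat.ofHom
      (LinearMap.toSpanSingleton ℝ V (φ (TopCat.toSSetObjEquiv (TopCat.of X) (op ⦋n⦌) x))))).hom

theorem liftC_sgl {n : ℕ} {V : Type} [AddCommGroup V] [Module ℝ V] (φ : C(Dn n, X) → V)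
    (σ : C(Dn n, X)) : liftC φ (sgl σ) = φ σ := by
  have h := ((TopCat.toSSet.obj (TopCat.of X)).isColimitChainComplexXCofan RR n).fac
    (Limits.Cofan.mk (ModuleCat.of ℝ V) fun x => ModuleCat.ofHom
      (LinearMap.toSpanSingleton ℝ V (φ (TopCat.toSSetObjEquiv (TopCat.of X) (op ⦋n⦌) x))))
      ⟨sx σ⟩
  have h2 := congrArg (fun φ => φ.hom (1 : ℝ)) h
  refine (Eq.trans h2 ?_)
  simp [sx]

theorem chain_ext {n : ℕ} {V : Type} [AddCommGroup V] [Module ℝ V]
    (φ ψ : (SC X).X n →ₗ[ℝ] V) (h : ∀ σ : C(Dn n, X), φ (sgl σ) = ψ (sgl σ)) : φ = ψ := by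
  have h1 : ModuleCat.ofHom φ = ModuleCat.ofHom ψ := by
    apply SSet.chainComplex_hom_ext (X := TopCat.toSSet.obj (TopCat.of X)) (R := RR)
    intro x
    obtain ⟨σ, rfl⟩ := sx_surj x
    ext
    exact h σ
  exact congrArg (fun φ => φ.hom) h1

/-- pushing forward chains -/
def push (f : C(X, Y)) (n : ℕ) : (SC X).X n →ₗ[ℝ] (SC Y).X n :=
  ((((singularChainComplexFunctor (ModuleCat.{0} ℝ)).obj RR).map (TopCat.ofHom f)).f n).hom

/-- boundary -/
def bd (X : Type) [TopologicalSpace X] (n : ℕ) : (SC X).X (n + 1) →ₗ[ℝ] (SC X).X n :=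
  ((SC X).d (n + 1) n).hom

theorem push_sgl {n : ℕ} (f : C(X, Y)) (σ : C(Dn n, X)) : push f n (sgl σ) = sgl (f.comp σ) :=
  map_sgl σ f

theorem bd_sgl {n : ℕ} (σ : C(Dn (n + 1), X)) :
    bd X n (sgl σ) = ∑ i : Fin (n + 2), (-1 : ℤ) ^ (i : ℕ) • sgl (σ.comp (face n i)) := d_sgl σ

theorem bd_push {n : ℕ} (f : C(X, Y)) (x : (SC X).X (n + 1)) :
    bd Y n (push f (n + 1) x) = push f n (bd X n x) := by
  have h := (((singularChainComplexFunctor (ModuleCat.{0} ℝ)).obj RR).map (TopCat.ofHom f)).comm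
    (n + 1) n
  exact congrArg (fun φ => φ.hom x) h

/-- the cycle as a morphism from the coefficients -/
def elt {M : ModuleCat.{0} ℝ} (x : M) : RR ⟶ M := ModuleCat.ofHom (LinearMap.toSpanSingleton ℝ M x)

theorem elt_apply {M : ModuleCat.{0} ℝ} (x : M) : (elt x).hom (1 : ℝ) = x := by
  simp [elt]

theorem elt_comp {M N : ModuleCat.{0} ℝ} (x : M) (f : M ⟶ N) : elt x ≫ f = elt (f.hom x) := by
  ext
  simp [elt]

/-- the class of a cycle -/
def cls {n : ℕ} (x : (SC X).X (n + 1)) (hx : bd X n x = 0) : SH (n + 1) X :=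
  ((SC X).liftCycles (elt x) n (by simp) (by
    rw [elt_comp]
    have : ((SC X).d (n + 1) n).hom x = 0 := hx
    rw [this]
    ext
    simp [elt]) ≫ (SC X).homologyπ (n + 1)).hom (1 : ℝ)

theorem iota_cls {n : ℕ} (x : (SC X).X (n + 1)) (hx : bd X n x = 0) :
    ((SC X).homologyι (n + 1)).hom (cls x hx) = ((SC X).pOpcycles (n + 1)).hom x := by
  unfold cls
  rw [← ModuleCat.comp_apply, Category.assoc, HomologicalComplex.homology_π_ι,
    HomologicalComplex.liftCycles_i_assoc, ModuleCat.comp_apply, elt_apply]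

theorem cls_eq_zero_iff {n : ℕ} (x : (SC X).X (n + 1)) (hx : bd X n x = 0) :
    cls x hx = 0 ↔ ∃ y, bd X (n + 1) y = x := by
  have hmono : Function.Injective ((SC X).homologyι (n + 1)).hom :=
    (ModuleCat.mono_iff_injective _).1 inferInstance
  have h1 : cls x hx = 0 ↔ ((SC X).pOpcycles (n + 1)).hom x = 0 := by
    rw [← iota_cls x hx]
    constructor
    · intro h; rw [h, map_zero]
    · intro h; exact hmono (by rw [h, map_zero])
  rw [h1]
  have h2 := ((SC X).sc (n + 1)).moduleCat_pOpcycles_eq_zero_iff x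
  refine Iff.trans h2 ?_
  have hp : (ComplexShape.down ℕ).prev (n + 1) = n + 2 := by simp
  change x ∈ LinearMap.range ((SC X).d ((ComplexShape.down ℕ).prev (n + 1)) (n + 1)).hom ↔ _
  rw [hp]
  exact LinearMap.mem_range

/-- the map on homology -/
abbrev Hmap (f : C(X, Y)) (n : ℕ) : SH n X →ₗ[ℝ] SH n Y :=
  (HomologicalComplex.homologyMap
    (((singularChainComplexFunctor (ModuleCat.{0} ℝ)).obj RR).map (TopCat.ofHom f)) n).hom

theorem map_cls {n : ℕ} (f : C(X, Y)) (x : (SC X).X (n + 1)) (hx : bd X n x = 0) :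
    Hmap f (n + 1) (cls x hx) = cls (push f (n + 1) x) (by rw [bd_push, hx, map_zero]) := by
  have hmono : Function.Injective ((SC Y).homologyι (n + 1)).hom :=
    (ModuleCat.mono_iff_injective _).1 inferInstance
  apply hmono
  rw [iota_cls]
  unfold Hmap
  rw [← ModuleCat.comp_apply, HomologicalComplex.homologyι_naturality, ModuleCat.comp_apply,
    iota_cls, ← ModuleCat.comp_apply, HomologicalComplex.p_opcyclesMap, ModuleCat.comp_apply]
  rfl

theorem cls_add {n : ℕ} (x y : (SC X).X (n + 1)) (hx : bd X n x = 0) (hy : bd X n y = 0) :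
    cls (x + y) (by rw [map_add, hx, hy, add_zero]) = cls x hx + cls y hy := by
  have hmono : Function.Injective ((SC X).homologyι (n + 1)).hom :=
    (ModuleCat.mono_iff_injective _).1 inferInstance
  apply hmono
  rw [map_add ((SC X).homologyι (n + 1)).hom, iota_cls, iota_cls, iota_cls, map_add ((SC X).pOpcycles (n + 1)).hom]

theorem cls_smul {n : ℕ} (r : ℝ) (x : (SC X).X (n + 1)) (hx : bd X n x = 0) :
    cls (r • x) (by rw [map_smul, hx, smul_zero]) = r • cls x hx := by
  have hmono : Function.Injective ((SC X).homologyι (n + 1)).hom :=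
    (ModuleCat.mono_iff_injective _).1 inferInstance
  apply hmono
  rw [map_smul ((SC X).homologyι (n + 1)).hom, iota_cls, iota_cls,
    map_smul ((SC X).pOpcycles (n + 1)).hom]

theorem cls_eq_iff {n : ℕ} (x y : (SC X).X (n + 1)) (hx : bd X n x = 0) (hy : bd X n y = 0) :
    cls x hx = cls y hy ↔ ∃ z, bd X (n + 1) z = x - y := by
  have h : x - y = x + (-1 : ℝ) • y := by simp [sub_eq_add_neg]
  have h0 : bd X n (x - y) = 0 := by rw [map_sub, hx, hy, sub_zero]
  rw [← cls_eq_zero_iff (x - y) h0]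
  have h1 : cls (x - y) h0 = cls x hx - cls y hy := by
    have hy' : bd X n ((-1 : ℝ) • y) = 0 := by rw [map_smul, hy, smul_zero]
    have : cls (x - y) h0 = cls (x + (-1 : ℝ) • y) (by rw [map_add, hx, hy', add_zero]) := by
      congr 1
    rw [this, cls_add _ _ hx hy', cls_smul _ _ hy]
    simp [sub_eq_add_neg]
  rw [h1, sub_eq_zero]

theorem Hmap_comp (f : C(X, Y)) (g : C(Y, Z)) (n : ℕ) :
    Hmap (g.comp f) n = (Hmap g n).comp (Hmap f n) := by
  have h : ((singularChainComplexFunctor (ModuleCat.{0} ℝ)).obj RR).map (TopCat.ofHom (g.comp f))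
      = ((singularChainComplexFunctor (ModuleCat.{0} ℝ)).obj RR).map (TopCat.ofHom f) ≫
        ((singularChainComplexFunctor (ModuleCat.{0} ℝ)).obj RR).map (TopCat.ofHom g) := by
    rw [← Functor.map_comp]
    rfl
  unfold Hmap
  rw [h, HomologicalComplex.homologyMap_comp]
  rfl

theorem Hmap_id (n : ℕ) : Hmap (ContinuousMap.id X) n = LinearMap.id := by
  have h : ((singularChainComplexFunctor (ModuleCat.{0} ℝ)).obj RR).map
      (TopCat.ofHom (ContinuousMap.id X)) = 𝟙 _ :=
    (((singularChainComplexFunctor (ModuleCat.{0} ℝ)).obj RR).map_id (TopCat.of X))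
  unfold Hmap
  rw [h, HomologicalComplex.homologyMap_id]
  rfl

theorem Hmap_homotopic {f g : C(X, Y)} (h : f.Homotopic g) (n : ℕ) : Hmap f n = Hmap g n := by
  obtain ⟨H⟩ := h
  have H' : TopCat.Homotopy (TopCat.ofHom f) (TopCat.ofHom g) := H
  unfold Hmap
  rw [H'.congr_homologyMap_singularChainComplexFunctor RR n]

theorem subsingleton_SH_punit (n : ℕ) : Subsingleton (SH (n + 1) Unit) := by
  have h := isZero_singularHomologyFunctor_of_totallyDisconnectedSpace (ModuleCat.{0} ℝ) (n + 1)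
    RR (TopCat.of Unit) (by omega)
  exact ModuleCat.subsingleton_of_isZero h

/-- a cycle in a contractible space is a boundary -/
theorem exists_bd_of_contractible [ContractibleSpace X] {n : ℕ} (x : (SC X).X (n + 1))
    (hx : bd X n x = 0) : ∃ y, bd X (n + 1) y = x := by
  rw [← cls_eq_zero_iff x hx]
  obtain ⟨x0, hx0⟩ := (contractible_iff_id_nullhomotopic X).1 inferInstance
  have h1 : ContinuousMap.const X x0 = (ContinuousMap.const Unit x0).comp
      (ContinuousMap.const X ()) := by ext; rfl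
  have h2 : Hmap (ContinuousMap.id X) (n + 1) (cls x hx) = 0 := by
    rw [Hmap_homotopic hx0, h1, Hmap_comp, LinearMap.comp_apply]
    have := subsingleton_SH_punit n
    rw [Subsingleton.elim (Hmap (ContinuousMap.const X ()) (n + 1) (cls x hx)) 0, map_zero]
  rwa [Hmap_id] at h2

end

end Crest.Agent.R123.Hom
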