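/-
R123 / S0163, task HOMAPI : elementwise API for Mathlib's singular chain complex with real
coefficients, and a criterion for an eigenvalue 2 on H₂.
-/
import Crest.Agent.R123.HBasic

set_option autoImplicit false

noncomputable section

open CategoryTheory AlgebraicTopology Limits
open scoped Simplicial

namespace Crest.Agent.R123

/-- standard topological simplex -/
abbrev Dl (n : ℕ) : Type := stdSimplex ℝ (Fin (n + 1))

/-- face inclusion -/
def face {n : ℕ} (i : Fin (n + 2)) : C(Dl n, Dl (n + 1)) :=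
  ⟨stdSimplex.map (Fin.succAbove i), stdSimplex.continuous_map _⟩

/-- singular chain complex with real coefficients -/
abbrev KC (X : Type) [TopologicalSpace X] : ChainComplex (ModuleCat.{0} ℝ) ℕ :=
  ((singularChainComplexFunctor (ModuleCat.{0} ℝ)).obj (ModuleCat.of ℝ ℝ)).obj (TopCat.of X)

abbrev KCmap {X Y : Type} [TopologicalSpace X] [TopologicalSpace Y] (f : C(X, Y)) :
    KC X ⟶ KC Y :=
  ((singularChainComplexFunctor (ModuleCat.{0} ℝ)).obj (ModuleCat.of ℝ ℝ)).map (TopCat.ofHom f)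

/-- singular homology functor, as in the statement S0163 -/
abbrev HH (n : ℕ) (X : Type) [TopologicalSpace X] : ModuleCat.{0} ℝ :=
  ((singularHomologyFunctor (ModuleCat.{0} ℝ) n).obj (ModuleCat.of ℝ ℝ)).obj (TopCat.of X)

abbrev HHmap (n : ℕ) {X Y : Type} [TopologicalSpace X] [TopologicalSpace Y] (f : C(X, Y)) :
    HH n X ⟶ HH n Y :=
  ((singularHomologyFunctor (ModuleCat.{0} ℝ) n).obj (ModuleCat.of ℝ ℝ)).map (TopCat.ofHom f)

/-- the singular simplex of Mathlib attached to a continuous map -/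
def smp {X : Type} [TopologicalSpace X] {n : ℕ} (s : C(Dl n, X)) :
    (TopCat.toSSet.obj (TopCat.of X)) _⦋n⦌ :=
  ((TopCat.of X).toSSetObjEquiv (.op ⦋n⦌)).symm s

/-- generator of the singular chains -/
def gen {X : Type} [TopologicalSpace X] {n : ℕ} (s : C(Dl n, X)) : (KC X).X n :=
  (SSet.ιChainComplex (R := ModuleCat.of ℝ ℝ) (X := TopCat.toSSet.obj (TopCat.of X)) (smp s)).hom
    (1 : ℝ)

section
variable {X Y : Type} [TopologicalSpace X] [TopologicalSpace Y]

lemma d_gen {n : ℕ} (s : C(Dl (n + 1), X)) :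
    ((KC X).d (n + 1) n).hom (gen s) =
      ∑ i : Fin (n + 2), ((-1 : ℝ) ^ (i : ℕ)) • gen (s.comp (face i)) := by
  have h := Hom.d_sgl s
  refine (Eq.trans h ?_)
  apply Finset.sum_congr rfl
  intro i _
  have e : ((-1 : ℝ) ^ (i : ℕ)) = (((-1 : ℤ) ^ (i : ℕ) : ℤ) : ℝ) := by push_cast; rfl
  rw [e, Int.cast_smul_eq_zsmul]
  rfl

lemma map_gen {n : ℕ} (f : C(X, Y)) (s : C(Dl n, X)) :
    ((KCmap f).f n).hom (gen s) = gen (f.comp s) :=
  Hom.map_sgl s f

/-- linear functional on chains with prescribed values on simplices -/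
def func {n : ℕ} (φ : C(Dl n, X) → ℝ) : (KC X).X n →ₗ[ℝ] ℝ :=
  ((SSet.isColimitChainComplexXCofan (TopCat.toSSet.obj (TopCat.of X)) (ModuleCat.of ℝ ℝ) n).desc
    (Cofan.mk (ModuleCat.of ℝ ℝ) (fun x =>
      ModuleCat.ofHom ((φ ((TopCat.of X).toSSetObjEquiv (.op ⦋n⦌) x)) •
        (LinearMap.id : ℝ →ₗ[ℝ] ℝ))))).hom

lemma func_gen {n : ℕ} (φ : C(Dl n, X) → ℝ) (s : C(Dl n, X)) : func φ (gen s) = φ s := by
  have h := ((TopCat.toSSet.obj (TopCat.of X)).isColimitChainComplexXCofan (ModuleCat.of ℝ ℝ) n).fac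
    (Cofan.mk (ModuleCat.of ℝ ℝ) (fun x =>
      ModuleCat.ofHom ((φ ((TopCat.of X).toSSetObjEquiv (.op ⦋n⦌) x)) •
        (LinearMap.id : ℝ →ₗ[ℝ] ℝ)))) ⟨smp s⟩
  have h2 := congrArg (fun φ => φ.hom (1 : ℝ)) h
  refine (Eq.trans h2 ?_)
  simp [smp]

/-- chains are spanned by simplices. -/
lemma chain_ext {n : ℕ} {V : Type} [AddCommGroup V] [Module ℝ V]
    {a b : (KC X).X n →ₗ[ℝ] V} (h : ∀ s : C(Dl n, X), a (gen s) = b (gen s)) : a = b :=
  Hom.chain_ext a b h

/-- a cycle in a contractible space is a boundary (degree 2). -/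
lemma exists_boundary [ContractibleSpace X] (c : (KC X).X 2)
    (hc : ((KC X).d 2 1).hom c = 0) : ∃ e : (KC X).X 3, ((KC X).d 3 2).hom e = c :=
  Hom.exists_bd_of_contractible (n := 1) c hc

/-- homology criterion -/
theorem eigen_criterion (q : C(X, X)) (c : (KC X).X 2) (hc : ((KC X).d 2 1).hom c = 0)
    (φ : C(Dl 2, X) → ℝ)
    (hφ : ∀ t : C(Dl 3, X), ∑ i : Fin 4, ((-1 : ℝ) ^ (i : ℕ)) * φ (t.comp (face i)) = 0)
    (hne : func φ c ≠ 0)
    (e : (KC X).X 3) (he : ((KC X).d 3 2).hom e = ((KCmap q).f 2).hom c - (2 : ℝ) • c) :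
    ∃ y : HH 2 X, y ≠ 0 ∧ (HHmap 2 q).hom y = (2 : ℝ) • y := by
  have hc' : Hom.bd X 1 c = 0 := hc
  refine ⟨Hom.cls (n := 1) c hc', ?_, ?_⟩
  · intro h0
    obtain ⟨y, hy⟩ := (Hom.cls_eq_zero_iff (n := 1) c hc').1 h0
    apply hne
    have hz : (func φ).comp (Hom.bd X 2) = 0 := by
      apply Hom.chain_ext
      intro t
      rw [LinearMap.comp_apply]
      have h1 : Hom.bd X 2 (Hom.sgl t) =
          ∑ i : Fin 4, ((-1 : ℝ) ^ (i : ℕ)) • gen (t.comp (face i)) := d_gen t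
      rw [h1, map_sum]
      simp only [map_smul, func_gen, smul_eq_mul, LinearMap.zero_apply]
      exact hφ t
    have h2 := LinearMap.congr_fun hz y
    rw [LinearMap.comp_apply] at h2
    rw [← hy]
    exact h2
  · have h2 : Hom.bd X 1 ((2 : ℝ) • c) = 0 := by
      rw [map_smul, hc', smul_zero]
    have h3 : Hom.bd X 1 (Hom.push q 2 c) = 0 := by
      rw [Hom.bd_push, hc', map_zero]
    have h4 : Hom.cls (n := 1) (Hom.push q 2 c) h3 = Hom.cls (n := 1) ((2 : ℝ) • c) h2 :=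
      (Hom.cls_eq_iff _ _ h3 h2).2 ⟨e, he⟩
    exact (Hom.map_cls (n := 1) q c hc').trans (h4.trans (Hom.cls_smul (n := 1) (2 : ℝ) c hc'))

/-- homotopic maps induce the same map on homology -/
lemma HHmap_eq_of_homotopic (n : ℕ) {f g : C(X, Y)} (h : f.Homotopic g) :
    HHmap n f = HHmap n g := by
  obtain ⟨H⟩ := h
  have H' : TopCat.Homotopy (TopCat.ofHom f) (TopCat.ofHom g) := H
  exact H'.congr_homologyMap_singularChainComplexFunctor (ModuleCat.of ℝ ℝ) n

end

end Crest.Agent.R123
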