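/-
R123 / S0163, task CONE : the explicit simplices in `ℂ` and `S²`.
-/
import Crest.Agent.R123.Defs
import Crest.Agent.R123.HomAPI

set_option autoImplicit false

noncomputable section

namespace Crest.Agent.R123

lemma Cone.continuous_eval {n : ℕ} (i : Fin (n + 1)) : Continuous (fun x : Dl n => x i) :=
  (continuous_apply i).comp continuous_subtype_val

lemma Cone.face_apply {n : ℕ} (i : Fin (n + 2)) (x : Dl n) (y : Fin (n + 2)) :
    (face i x : Dl (n + 1)) y = ∑ j : Fin (n + 1), if Fin.succAbove i j = y then x j else 0 := by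
  have h : (face i x : Dl (n + 1)) y = FunOnFinite.linearMap ℝ ℝ (Fin.succAbove i) x y := rfl
  rw [h, FunOnFinite.linearMap_apply_apply, Finset.sum_filter]

/-- the cone over the unit circle loop: `x ↦ (x₁+x₂) exp(2πi x₂/(x₁+x₂))` -/
def coneC : C(Dl 2, ℂ) where
  toFun x := ((x 1 + x 2 : ℝ) : ℂ) *
    Complex.exp (((2 * Real.pi * (x 2 / (x 1 + x 2)) : ℝ) : ℂ) * Complex.I)
  continuous_toFun := by
    rw [continuous_iff_continuousAt]
    intro x
    have h1 : Continuous (fun x : Dl 2 => x 1 + x 2) :=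
      (Cone.continuous_eval 1).add (Cone.continuous_eval 2)
    by_cases hx : x 1 + x 2 = 0
    · rw [ContinuousAt]
      have e : ((x 1 + x 2 : ℝ) : ℂ) *
          Complex.exp (((2 * Real.pi * (x 2 / (x 1 + x 2)) : ℝ) : ℂ) * Complex.I) = 0 := by
        rw [hx]; simp
      rw [e]
      rw [tendsto_zero_iff_norm_tendsto_zero]
      have h2 : (fun x : Dl 2 => ‖((x 1 + x 2 : ℝ) : ℂ) *
          Complex.exp (((2 * Real.pi * (x 2 / (x 1 + x 2)) : ℝ) : ℂ) * Complex.I)‖) =
          fun x : Dl 2 => |x 1 + x 2| := by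
        funext y
        rw [norm_mul, Complex.norm_exp_ofReal_mul_I, mul_one, Complex.norm_real, Real.norm_eq_abs]
      rw [h2]
      have h3 : Filter.Tendsto (fun x : Dl 2 => |x 1 + x 2|) (nhds x) (nhds |x 1 + x 2|) :=
        (h1.abs).continuousAt
      rwa [hx, abs_zero] at h3
    · have h2 : ContinuousAt (fun x : Dl 2 => x 2 / (x 1 + x 2)) x :=
        (Cone.continuous_eval 2).continuousAt.div h1.continuousAt hx
      have h3 : ContinuousAt (fun x : Dl 2 => ((x 1 + x 2 : ℝ) : ℂ)) x :=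
        (Complex.continuous_ofReal.comp h1).continuousAt
      have h4 : ContinuousAt (fun x : Dl 2 =>
          (((2 * Real.pi * (x 2 / (x 1 + x 2)) : ℝ) : ℂ) * Complex.I)) x :=
        (Complex.continuous_ofReal.continuousAt.comp
          (continuousAt_const.mul h2)).mul continuousAt_const
      exact h3.mul (Complex.continuous_exp.continuousAt.comp h4)

/-- the loop `x ↦ exp(2πi x₁)` -/
def loopC : C(Dl 1, ℂ) where
  toFun x := Complex.exp (((2 * Real.pi * x 1 : ℝ) : ℂ) * Complex.I)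
  continuous_toFun := by
    have h1 := Cone.continuous_eval (n := 1) 1
    exact Complex.continuous_exp.comp ((Complex.continuous_ofReal.comp
      (continuous_const.mul h1)).mul continuous_const)

/-- `x ↦ exp(2πi (x₁ + 2 x₂))` -/
def sigC : C(Dl 2, ℂ) where
  toFun x := Complex.exp (((2 * Real.pi * (x 1 + 2 * x 2) : ℝ) : ℂ) * Complex.I)
  continuous_toFun := by
    have h1 := Cone.continuous_eval (n := 2) 1
    have h2 := Cone.continuous_eval (n := 2) 2
    exact Complex.continuous_exp.comp ((Complex.continuous_ofReal.comp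
      (continuous_const.mul (h1.add (continuous_const.mul h2)))).mul continuous_const)

def sqC : C(ℂ, ℂ) := ⟨fun v => v ^ 2, by fun_prop⟩

lemma Cone.continuous_ze : Continuous ze :=
  (WithLp.continuous_fst 2 ℂ ℝ).comp continuous_subtype_val

lemma Cone.continuous_he : Continuous he :=
  (WithLp.continuous_snd 2 ℂ ℝ).comp continuous_subtype_val

lemma Cone.continuous_mkS2 {T : Type} [TopologicalSpace T] (a : T → ℂ) (b : T → ℝ)
    (h : ∀ t, ‖a t‖ ^ 2 + b t ^ 2 = 1) (ha : Continuous a) (hb : Continuous b) :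
    Continuous (fun t => mkS2 (a t) (b t) (h t)) := by
  apply Continuous.subtype_mk
  exact (WithLp.prod_continuous_toLp 2 ℂ ℝ).comp (ha.prodMk hb)

def jjC : C(ℂ, S2) := ⟨jj, by
  apply Cone.continuous_mkS2
  · apply Continuous.div
    · fun_prop
    · fun_prop
    · intro v
      have : (0:ℝ) < 1 + ‖v‖ ^ 2 := by positivity
      exact_mod_cast this.ne'
  · apply Continuous.div
    · fun_prop
    · fun_prop
    · intro v
      positivity⟩

def sqSC : C(S2, S2) := ⟨sqS, by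
  have h1 := Cone.continuous_ze
  have h2 := Cone.continuous_he
  apply Cone.continuous_mkS2
  · apply Continuous.div
    · fun_prop
    · fun_prop
    · intro v
      have : (0:ℝ) < 1 + he v ^ 2 := by positivity
      exact_mod_cast this.ne'
  · apply Continuous.div
    · fun_prop
    · fun_prop
    · intro v
      positivity⟩

/-- reflection of the sphere in the equator -/
def flip (x : S2) : S2 := mkS2 (ze x) (-he x) (by simpa using ze_he x)

def flipC : C(S2, S2) := ⟨flip, by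
  have h1 := Cone.continuous_ze
  have h2 := Cone.continuous_he
  apply Cone.continuous_mkS2
  · exact h1
  · exact h2.neg⟩

/-- lower and upper hemisphere -/
def DU : C(Dl 2, S2) := jjC.comp coneC
def DV : C(Dl 2, S2) := (flipC.comp jjC).comp coneC

lemma Cone.f00 (x : Dl 1) : (face 0 x : Dl 2) 1 = x 0 := by
  rw [Cone.face_apply]
  rw [Fin.sum_univ_two]
  simp [Fin.succAbove]

lemma Cone.f01 (x : Dl 1) : (face 0 x : Dl 2) 2 = x 1 := by
  rw [Cone.face_apply]
  rw [Fin.sum_univ_two]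
  simp [Fin.succAbove]

lemma Cone.f11 (x : Dl 1) : (face 1 x : Dl 2) 1 = 0 := by
  rw [Cone.face_apply]
  rw [Fin.sum_univ_two]
  have h1 : Fin.succAbove (1 : Fin 3) 0 ≠ 1 := by decide
  have h2 : Fin.succAbove (1 : Fin 3) 1 ≠ 1 := by decide
  rw [if_neg h1, if_neg h2, add_zero]

lemma Cone.f12 (x : Dl 1) : (face 1 x : Dl 2) 2 = x 1 := by
  rw [Cone.face_apply]
  rw [Fin.sum_univ_two]
  have h1 : Fin.succAbove (1 : Fin 3) 0 ≠ 2 := by decide
  have h2 : Fin.succAbove (1 : Fin 3) 1 = 2 := by decide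
  rw [if_neg h1, if_pos h2, zero_add]

lemma Cone.f21 (x : Dl 1) : (face 2 x : Dl 2) 1 = x 1 := by
  rw [Cone.face_apply]
  rw [Fin.sum_univ_two]
  have h1 : Fin.succAbove (2 : Fin 3) 0 ≠ 1 := by decide
  have h2 : Fin.succAbove (2 : Fin 3) 1 = 1 := by decide
  rw [if_neg h1, if_pos h2, zero_add]

lemma Cone.f22 (x : Dl 1) : (face 2 x : Dl 2) 2 = 0 := by
  rw [Cone.face_apply]
  rw [Fin.sum_univ_two]
  have h1 : Fin.succAbove (2 : Fin 3) 0 ≠ 2 := by decide
  have h2 : Fin.succAbove (2 : Fin 3) 1 ≠ 2 := by decide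
  rw [if_neg h1, if_neg h2, zero_add]

lemma Cone.exp_two_pi : Complex.exp (((2 * Real.pi : ℝ) : ℂ) * Complex.I) = 1 := by
  have := Complex.exp_two_pi_mul_I
  rw [← this]
  congr 1
  push_cast
  ring

lemma coneC_face0 : coneC.comp (face 0) = loopC := by
  ext x
  have hx := stdSimplex.add_eq_one x
  change (((face 0 x : Dl 2) 1 + (face 0 x : Dl 2) 2 : ℝ) : ℂ) *
    Complex.exp (((2 * Real.pi * ((face 0 x : Dl 2) 2 /
      ((face 0 x : Dl 2) 1 + (face 0 x : Dl 2) 2)) : ℝ) : ℂ) * Complex.I) =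
    Complex.exp (((2 * Real.pi * x 1 : ℝ) : ℂ) * Complex.I)
  rw [Cone.f00, Cone.f01, hx]
  simp

lemma coneC_face12 : coneC.comp (face 1) = coneC.comp (face 2) := by
  ext x
  change (((face 1 x : Dl 2) 1 + (face 1 x : Dl 2) 2 : ℝ) : ℂ) *
    Complex.exp (((2 * Real.pi * ((face 1 x : Dl 2) 2 /
      ((face 1 x : Dl 2) 1 + (face 1 x : Dl 2) 2)) : ℝ) : ℂ) * Complex.I) =
    (((face 2 x : Dl 2) 1 + (face 2 x : Dl 2) 2 : ℝ) : ℂ) *
    Complex.exp (((2 * Real.pi * ((face 2 x : Dl 2) 2 /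
      ((face 2 x : Dl 2) 1 + (face 2 x : Dl 2) 2)) : ℝ) : ℂ) * Complex.I)
  rw [Cone.f11, Cone.f12, Cone.f21, Cone.f22, zero_add, add_zero, zero_div, mul_zero]
  by_cases h : x 1 = 0
  · rw [h]; simp
  · rw [div_self h, mul_one, Cone.exp_two_pi]
    simp

lemma sigC_face0 : sigC.comp (face 0) = loopC := by
  ext x
  have hx := stdSimplex.add_eq_one x
  change Complex.exp (((2 * Real.pi * ((face 0 x : Dl 2) 1 + 2 * (face 0 x : Dl 2) 2) : ℝ) : ℂ) *
    Complex.I) = Complex.exp (((2 * Real.pi * x 1 : ℝ) : ℂ) * Complex.I)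
  rw [Cone.f00, Cone.f01]
  have e : x 0 + 2 * x 1 = 1 + x 1 := by linarith
  rw [e]
  have e2 : (((2 * Real.pi * (1 + x 1) : ℝ) : ℂ) * Complex.I) =
      (((2 * Real.pi : ℝ) : ℂ) * Complex.I) + (((2 * Real.pi * x 1 : ℝ) : ℂ) * Complex.I) := by
    push_cast
    ring
  rw [e2, Complex.exp_add, Cone.exp_two_pi, one_mul]

lemma sigC_face1 : sigC.comp (face 1) = sqC.comp loopC := by
  ext x
  change Complex.exp (((2 * Real.pi * ((face 1 x : Dl 2) 1 + 2 * (face 1 x : Dl 2) 2) : ℝ) : ℂ) *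
    Complex.I) = (Complex.exp (((2 * Real.pi * x 1 : ℝ) : ℂ) * Complex.I)) ^ 2
  rw [Cone.f11, Cone.f12, ← Complex.exp_nat_mul]
  congr 1
  push_cast
  ring

lemma sigC_face2 : sigC.comp (face 2) = loopC := by
  ext x
  change Complex.exp (((2 * Real.pi * ((face 2 x : Dl 2) 1 + 2 * (face 2 x : Dl 2) 2) : ℝ) : ℂ) *
    Complex.I) = Complex.exp (((2 * Real.pi * x 1 : ℝ) : ℂ) * Complex.I)
  rw [Cone.f21, Cone.f22, mul_zero, add_zero]

lemma flip_jj_of_norm {v : ℂ} (h : ‖v‖ = 1) : flip (jj v) = jj v := by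
  apply S2_ext
  · rfl
  · simp only [flip, jj, he_mkS2, h]
    norm_num

lemma sq_comp_jj : sqSC.comp jjC = jjC.comp sqC := by
  ext1 v
  change sqS (jj v) = jj (v ^ 2)
  have h0 : (0:ℝ) < 1 + ‖v‖ ^ 2 := by positivity
  have h1 : (0:ℝ) < 1 + (‖v‖ ^ 2) ^ 2 := by positivity
  apply S2_ext
  · simp only [sqS, jj, he_mkS2, ze_mkS2, norm_pow]
    have h0' : (1 + (‖v‖ : ℂ) ^ 2) ≠ 0 := by exact_mod_cast h0.ne'
    have h1' : (1 + ((‖v‖ : ℂ) ^ 2) ^ 2) ≠ 0 := by exact_mod_cast h1.ne'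
    have h2' : (1 + (((‖v‖ : ℂ) ^ 2 - 1) / (1 + (‖v‖ : ℂ) ^ 2)) ^ 2) ≠ 0 := by
      have : (0:ℝ) < (1 + ((‖v‖ ^ 2 - 1) / (1 + ‖v‖ ^ 2)) ^ 2) := by positivity
      exact_mod_cast this.ne'
    push_cast
    rw [div_eq_div_iff h2' h1']
    field_simp
    ring
  · simp only [sqS, jj, he_mkS2, norm_pow]
    field_simp
    ring

lemma sq_comp_flip : sqSC.comp flipC = flipC.comp sqSC := by
  ext1 x
  change sqS (flip x) = flip (sqS x)
  apply S2_ext
  · simp only [sqS, flip, he_mkS2, ze_mkS2, neg_sq]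
  · simp only [sqS, flip, he_mkS2, neg_sq]
    ring

end Crest.Agent.R123
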