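/-
R123 / S0163, task WILDG : the C¹ function G.
(adapted from `Wild.lean` by helper679 to the definitions of `Defs.lean`)
-/
import Crest.Agent.R123.Defs

set_option autoImplicit false

namespace Crest.Agent.R123

open Real (smoothTransition)

lemma contDiff_normSqR {n : WithTop ℕ∞} : ContDiff ℝ n (fun v : ℂ => ‖v‖ ^ 2) :=
  contDiff_norm_sq ℝ

lemma contDiff_bump' {n : ℕ∞} : ContDiff ℝ n bump := by
  unfold bump
  refine ContDiff.mul ?_ ?_
  · exact Real.smoothTransition.contDiff.comp ((contDiff_normSqR.sub contDiff_const).div_const _)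
  · exact Real.smoothTransition.contDiff.comp ((contDiff_const.sub contDiff_normSqR).div_const _)

lemma bump_nonneg (v : ℂ) : 0 ≤ bump v :=
  mul_nonneg (Real.smoothTransition.nonneg _) (Real.smoothTransition.nonneg _)

lemma bump_le_one (v : ℂ) : bump v ≤ 1 :=
  mul_le_one₀ (Real.smoothTransition.le_one _) (Real.smoothTransition.nonneg _)
    (Real.smoothTransition.le_one _)

lemma bump_zero_of_le {v : ℂ} (h : ‖v‖ ≤ 4) : bump v = 0 := by
  unfold bump
  rw [Real.smoothTransition.zero_of_nonpos, zero_mul]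
  have := norm_nonneg v
  nlinarith

lemma bump_zero_of_ge {v : ℂ} (h : 256 ≤ ‖v‖) : bump v = 0 := by
  unfold bump
  rw [Real.smoothTransition.zero_of_nonpos (x := (65536 - ‖v‖ ^ 2) / 61440), mul_zero]
  nlinarith

lemma bump_one {v : ℂ} (h : 8 ≤ ‖v‖) (h' : ‖v‖ ≤ 64) : bump v = 1 := by
  unfold bump
  rw [Real.smoothTransition.one_of_one_le, Real.smoothTransition.one_of_one_le, one_mul]
  · nlinarith
  · nlinarith

lemma contDiff_ghat' {n : ℕ∞} : ContDiff ℝ n ghat := by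
  unfold ghat
  exact (Complex.ofRealCLM.contDiff.comp (contDiff_bump'.div_const _)).mul contDiff_id

lemma contDiff_ghat : ContDiff ℝ 1 ghat := contDiff_ghat' (n := 1)

lemma ghat_of_le {v : ℂ} (h : ‖v‖ ≤ 4) : ghat v = 0 := by
  unfold ghat; rw [bump_zero_of_le h]; simp

lemma ghat_of_ge {v : ℂ} (h : 256 ≤ ‖v‖) : ghat v = 0 := by
  unfold ghat; rw [bump_zero_of_ge h]; simp

lemma norm_ghat_eq (v : ℂ) : ‖ghat v‖ = bump v / 2048 * ‖v‖ := by
  unfold ghat
  rw [norm_mul, Complex.norm_real, Real.norm_of_nonneg (by have := bump_nonneg v; positivity)]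

lemma norm_ghat_le (v : ℂ) : ‖ghat v‖ ≤ 1 / 8 := by
  by_cases h : ‖v‖ ≤ 256
  · rw [norm_ghat_eq]
    have h1 := bump_le_one v
    have h2 := bump_nonneg v
    have h3 := norm_nonneg v
    nlinarith
  · rw [ghat_of_ge (le_of_not_ge h)]; simp

lemma norm_ghat_mid {v : ℂ} (h : 8 ≤ ‖v‖) (h2 : ‖v‖ ≤ 64) : ‖ghat v‖ = ‖v‖ / 2048 := by
  rw [norm_ghat_eq, bump_one h h2]; ring

/-- `ghat v` is a nonnegative multiple of `v`. -/
lemma ghat_phase (v : ℂ) : ∃ r : ℝ, 0 ≤ r ∧ ghat v = r * v :=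
  ⟨bump v / 2048, by have := bump_nonneg v; positivity, rfl⟩

lemma hasCompactSupport_ghat : HasCompactSupport ghat := by
  apply HasCompactSupport.of_support_subset_isCompact (isCompact_closedBall (0 : ℂ) 256)
  intro v hv
  rw [mem_closedBall_zero_iff]
  by_contra hc
  exact hv (ghat_of_ge (le_of_not_ge hc))

/-- the terms of the series -/
noncomputable def gterm (n : ℕ) (v : ℂ) : ℂ := (((1 / 64 : ℝ) ^ n : ℝ) : ℂ) * ghat (v ^ (4 ^ n))

lemma G_eq_tsum (v : ℂ) : G v = ∑' n, gterm n v := by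
  unfold G gterm
  exact tsum_congr (fun n => by rw [Complex.real_smul])

lemma norm_gterm_le (n : ℕ) (v : ℂ) : ‖gterm n v‖ ≤ (1 / 64 : ℝ) ^ n * (1 / 8) := by
  unfold gterm
  rw [norm_mul, Complex.norm_real, Real.norm_of_nonneg (by positivity)]
  exact mul_le_mul_of_nonneg_left (norm_ghat_le _) (by positivity)

lemma summable_bound : Summable (fun n : ℕ => (1 / 64 : ℝ) ^ n * (1 / 8)) :=
  (summable_geometric_of_lt_one (by norm_num) (by norm_num)).mul_right _

lemma summable_gterm (v : ℂ) : Summable (fun n => gterm n v) :=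
  Summable.of_norm_bounded summable_bound (fun n => norm_gterm_le n v)

lemma contDiff_gterm (n : ℕ) {k : ℕ∞} : ContDiff ℝ k (gterm n) := by
  unfold gterm
  refine contDiff_const.mul ?_
  exact contDiff_ghat'.comp (contDiff_id.pow _)

lemma exists_fderiv_bound : ∃ C : ℝ, ∀ y : ℂ, ‖fderiv ℝ ghat y‖ * (1 + ‖y‖) ≤ C := by
  have h1 : Continuous (fderiv ℝ ghat) :=
    (contDiff_ghat).continuous_fderiv (by norm_num)
  have h2 : HasCompactSupport (fderiv ℝ ghat) := hasCompactSupport_ghat.fderiv ℝ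
  have h3 : Continuous (fun y : ℂ => ‖fderiv ℝ ghat y‖ * (1 + ‖y‖)) :=
    h1.norm.mul (continuous_const.add continuous_norm)
  have h4 : HasCompactSupport (fun y : ℂ => ‖fderiv ℝ ghat y‖ * (1 + ‖y‖)) := h2.norm.mul_right
  obtain ⟨C, hC⟩ := h3.bounded_above_of_compact_support h4
  exact ⟨C, fun y => (le_abs_self _).trans (hC y)⟩

lemma hasFDerivAt_pow_real (N : ℕ) (v : ℂ) :
    ∃ L : ℂ →L[ℝ] ℂ, HasFDerivAt (fun v : ℂ => v ^ N) L v ∧ ‖L‖ ≤ N * ‖v‖ ^ (N - 1) := by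
  refine ⟨_, (hasDerivAt_pow N v).hasFDerivAt.restrictScalars ℝ, ?_⟩
  refine ContinuousLinearMap.opNorm_le_bound _ (by positivity) (fun x => ?_)
  simp only [ContinuousLinearMap.coe_restrictScalars', ContinuousLinearMap.toSpanSingleton_apply,
    smul_eq_mul]
  rw [norm_mul, norm_mul, norm_pow, Complex.norm_natCast, mul_comm]

lemma exists_gterm_deriv_bound :
    ∃ C : ℝ, 0 ≤ C ∧ ∀ (n : ℕ) (v : ℂ), ‖fderiv ℝ (gterm n) v‖ ≤ C * (1 / 16 : ℝ) ^ n := by
  obtain ⟨C, hC⟩ := exists_fderiv_bound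
  have hC0 : 0 ≤ C := le_trans (by positivity) (hC 0)
  refine ⟨C, hC0, fun n v => ?_⟩
  obtain ⟨L, hL, hLn⟩ := hasFDerivAt_pow_real (4 ^ n) v
  have hg : HasFDerivAt ghat (fderiv ℝ ghat (v ^ (4 ^ n))) (v ^ (4 ^ n)) :=
    ((contDiff_ghat).differentiable (by norm_num) _).hasFDerivAt
  have h1 : HasFDerivAt (gterm n) ((((1 / 64 : ℝ) ^ n : ℝ) : ℂ) •
      ((fderiv ℝ ghat (v ^ (4 ^ n))).comp L)) v := by
    unfold gterm
    exact (hg.comp v hL).const_mul _
  rw [h1.fderiv, norm_smul, Complex.norm_real, Real.norm_of_nonneg (by positivity)]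
  have h2 : ‖v‖ ^ (4 ^ n - 1) ≤ 1 + ‖v ^ (4 ^ n)‖ := by
    rw [norm_pow]
    by_cases hv : ‖v‖ ≤ 1
    · have := pow_le_one₀ (n := 4 ^ n - 1) (norm_nonneg v) hv
      have h3 : 0 ≤ ‖v‖ ^ (4 ^ n) := by positivity
      linarith
    · have := pow_le_pow_right₀ (le_of_not_ge hv) (Nat.sub_le (4 ^ n) 1)
      linarith
  have h3 : ‖(fderiv ℝ ghat (v ^ (4 ^ n))).comp L‖ ≤ C * 4 ^ n := by
    calc ‖(fderiv ℝ ghat (v ^ (4 ^ n))).comp L‖ ≤ ‖fderiv ℝ ghat (v ^ (4 ^ n))‖ * ‖L‖ :=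
          ContinuousLinearMap.opNorm_comp_le _ _
      _ ≤ ‖fderiv ℝ ghat (v ^ (4 ^ n))‖ * (((4 ^ n : ℕ) : ℝ) * (1 + ‖v ^ (4 ^ n)‖)) := by
          refine mul_le_mul_of_nonneg_left (hLn.trans ?_) (norm_nonneg _)
          exact mul_le_mul_of_nonneg_left h2 (by positivity)
      _ = (‖fderiv ℝ ghat (v ^ (4 ^ n))‖ * (1 + ‖v ^ (4 ^ n)‖)) * 4 ^ n := by push_cast; ring
      _ ≤ C * 4 ^ n := mul_le_mul_of_nonneg_right (hC _) (by positivity)
  calc (1 / 64 : ℝ) ^ n * ‖(fderiv ℝ ghat (v ^ (4 ^ n))).comp L‖ ≤ (1 / 64 : ℝ) ^ n * (C * 4 ^ n) :=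
        mul_le_mul_of_nonneg_left h3 (by positivity)
    _ = C * (1 / 16 : ℝ) ^ n := by
        rw [mul_left_comm, ← mul_pow]; norm_num

/-- the wild function is C¹ (termwise: derivative of the n-th term is `O((4/64)^n)`). -/
theorem contDiff_G : ContDiff ℝ 1 G := by
  obtain ⟨C, hC0, hC⟩ := exists_gterm_deriv_bound
  have hG : G = fun v => ∑' n, gterm n v := funext G_eq_tsum
  rw [hG]
  refine contDiff_tsum (𝕜 := ℝ) (N := 1) (v := fun k n => if k = 0 then (1 / 64 : ℝ) ^ n * (1 / 8)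
    else C * (1 / 16 : ℝ) ^ n) (fun n => contDiff_gterm n) (fun k hk => ?_) (fun k n x hk => ?_)
  · by_cases h : k = 0
    · simp only [h, if_true]; exact summable_bound
    · simp only [h, if_false]
      exact (summable_geometric_of_lt_one (by norm_num) (by norm_num)).mul_left _
  · by_cases h : k = 0
    · subst h
      simp only [if_true, norm_iteratedFDeriv_zero]
      exact norm_gterm_le n x
    · have hk1 : k = 1 := by
        have : k ≤ 1 := by exact_mod_cast hk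
        omega
      subst hk1
      simp only [one_ne_zero, if_false]
      rw [← norm_iteratedFDeriv_fderiv, norm_iteratedFDeriv_zero]
      exact hC n x

lemma G_eq (v : ℂ) : G v = ghat v + G (v ^ 4) / 64 := by
  rw [G_eq_tsum, G_eq_tsum, (summable_gterm v).tsum_eq_zero_add]
  congr 1
  · unfold gterm; simp
  · rw [div_eq_inv_mul, ← tsum_mul_left]
    refine tsum_congr (fun n => ?_)
    unfold gterm
    rw [← pow_mul, show 4 ^ (n + 1) = 4 * 4 ^ n by ring, pow_succ]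
    push_cast
    ring

lemma G_of_le_one {v : ℂ} (h : ‖v‖ ≤ 1) : G v = 0 := by
  rw [G_eq_tsum]
  have : ∀ n, gterm n v = 0 := by
    intro n
    unfold gterm
    rw [ghat_of_le, mul_zero]
    rw [norm_pow]
    exact (pow_le_one₀ (norm_nonneg v) h).trans (by norm_num)
  simp [this]

lemma G_of_ge {v : ℂ} (h : 256 ≤ ‖v‖) : G v = 0 := by
  rw [G_eq_tsum]
  have : ∀ n, gterm n v = 0 := by
    intro n
    unfold gterm
    rw [ghat_of_ge, mul_zero]
    rw [norm_pow]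
    calc (256 : ℝ) ≤ ‖v‖ := h
      _ = ‖v‖ ^ 1 := (pow_one _).symm
      _ ≤ ‖v‖ ^ (4 ^ n) := pow_le_pow_right₀ (by linarith) (Nat.one_le_pow _ _ (by norm_num))
  simp [this]

lemma G_of_four_le {v : ℂ} (h : 4 ≤ ‖v‖) : G v = ghat v := by
  rw [G_eq v, G_of_ge, zero_div, add_zero]
  rw [norm_pow]
  nlinarith [pow_le_pow_left₀ (by norm_num) h 4]

lemma G_of_le_four {v : ℂ} (h : ‖v‖ ≤ 4) : G v = G (v ^ 4) / 64 := by
  rw [G_eq v, ghat_of_le h, zero_add]

lemma norm_G_le (v : ℂ) : ‖G v‖ ≤ 1 / 8 := by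
  have h0 : ∀ v, ‖G v‖ ≤ 8 / 63 := by
    intro v
    have h1 := tsum_of_norm_bounded (summable_bound.hasSum) (fun n => norm_gterm_le n v)
    rw [tsum_mul_right, tsum_geometric_of_lt_one (by norm_num) (by norm_num)] at h1
    rw [G_eq_tsum]
    linarith
  by_cases h : ‖v‖ ≤ 4
  · have h2 := G_of_le_four h
    have h3 := h0 (v ^ 4)
    rw [h2, norm_div]
    norm_num
    linarith
  · rw [G_of_four_le (le_of_not_ge h)]
    exact norm_ghat_le v

lemma norm_G_le_of_le {v : ℂ} (h : ‖v‖ ≤ 4) : ‖G v‖ ≤ 1 / 512 := by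
  have h2 := G_of_le_four h
  have h3 := norm_G_le (v ^ 4)
  rw [h2, norm_div]
  norm_num
  linarith

end Crest.Agent.R123
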