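/-
R123 / S0163, task EXIT : the exit function `ex` and the cut-off `cut`.
-/
import Crest.Agent.R123.WildG

set_option autoImplicit false

namespace Crest.Agent.R123

open Real (smoothTransition)

/-- first half of the exit function: `0` for `‖w‖ ≤ 1/512`, norm `16` for `1/256 ≤ ‖w‖` -/
noncomputable def exA (w : ℂ) : ℂ :=
  ((16 * smoothTransition ((2 ^ 18 * ‖w‖ ^ 2 - 1) / 3) / ‖w‖ ^ 2 : ℝ) : ℂ) * w ^ 2

/-- second half of the exit function: `0` for `‖w‖ ≤ 1/4096`, norm `16` for `1/1024 ≤ ‖w‖` -/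
noncomputable def exB (w : ℂ) : ℂ :=
  ((16 * smoothTransition ((2 ^ 24 * ‖w‖ ^ 2 - 1) / 15) / ‖w‖ : ℝ) : ℂ) * w

lemma ex_eq (w₁ w₂ : ℂ) : ex w₁ w₂ = exA w₁ + exB w₂ := rfl

lemma exA_zero {w : ℂ} (h : ‖w‖ ≤ 1 / 512) : exA w = 0 := by
  unfold exA
  rw [Real.smoothTransition.zero_of_nonpos]
  · simp
  · have := norm_nonneg w
    nlinarith

lemma exB_zero {w : ℂ} (h : ‖w‖ ≤ 1 / 4096) : exB w = 0 := by
  unfold exB
  rw [Real.smoothTransition.zero_of_nonpos]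
  · simp
  · have := norm_nonneg w
    nlinarith

lemma norm_exA_le (w : ℂ) : ‖exA w‖ ≤ 16 := by
  unfold exA
  have h0 := Real.smoothTransition.nonneg ((2 ^ 18 * ‖w‖ ^ 2 - 1) / 3)
  have h1 := Real.smoothTransition.le_one ((2 ^ 18 * ‖w‖ ^ 2 - 1) / 3)
  rw [norm_mul, Complex.norm_real, Real.norm_of_nonneg (by positivity), norm_pow]
  by_cases hw : ‖w‖ = 0
  · rw [hw]; simp
  · rw [div_mul_cancel₀ _ (by positivity)]
    linarith

lemma norm_exB_le (w : ℂ) : ‖exB w‖ ≤ 16 := by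
  unfold exB
  have h0 := Real.smoothTransition.nonneg ((2 ^ 24 * ‖w‖ ^ 2 - 1) / 15)
  have h1 := Real.smoothTransition.le_one ((2 ^ 24 * ‖w‖ ^ 2 - 1) / 15)
  rw [norm_mul, Complex.norm_real, Real.norm_of_nonneg (by positivity)]
  by_cases hw : ‖w‖ = 0
  · rw [hw]; simp
  · rw [div_mul_cancel₀ _ hw]
    linarith

lemma norm_ex_le (w₁ w₂ : ℂ) : ‖ex w₁ w₂‖ ≤ 32 := by
  rw [ex_eq]
  refine (norm_add_le _ _).trans ?_
  linarith [norm_exA_le w₁, norm_exB_le w₂]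

lemma ex_zero_of_le {w₁ w₂ : ℂ} (h1 : ‖w₁‖ ≤ 1 / 512) (h2 : ‖w₂‖ ≤ 1 / 4096) :
    ex w₁ w₂ = 0 := by
  rw [ex_eq, exA_zero h1, exB_zero h2, add_zero]

@[simp] lemma ex_zero : ex 0 0 = 0 := ex_zero_of_le (by simp) (by simp)

lemma norm_G_sq_div_le {v : ℂ} (h : ‖v‖ ≤ 2) : ‖G (v ^ 2) / 8‖ ≤ 1 / 4096 := by
  have h3 : ‖v ^ 2‖ ≤ 4 := by
    rw [norm_pow]
    nlinarith [norm_nonneg v]
  have := norm_G_le_of_le h3
  rw [norm_div]
  norm_num
  linarith

/-- level ≥ 2 : nothing is emitted. -/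
lemma ex_level_two {v : ℂ} (h : ‖v‖ ≤ 2) {c : ℝ} (h0 : 0 ≤ c) (h1 : c ≤ 1) :
    ex (c * G v) (c * (G (v ^ 2) / 8)) = 0 := by
  apply ex_zero_of_le
  · rw [norm_mul, Complex.norm_real, Real.norm_of_nonneg h0]
    have h2 := norm_G_le_of_le (v := v) (by linarith)
    have h3 := norm_nonneg (G v)
    nlinarith
  · rw [norm_mul, Complex.norm_real, Real.norm_of_nonneg h0]
    have h2 := norm_G_sq_div_le h
    have h3 := norm_nonneg (G (v ^ 2) / 8)
    nlinarith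

lemma exA_align {c : ℝ} (w : ℂ) : ∃ e : ℝ, 0 ≤ e ∧ exA ((c : ℂ) * w) = (e : ℂ) * w ^ 2 := by
  have h0 := Real.smoothTransition.nonneg ((2 ^ 18 * ‖(c : ℂ) * w‖ ^ 2 - 1) / 3)
  refine ⟨16 * smoothTransition ((2 ^ 18 * ‖(c : ℂ) * w‖ ^ 2 - 1) / 3) /
    ‖(c : ℂ) * w‖ ^ 2 * c ^ 2, by positivity, ?_⟩
  unfold exA
  push_cast
  ring

lemma exB_align {c : ℝ} (hc : 0 ≤ c) (w : ℂ) :
    ∃ e : ℝ, 0 ≤ e ∧ exB ((c : ℂ) * w) = (e : ℂ) * w := by
  have h0 := Real.smoothTransition.nonneg ((2 ^ 24 * ‖(c : ℂ) * w‖ ^ 2 - 1) / 15)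
  refine ⟨16 * smoothTransition ((2 ^ 24 * ‖(c : ℂ) * w‖ ^ 2 - 1) / 15) /
    ‖(c : ℂ) * w‖ * c, by positivity, ?_⟩
  unfold exB
  push_cast
  ring

lemma norm_exA_of_ge {w : ℂ} (h : 1 / 256 ≤ ‖w‖) : ‖exA w‖ = 16 := by
  unfold exA
  rw [Real.smoothTransition.one_of_one_le]
  · rw [norm_mul, Complex.norm_real, Real.norm_of_nonneg (by positivity), norm_pow]
    have : ‖w‖ ≠ 0 := by linarith
    field_simp
  · nlinarith

lemma norm_exB_of_ge {w : ℂ} (h : 1 / 1024 ≤ ‖w‖) : ‖exB w‖ = 16 := by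
  unfold exB
  rw [Real.smoothTransition.one_of_one_le]
  · rw [norm_mul, Complex.norm_real, Real.norm_of_nonneg (by positivity)]
    have : ‖w‖ ≠ 0 := by linarith
    field_simp
  · nlinarith

lemma ex_parts_align {c : ℝ} (hc : 0 ≤ c) (hc1 : c ≤ 1) (v : ℂ) :
    (∃ e : ℝ, 0 ≤ e ∧ exA ((c : ℂ) * G v) = (e : ℂ) * v ^ 2) ∧
    (∃ e : ℝ, 0 ≤ e ∧ exB ((c : ℂ) * (G (v ^ 2) / 8)) = (e : ℂ) * v ^ 2) := by
  constructor
  · by_cases h : ‖v‖ ≤ 4
    · refine ⟨0, le_rfl, ?_⟩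
      rw [exA_zero]
      · simp
      · rw [norm_mul, Complex.norm_real, Real.norm_of_nonneg hc]
        have h1 := norm_G_le_of_le h
        have h2 := norm_nonneg (G v)
        nlinarith
    · obtain ⟨e, he, h1⟩ := exA_align (c := c) (G v)
      obtain ⟨r, hr, h2⟩ := ghat_phase v
      rw [G_of_four_le (le_of_not_ge h)] at h1 ⊢
      refine ⟨e * r ^ 2, by positivity, ?_⟩
      rw [h1, h2]
      push_cast
      ring
  · by_cases h : ‖v‖ ≤ 2
    · refine ⟨0, le_rfl, ?_⟩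
      rw [exB_zero]
      · simp
      · rw [norm_mul, Complex.norm_real, Real.norm_of_nonneg hc]
        have h1 := norm_G_sq_div_le h
        have h2 := norm_nonneg (G (v ^ 2) / 8)
        nlinarith
    · obtain ⟨e, he, h1⟩ := exB_align hc (G (v ^ 2) / 8)
      have h3 : 4 ≤ ‖v ^ 2‖ := by
        rw [norm_pow]
        have := le_of_not_ge h
        nlinarith
      obtain ⟨r, hr, h2⟩ := ghat_phase (v ^ 2)
      rw [G_of_four_le h3] at h1 ⊢
      refine ⟨e * (r / 8), by positivity, ?_⟩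
      rw [h1, h2]
      push_cast
      ring

/-- what is emitted has the phase of `v ^ 2`. -/
lemma ex_phase (v : ℂ) {c : ℝ} (h0 : 0 ≤ c) (h1 : c ≤ 1) :
    ∃ r : ℝ, 0 ≤ r ∧ ex (c * G v) (c * (G (v ^ 2) / 8)) = r * v ^ 2 := by
  obtain ⟨⟨e, he, h2⟩, ⟨e', he', h3⟩⟩ := ex_parts_align h0 h1 v
  refine ⟨e + e', by positivity, ?_⟩
  rw [ex_eq, h2, h3]
  push_cast
  ring

/-- at level 0 something of modulus at least 16 is emitted. -/
lemma ex_big {v : ℂ} (h : 4 ≤ ‖v‖) (h2 : ‖v‖ ≤ 16) :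
    ∃ r : ℝ, 0 ≤ r ∧ 16 ≤ r * ‖v‖ ^ 2 ∧ ex (G v) (G (v ^ 2) / 8) = r * v ^ 2 := by
  obtain ⟨⟨e, he, h3⟩, ⟨e', he', h4⟩⟩ := ex_parts_align (c := 1) zero_le_one le_rfl v
  simp only [Complex.ofReal_one, one_mul] at h3 h4
  refine ⟨e + e', by positivity, ?_, ?_⟩
  · by_cases h8 : 8 ≤ ‖v‖
    · have h5 : ‖exA (G v)‖ = 16 := by
        apply norm_exA_of_ge
        rw [G_of_four_le h, norm_ghat_mid h8 (by linarith)]
        linarith
      rw [h3, norm_mul, Complex.norm_real, Real.norm_of_nonneg he, norm_pow] at h5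
      nlinarith [sq_nonneg ‖v‖, mul_nonneg he' (sq_nonneg ‖v‖)]
    · have h5 : ‖exB (G (v ^ 2) / 8)‖ = 16 := by
        apply norm_exB_of_ge
        have h6 : ‖v ^ 2‖ = ‖v‖ ^ 2 := norm_pow _ _
        have h7 : ‖v‖ < 8 := lt_of_not_ge h8
        rw [G_of_four_le (by rw [h6]; nlinarith), norm_div,
          norm_ghat_mid (by rw [h6]; nlinarith) (by rw [h6]; nlinarith), h6]
        norm_num
        nlinarith
      rw [h4, norm_mul, Complex.norm_real, Real.norm_of_nonneg he', norm_pow] at h5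
      nlinarith [sq_nonneg ‖v‖, mul_nonneg he (sq_nonneg ‖v‖)]
  · rw [ex_eq, h3, h4]
    push_cast
    ring

lemma cut_of_le {z : ℂ} (h : ‖z‖ ≤ 1 / 8) : cut z = z := by
  unfold cut
  rw [smoothTransition.zero_of_nonpos]
  · simp
  · have : ‖z‖ ^ 2 ≤ (1 / 8) ^ 2 := by gcongr
    norm_num at this ⊢
    linarith

@[simp] lemma cut_zero : cut 0 = 0 := by
  simp [cut]

lemma norm_cut_le (z : ℂ) : ‖cut z‖ ≤ 1 / 4 := by
  unfold cut
  set S := smoothTransition ((64 * ‖z‖ ^ 2 - 1) / 3) with hS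
  have hS0 : 0 ≤ S := smoothTransition.nonneg _
  have hS1 : S ≤ 1 := smoothTransition.le_one _
  rw [norm_mul, Complex.norm_real, Real.norm_of_nonneg (by linarith)]
  rcases le_total ‖z‖ (1 / 4) with h | h
  · have := norm_nonneg z
    nlinarith
  · have : S = 1 := by
      rw [hS]
      apply smoothTransition.one_of_one_le
      have : (1 / 4) ^ 2 ≤ ‖z‖ ^ 2 := by gcongr
      norm_num at this ⊢
      linarith
    rw [this]
    norm_num

lemma contDiff_cut : ContDiff ℝ 1 cut := by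
  unfold cut
  apply ContDiff.mul _ contDiff_id
  apply Complex.ofRealCLM.contDiff.comp
  apply contDiff_const.sub
  apply (smoothTransition.contDiff (n := 1)).comp
  apply ContDiff.div_const
  apply ContDiff.sub _ contDiff_const
  exact contDiff_const.mul (contDiff_norm_sq ℝ)


/-! ### smoothness of the exit function -/

lemma contDiff_exA : ContDiff ℝ 1 exA := by
  rw [contDiff_iff_contDiffAt]
  intro w
  by_cases hw : w = 0
  · subst hw
    have h1 : exA =ᶠ[nhds 0] fun _ => 0 := by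
      filter_upwards [Metric.closedBall_mem_nhds (0 : ℂ) (ε := 1 / 512) (by norm_num)] with x hx
      exact exA_zero (by simpa using hx)
    exact contDiffAt_const.congr_of_eventuallyEq h1
  · have hn : ‖w‖ ≠ 0 := by simpa using hw
    have h1 : ContDiffAt ℝ 1 (fun w : ℂ => ‖w‖ ^ 2) w := (contDiff_norm_sq ℝ).contDiffAt
    unfold exA
    refine ContDiffAt.mul ?_ (contDiffAt_id.pow 2)
    refine Complex.ofRealCLM.contDiff.contDiffAt.comp w ?_
    refine ContDiffAt.div (contDiffAt_const.mul ?_) h1 (by positivity)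
    exact (Real.smoothTransition.contDiff (n := 1)).contDiffAt.comp w
      (((contDiffAt_const.mul h1).sub contDiffAt_const).div_const _)

lemma contDiff_exB : ContDiff ℝ 1 exB := by
  rw [contDiff_iff_contDiffAt]
  intro w
  by_cases hw : w = 0
  · subst hw
    have h1 : exB =ᶠ[nhds 0] fun _ => 0 := by
      filter_upwards [Metric.closedBall_mem_nhds (0 : ℂ) (ε := 1 / 4096) (by norm_num)] with x hx
      exact exB_zero (by simpa using hx)
    exact contDiffAt_const.congr_of_eventuallyEq h1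
  · have hn : ‖w‖ ≠ 0 := by simpa using hw
    have h1 : ContDiffAt ℝ 1 (fun w : ℂ => ‖w‖ ^ 2) w := (contDiff_norm_sq ℝ).contDiffAt
    have h2 : ContDiffAt ℝ 1 (fun w : ℂ => ‖w‖) w := contDiffAt_norm ℝ hw
    unfold exB
    refine ContDiffAt.mul ?_ contDiffAt_id
    refine Complex.ofRealCLM.contDiff.contDiffAt.comp w ?_
    refine ContDiffAt.div (contDiffAt_const.mul ?_) h2 hn
    exact (Real.smoothTransition.contDiff (n := 1)).contDiffAt.comp w
      (((contDiffAt_const.mul h1).sub contDiffAt_const).div_const _)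

lemma contDiff_ex : ContDiff ℝ 1 (fun p : ℂ × ℂ => ex p.1 p.2) :=
  (contDiff_exA.comp contDiff_fst).add (contDiff_exB.comp contDiff_snd)

end Crest.Agent.R123
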