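/-
R123 / S0163, task DYNLOCAL : pointwise formulas for the pieces of `F`.
-/
import Crest.Agent.R123.Exit
import Crest.Agent.R123.Clock

set_option autoImplicit false

namespace Crest.Agent.R123

open Real (smoothTransition)

@[simp] lemma ze_north : ze north = 0 := rfl
@[simp] lemma he_north : he north = 1 := rfl
@[simp] lemma ze_south : ze south = 0 := rfl
@[simp] lemma he_south : he south = -1 := rfl

lemma ze_jj (v : ℂ) : ze (jj v) = 2 * v / ((1 + ‖v‖ ^ 2 : ℝ) : ℂ) := rfl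
lemma he_jj (v : ℂ) : he (jj v) = (‖v‖ ^ 2 - 1) / (1 + ‖v‖ ^ 2) := rfl

lemma jj_zero : jj 0 = south := by
  apply S2_ext
  · rw [ze_jj, ze_south]; simp
  · rw [he_jj, he_south]; simp

lemma he_le_one (x : S2) : he x ≤ 1 := by
  have h := ze_he x
  nlinarith [sq_nonneg ‖ze x‖]

lemma neg_one_le_he (x : S2) : -1 ≤ he x := by
  have h := ze_he x
  nlinarith [sq_nonneg ‖ze x‖]

lemma eq_north_of_he {x : S2} (h : he x = 1) : x = north := by
  apply S2_ext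
  · have h2 := ze_he x
    rw [h] at h2
    have h3 : ‖ze x‖ ^ 2 = 0 := by linarith
    rw [ze_north]
    simpa using h3
  · rw [h]; rfl

lemma eq_south_of_he {x : S2} (h : he x = -1) : x = south := by
  apply S2_ext
  · have h2 := ze_he x
    rw [h] at h2
    have h3 : ‖ze x‖ ^ 2 = 0 := by linarith
    rw [ze_south]
    simpa using h3
  · rw [h]; rfl

/-- every point is `north` or some `jj v` -/
lemma eq_north_or_jj (x : S2) : x = north ∨ ∃ v : ℂ, x = jj v := by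
  by_cases hx : he x = 1
  · exact Or.inl (eq_north_of_he hx)
  · right
    have h1 : he x < 1 := lt_of_le_of_ne (he_le_one x) hx
    have h2 := ze_he x
    have h3 : 0 < 1 - he x := by linarith
    have hv : ‖ze x / ((1 - he x : ℝ) : ℂ)‖ ^ 2 = (1 + he x) / (1 - he x) := by
      rw [norm_div, Complex.norm_real, Real.norm_of_nonneg h3.le, div_pow]
      field_simp
      nlinarith
    refine ⟨ze x / ((1 - he x : ℝ) : ℂ), ?_⟩
    apply S2_ext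
    · rw [ze_jj, hv]
      have h4 : (1 + (1 + he x) / (1 - he x) : ℝ) = 2 / (1 - he x) := by
        field_simp
        ring
      rw [h4]
      have h5 : ((1 - he x : ℝ) : ℂ) ≠ 0 := by exact_mod_cast h3.ne'
      push_cast at h5 ⊢
      field_simp
    · rw [he_jj, hv]
      field_simp
      ring

lemma he_jj_lt (v : ℂ) : he (jj v) < 1 := by
  rw [he_jj, div_lt_one (by positivity)]
  linarith

lemma jj_ne_north (v : ℂ) : jj v ≠ north := by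
  intro h
  have h1 := he_jj_lt v
  rw [h, he_north] at h1
  exact lt_irrefl _ h1

lemma one_sub_he_jj (v : ℂ) : 1 - he (jj v) = 2 / (1 + ‖v‖ ^ 2) := by
  rw [he_jj]
  field_simp
  ring

lemma ze_div_jj (v : ℂ) : ze (jj v) / ((1 - he (jj v) : ℝ) : ℂ) = v := by
  rw [one_sub_he_jj, ze_jj]
  have h : ((1 + ‖v‖ ^ 2 : ℝ) : ℂ) ≠ 0 := by
    have : (1 + ‖v‖ ^ 2 : ℝ) ≠ 0 := by positivity
    exact_mod_cast this
  push_cast at h ⊢
  field_simp

lemma jj_injective : Function.Injective jj := by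
  intro v w h
  rw [← ze_div_jj v, ← ze_div_jj w, h]

lemma sqS_jj (v : ℂ) : sqS (jj v) = jj (v ^ 2) := by
  have h : ((1 + ‖v‖ ^ 2 : ℝ) : ℂ) ≠ 0 := by
    have : (1 + ‖v‖ ^ 2 : ℝ) ≠ 0 := by positivity
    exact_mod_cast this
  have hp : (0:ℝ) < 1 + ‖v‖ ^ 2 := by positivity
  have hp4 : (0:ℝ) < 1 + (‖v‖ ^ 2) ^ 2 := by positivity
  have h4 : ((1 + (‖v‖ ^ 2) ^ 2 : ℝ) : ℂ) ≠ 0 := by exact_mod_cast hp4.ne'
  have key : (1 + ((‖v‖ ^ 2 - 1) / (1 + ‖v‖ ^ 2)) ^ 2 : ℝ) =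
      2 * (1 + (‖v‖ ^ 2) ^ 2) / (1 + ‖v‖ ^ 2) ^ 2 := by
    field_simp
    ring
  apply S2_ext
  · rw [sqS, ze_mkS2, he_jj, ze_jj, ze_jj, key, norm_pow]
    push_cast at h h4 ⊢
    field_simp
  · rw [sqS, he_mkS2, he_jj, he_jj, key, norm_pow]
    field_simp
    ring

@[simp] lemma sqS_north : sqS north = north := by
  apply S2_ext
  · rw [sqS, ze_mkS2]; simp
  · rw [sqS, he_mkS2]; norm_num

lemma GS_jj (v : ℂ) : GS (jj v) = G v := by
  rw [GS, ze_div_jj]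

@[simp] lemma GS_north : GS north = 0 := by
  rw [GS, ze_north, zero_div]
  exact G_of_le_one (by simp)

lemma toS2_zero_one : toS2 0 1 = north := by
  rw [toS2, dif_pos (by simp)]
  rfl

lemma toS2_of {a : ℂ} {b : ℝ} (h : ‖a‖ ^ 2 + b ^ 2 = 1) : toS2 a b = mkS2 a b h := by
  rw [toS2, dif_pos h]

lemma UU_north {k₁ k₂ : ℝ} (e : ℂ) (h1 : 0 < k₁) : UU k₁ k₂ e north = north := by
  have h : (k₁ ^ 2 : ℝ) ≠ 0 := by positivity
  have hX : UX k₁ k₂ e (ze north) (he north) = 0 := by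
    rw [UX, ze_north, he_north]; simp
  have hY : UY k₁ k₂ e (ze north) (he north) = k₁ ^ 2 := by
    rw [UY, ze_north, he_north]; simp
  have hZ : UZ k₂ (he north) = 0 := by
    rw [UZ, he_north]; simp
  rw [UU, hX, hY, hZ]
  simp only [mul_zero, zero_div, add_zero, sub_zero]
  rw [div_self h]
  exact toS2_zero_one

lemma UU_jj {k₁ k₂ : ℝ} (e v : ℂ) (h1 : 0 ≤ k₁) (h2 : 0 < k₂) :
    UU k₁ k₂ e (jj v) = jj ((k₁ / k₂ : ℝ) * v ^ 2 + e) := by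
  set w : ℂ := (k₁ / k₂ : ℝ) * v ^ 2 + e with hw
  have hp : (0:ℝ) < 1 + ‖v‖ ^ 2 := by positivity
  have hC : ((1 + ‖v‖ ^ 2 : ℝ) : ℂ) ≠ 0 := by exact_mod_cast hp.ne'
  have hk : (k₂ : ℂ) ≠ 0 := by exact_mod_cast h2.ne'
  have hb : (1 - he (jj v)) / 2 = 1 / (1 + ‖v‖ ^ 2) := by
    rw [one_sub_he_jj]; field_simp
  have hb' : (1 + he (jj v)) / 2 = ‖v‖ ^ 2 / (1 + ‖v‖ ^ 2) := by
    rw [he_jj]; field_simp; ring
  have ha : ze (jj v) / 2 = v / ((1 + ‖v‖ ^ 2 : ℝ) : ℂ) := by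
    rw [ze_jj]; field_simp
  have hX : UX k₁ k₂ e (ze (jj v)) (he (jj v)) =
      ((k₂ ^ 2 / (1 + ‖v‖ ^ 2) ^ 2 : ℝ) : ℂ) * w := by
    rw [UX, ha, hb, hw]
    push_cast at hC ⊢
    field_simp
  have hZ : UZ k₂ (he (jj v)) = k₂ ^ 2 / (1 + ‖v‖ ^ 2) ^ 2 := by
    rw [UZ, hb]; field_simp
  have hnw : ‖w‖ ^ 2 = (k₁ / k₂) ^ 2 * (‖v‖ ^ 2) ^ 2 +
      2 * (k₁ / k₂) * (v ^ 2 * (starRingEnd ℂ) e).re + ‖e‖ ^ 2 := by
    rw [hw, ← Complex.normSq_eq_norm_sq, Complex.normSq_add, Complex.normSq_mul,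
      Complex.normSq_ofReal, Complex.normSq_eq_norm_sq, Complex.normSq_eq_norm_sq, norm_pow,
      mul_assoc ((k₁ / k₂ : ℝ) : ℂ), Complex.re_ofReal_mul]
    ring
  have hre : ((v / ((1 + ‖v‖ ^ 2 : ℝ) : ℂ)) ^ 2 * (starRingEnd ℂ) e).re =
      (v ^ 2 * (starRingEnd ℂ) e).re / (1 + ‖v‖ ^ 2) ^ 2 := by
    have : (v / ((1 + ‖v‖ ^ 2 : ℝ) : ℂ)) ^ 2 * (starRingEnd ℂ) e =
        ((1 / (1 + ‖v‖ ^ 2) ^ 2 : ℝ) : ℂ) * (v ^ 2 * (starRingEnd ℂ) e) := by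
      push_cast at hC ⊢
      field_simp
    rw [this, Complex.re_ofReal_mul]
    ring
  have hY : UY k₁ k₂ e (ze (jj v)) (he (jj v)) =
      k₂ ^ 2 / (1 + ‖v‖ ^ 2) ^ 2 * ‖w‖ ^ 2 := by
    rw [UY, ha, hb, hb', hre, hnw]
    field_simp
    try ring
  set c : ℝ := k₂ ^ 2 / (1 + ‖v‖ ^ 2) ^ 2 with hc
  have hc0 : 0 < c := by positivity
  have hcC : (c : ℂ) ≠ 0 := by exact_mod_cast hc0.ne'
  have hwp : (0:ℝ) < 1 + ‖w‖ ^ 2 := by positivity
  have hwC : ((1 + ‖w‖ ^ 2 : ℝ) : ℂ) ≠ 0 := by exact_mod_cast hwp.ne'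
  rw [UU, hX, hY, hZ]
  have e1 : 2 * ((c : ℂ) * w) / ((c * ‖w‖ ^ 2 + c : ℝ) : ℂ) = 2 * w / ((1 + ‖w‖ ^ 2 : ℝ) : ℂ) := by
    have : ((c * ‖w‖ ^ 2 + c : ℝ) : ℂ) = (c : ℂ) * ((1 + ‖w‖ ^ 2 : ℝ) : ℂ) := by
      push_cast; ring
    rw [this]
    field_simp
  have e2 : (c * ‖w‖ ^ 2 - c) / (c * ‖w‖ ^ 2 + c) = (‖w‖ ^ 2 - 1) / (1 + ‖w‖ ^ 2) := by
    have : c * ‖w‖ ^ 2 + c = c * (1 + ‖w‖ ^ 2) := by ring
    rw [this]
    field_simp
  rw [e1, e2]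
  rw [toS2_of]
  rfl

lemma UU_jj_top {k₁ : ℝ} (e : ℂ) {v : ℂ} (h1 : 0 < k₁) (hv : v ≠ 0) :
    UU k₁ 0 e (jj v) = north := by
  have hv' : 0 < ‖v‖ := norm_pos_iff.2 hv
  have hb' : (1 + he (jj v)) / 2 = ‖v‖ ^ 2 / (1 + ‖v‖ ^ 2) := by
    rw [he_jj]; field_simp; ring
  have hX : UX k₁ 0 e (ze (jj v)) (he (jj v)) = 0 := by
    rw [UX]; simp
  have hY : UY k₁ 0 e (ze (jj v)) (he (jj v)) = k₁ ^ 2 * (‖v‖ ^ 2 / (1 + ‖v‖ ^ 2)) ^ 2 := by
    rw [UY, hb']; simp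
  have hZ : UZ 0 (he (jj v)) = 0 := by
    rw [UZ]; simp
  have h : (k₁ ^ 2 * (‖v‖ ^ 2 / (1 + ‖v‖ ^ 2)) ^ 2 : ℝ) ≠ 0 := by positivity
  rw [UU, hX, hY, hZ]
  simp only [mul_zero, zero_div, add_zero, sub_zero]
  rw [div_self h]
  exact toS2_zero_one

/-- The cut-off of the height. -/
lemma KK_nonneg (h : ℝ) : 0 ≤ KK h := smoothTransition.nonneg _
lemma KK_le_one (h : ℝ) : KK h ≤ 1 := smoothTransition.le_one _

lemma KK_jj_of_le {v : ℂ} (h : ‖v‖ ≤ 4) : KK (he (jj v)) = 0 := by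
  rw [KK]
  apply Real.smoothTransition.zero_of_nonpos
  have h1 : he (jj v) ≤ 15 / 17 := by
    rw [he_jj, div_le_iff₀ (by positivity)]
    have := norm_nonneg v
    nlinarith
  linarith

lemma KK_jj_of_ge {v : ℂ} (h : 16 ≤ ‖v‖) : KK (he (jj v)) = 1 := by
  rw [KK]
  apply Real.smoothTransition.one_of_one_le
  have h1 : 255 / 257 ≤ he (jj v) := by
    rw [he_jj, le_div_iff₀ (by positivity)]
    nlinarith
  linarith

lemma KK_north : KK (he north) = 1 := by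
  rw [KK, he_north]
  apply Real.smoothTransition.one_of_one_le
  norm_num

/-! ### the section -/

lemma sec_cond {ξ : ℂ} (h : ‖ξ‖ ≤ 1) : ‖ξ‖ ^ 2 + (-Real.sqrt (1 - ‖ξ‖ ^ 2)) ^ 2 = 1 := by
  have h0 := norm_nonneg ξ
  rw [neg_sq, Real.sq_sqrt (by nlinarith)]
  ring

lemma ze_sec {ξ : ℂ} (h : ‖ξ‖ ≤ 1) : ze (sec ξ) = ξ := by
  rw [sec, toS2_of (sec_cond h), ze_mkS2]

lemma he_sec {ξ : ℂ} (h : ‖ξ‖ ≤ 1) : he (sec ξ) = -Real.sqrt (1 - ‖ξ‖ ^ 2) := by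
  rw [sec, toS2_of (sec_cond h), he_mkS2]

@[simp] lemma sec_zero : sec 0 = south := by
  apply S2_ext
  · rw [ze_sec (by simp)]; rfl
  · rw [he_sec (by simp)]; simp

lemma norm_GS_le (x : S2) : ‖GS x‖ ≤ 1 / 8 := norm_G_le _

lemma norm_xi_aux {a b : ℝ} {z w : ℂ} (ha : 0 ≤ a) (ha1 : a ≤ 1) (hb : 0 ≤ b) (hb1 : b ≤ 1)
    (hz : ‖z‖ ≤ 1 / 4) (hw : ‖w‖ ≤ 1 / 8) : ‖(a : ℂ) * z + (b : ℂ) * w‖ ≤ 3 / 8 := by
  refine (norm_add_le _ _).trans ?_
  rw [norm_mul, norm_mul, Complex.norm_real, Complex.norm_real, Real.norm_of_nonneg ha,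
    Real.norm_of_nonneg hb]
  have h1 : a * ‖z‖ ≤ 1 * (1 / 4) := mul_le_mul ha1 hz (norm_nonneg _) zero_le_one
  have h2 : b * ‖w‖ ≤ 1 * (1 / 8) := mul_le_mul hb1 hw (norm_nonneg _) zero_le_one
  linarith

lemma norm_xi1_le (p : Mfd) : ‖xi1 p‖ ≤ 3 / 8 :=
  norm_xi_aux (SZ_nonneg _) (SZ_le_one _) (gam_nonneg _) (gam_le_one _) (norm_cut_le _)
    (norm_GS_le _)

lemma norm_xi2_le (p : Mfd) : ‖xi2 p‖ ≤ 3 / 8 := by
  refine norm_xi_aux (SZ_nonneg _) (SZ_le_one _) (gam_nonneg _) (gam_le_one _) (norm_cut_le _) ?_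
  rw [norm_div]
  have := norm_GS_le (sqS (sqS p.1))
  simp only [Complex.norm_ofNat]
  linarith

/-! ### the speed -/

lemma tau_aux (p : Mfd) : 0 ≤ psi (p.2.2.2 : ℂ) * smoothTransition (-he p.1) *
    ((1 - he p.2.1) * (1 - he p.2.2.1) / 4) ∧
    psi (p.2.2.2 : ℂ) * smoothTransition (-he p.1) ≤ 1 ∧
    0 ≤ (1 - he p.2.1) * (1 - he p.2.2.1) / 4 ∧ (1 - he p.2.1) * (1 - he p.2.2.1) / 4 ≤ 1 ∧
    0 ≤ psi (p.2.2.2 : ℂ) * smoothTransition (-he p.1) := by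
  have h1 := psi_nonneg p.2.2.2
  have h2 := psi_le_one p.2.2.2
  have h3 := Real.smoothTransition.nonneg (-he p.1)
  have h4 := Real.smoothTransition.le_one (-he p.1)
  have h5 := he_le_one p.2.1
  have h6 := neg_one_le_he p.2.1
  have h7 := he_le_one p.2.2.1
  have h8 := neg_one_le_he p.2.2.1
  have h9 : 0 ≤ (1 - he p.2.1) * (1 - he p.2.2.1) := mul_nonneg (by linarith) (by linarith)
  have h10 : (1 - he p.2.1) * (1 - he p.2.2.1) ≤ 2 * 2 :=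
    mul_le_mul (by linarith) (by linarith) (by linarith) (by norm_num)
  have h11 : 0 ≤ psi (p.2.2.2 : ℂ) * smoothTransition (-he p.1) := mul_nonneg h1 h3
  have h12 : psi (p.2.2.2 : ℂ) * smoothTransition (-he p.1) ≤ 1 := mul_le_one₀ h2 h3 h4
  exact ⟨mul_nonneg h11 (by linarith), h12, by linarith, by linarith, h11⟩

lemma tau_nonneg (p : Mfd) : 0 ≤ tau p := by
  obtain ⟨_, h2, h3, h4, h5⟩ := tau_aux p
  rw [tau]
  have := mul_le_one₀ h2 h3 h4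
  linarith

lemma tau_le_one (p : Mfd) : tau p ≤ 1 := by
  obtain ⟨h1, _, _, _, _⟩ := tau_aux p
  rw [tau]
  linarith

lemma tau_eq_zero_iff (p : Mfd) : tau p = 0 ↔ p = PP := by
  constructor
  · intro h
    obtain ⟨h1, h2, h3, h4, h5⟩ := tau_aux p
    rw [tau] at h
    have hprod : psi (p.2.2.2 : ℂ) * smoothTransition (-he p.1) *
      ((1 - he p.2.1) * (1 - he p.2.2.1) / 4) = 1 := by linarith
    have hA : psi (p.2.2.2 : ℂ) * smoothTransition (-he p.1) = 1 := by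
      refine le_antisymm h2 ?_
      calc (1:ℝ) = _ := hprod.symm
        _ ≤ psi (p.2.2.2 : ℂ) * smoothTransition (-he p.1) * 1 :=
          mul_le_mul_of_nonneg_left h4 h5
        _ = _ := mul_one _
    have hB : (1 - he p.2.1) * (1 - he p.2.2.1) / 4 = 1 := by
      rw [hA, one_mul] at hprod; exact hprod
    have hp1 : psi (p.2.2.2 : ℂ) = 1 := by
      refine le_antisymm (psi_le_one _) ?_
      calc (1:ℝ) = _ := hA.symm
        _ ≤ psi (p.2.2.2 : ℂ) * 1 :=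
          mul_le_mul_of_nonneg_left (Real.smoothTransition.le_one _) (psi_nonneg _)
        _ = _ := mul_one _
    have hs1 : smoothTransition (-he p.1) = 1 := by
      rw [hp1, one_mul] at hA; exact hA
    rw [Real.smoothTransition.eq_one_iff_one_le] at hs1
    have e1 : p.1 = south := by
      apply eq_south_of_he
      have := neg_one_le_he p.1
      linarith
    have h6 := neg_one_le_he p.2.1
    have h8 := neg_one_le_he p.2.2.1
    have h5' := he_le_one p.2.1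
    have h7' := he_le_one p.2.2.1
    have e2 : p.2.1 = south := by
      apply eq_south_of_he
      nlinarith
    have e3 : p.2.2.1 = south := by
      apply eq_south_of_he
      nlinarith
    have e4 : (p.2.2.2 : ℂ) = hour 5 := (psi_eq_one_iff _).1 hp1
    exact Prod.ext e1 (Prod.ext e2 (Prod.ext e3 (Subtype.ext e4)))
  · rintro rfl
    rw [tau]
    have hp1 : psi ((PP.2.2.2 : S1) : ℂ) = 1 := (psi_eq_one_iff _).2 rfl
    have e1 : PP.1 = south := rfl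
    have e2 : PP.2.1 = south := rfl
    have e3 : PP.2.2.1 = south := rfl
    rw [hp1, e1, e2, e3, he_south]
    norm_num

lemma tau_of_north {p : Mfd} (h : p.1 = north) : tau p = 1 := by
  rw [tau, h, he_north, Real.smoothTransition.zero_of_nonpos (by norm_num)]
  ring

lemma tau_of_one_le {p : Mfd} {v : ℂ} (hp : p.1 = jj v) (h : 1 ≤ ‖v‖) : tau p = 1 := by
  have h0 : 0 ≤ he (jj v) := by
    rw [he_jj]
    apply div_nonneg
    · nlinarith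
    · positivity
  rw [tau, hp, Real.smoothTransition.zero_of_nonpos (by linarith)]
  ring

lemma sqrt_aux {a : ℝ} (h0 : 0 ≤ a) (h1 : a ≤ 1) : 1 - a ≤ Real.sqrt (1 - a) := by
  apply Real.le_sqrt_of_sq_le
  nlinarith

/-- near the waiting point the clock is slow -/
lemma tau_wait {t : ℝ} (m : ℤ) (w₁ w₂ : ℂ) (h1 : ‖w₁‖ ≤ 1) (h2 : ‖w₂‖ ≤ 1) (z : S1)
    (hz : (z : ℂ) = hour t) :
    tau (south, sec w₁, sec w₂, z) ≤ (t - (12 * m + 5)) ^ 2 + (‖w₁‖ ^ 2 + ‖w₂‖ ^ 2) / 2 := by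
  have hp := psi_ge t m
  rw [← hz] at hp
  have hp1 := psi_le_one z
  have hp0 := psi_nonneg z
  have a0 : 0 ≤ ‖w₁‖ ^ 2 := by positivity
  have b0 : 0 ≤ ‖w₂‖ ^ 2 := by positivity
  have a1 : ‖w₁‖ ^ 2 ≤ 1 := by have := norm_nonneg w₁; nlinarith
  have b1 : ‖w₂‖ ^ 2 ≤ 1 := by have := norm_nonneg w₂; nlinarith
  have ha := sqrt_aux a0 a1
  have hb := sqrt_aux b0 b1
  have ha2 : Real.sqrt (1 - ‖w₁‖ ^ 2) ≤ 1 := by
    rw [Real.sqrt_le_one]; linarith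
  have hb2 : Real.sqrt (1 - ‖w₂‖ ^ 2) ≤ 1 := by
    rw [Real.sqrt_le_one]; linarith
  rw [tau]
  simp only [he_south, neg_neg, he_sec h1, he_sec h2, Real.smoothTransition.one, mul_one,
    sub_neg_eq_add]
  generalize Real.sqrt (1 - ‖w₁‖ ^ 2) = s at *
  generalize Real.sqrt (1 - ‖w₂‖ ^ 2) = r at *
  generalize ‖w₁‖ ^ 2 = a at *
  generalize ‖w₂‖ ^ 2 = b at *
  generalize psi (z : ℂ) = q at *
  have hP : 1 - (a + b) / 2 ≤ (1 + s) * (1 + r) / 4 := by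
    have : (2 - a) * (2 - b) ≤ (1 + s) * (1 + r) :=
      mul_le_mul (by linarith) (by linarith) (by linarith) (by linarith)
    nlinarith
  have hP1 : (1 + s) * (1 + r) / 4 ≤ 1 := by
    have : (1 + s) * (1 + r) ≤ 2 * 2 := mul_le_mul (by linarith) (by linarith) (by linarith)
      (by norm_num)
    linarith
  nlinarith

/-! ### the rotation circle -/

lemma k1_north (z : ℂ) : k1 z north = 1 := by
  rw [k1, KK_north]; ring

lemma xi1_Circ {p : Mfd} (hp : p ∈ Circ) : xi1 p = 0 := by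
  obtain ⟨h1, h2, h3⟩ := hp
  rw [xi1, h1, h3]; simp

lemma xi2_Circ {p : Mfd} (hp : p ∈ Circ) : xi2 p = 0 := by
  obtain ⟨h1, h2, h3⟩ := hp
  rw [xi2, h1, h2]; simp

lemma F_Circ {p : Mfd} (hp : p ∈ Circ) : F p = (north, south, south, nextZ 1 p.2.2.2) := by
  have hx1 := xi1_Circ hp
  have hx2 := xi2_Circ hp
  obtain ⟨h1, h2, h3⟩ := hp
  rw [F, hx1, hx2, h1, h2, h3, tau_of_north h1, k1_north, sec_zero,
    UU_north _ zero_lt_one]

lemma Circ_mapsTo : Set.MapsTo F Circ Circ := by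
  intro p hp
  rw [F_Circ hp]
  exact ⟨rfl, rfl, rfl⟩

lemma Circ_isometry (p : Mfd) (hp : p ∈ Circ) (q : Mfd) (hq : q ∈ Circ) :
    dist (F p) (F q) ≤ dist p q := by
  rw [F_Circ hp, F_Circ hq]
  have h : dist (nextZ 1 p.2.2.2) (nextZ 1 q.2.2.2) = dist p.2.2.2 q.2.2.2 := by
    rw [Subtype.dist_eq, Subtype.dist_eq, dist_eq_norm, dist_eq_norm]
    show ‖(p.2.2.2 : ℂ) * hour 1 - (q.2.2.2 : ℂ) * hour 1‖ = _
    rw [← sub_mul, norm_mul, norm_hour, mul_one]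
  have h2 : dist p.2.2.2 q.2.2.2 ≤ dist p q := by
    rw [Prod.dist_eq, Prod.dist_eq, Prod.dist_eq]
    exact (le_max_right _ _).trans ((le_max_right _ _).trans (le_max_right _ _))
  rw [Prod.dist_eq, Prod.dist_eq, Prod.dist_eq]
  simp only [dist_self, h]
  simp only [dist_nonneg, max_eq_right]
  exact h2

end Crest.Agent.R123
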