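import Mathlib

/-!
R123 / EntIter: if an iterate has zero entropy, so does the map.
-/

set_option autoImplicit false

namespace Crest.Agent.R123

open Dynamics Set Filter UniformSpace
open scoped Uniformity

theorem coverEntropy_eq_zero_of_iterate {X : Type*} [UniformSpace X] [Nonempty X] {f : X → X}
    (hf : UniformContinuous f) {k : ℕ} (hk : k ≠ 0)
    (h : coverEntropy (f^[k]) univ = 0) : coverEntropy f univ = 0 := by
  apply le_antisymm _ (coverEntropy_nonneg f univ_nonempty)
  refine iSup₂_le fun U hU => ?_
  have hV : dynEntourage f U k ∈ 𝓤 X := dynEntourage_mem_uniformity hf hU k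
  have h1 : coverEntropyEntourage (f^[k]) univ (dynEntourage f U k) ≤ 0 := by
    rw [← h]
    exact coverEntropyEntourage_le_coverEntropy (f^[k]) univ hV
  have hle : ∀ n, coverMincard f univ U (k * n) ≤ coverMincard (f^[k]) univ (dynEntourage f U k) n := by
    intro n
    refine le_iInf₂ fun s hs => ?_
    apply IsDynCoverOf.coverMincard_le_card
    intro x hx
    obtain ⟨y, hy, hxy⟩ := hs hx
    refine ⟨y, hy, ?_⟩
    have h2 : (x, y) ∈ dynEntourage (f^[k]) (dynEntourage f U k) n := hxy
    show (x, y) ∈ dynEntourage f U (k * n)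
    rw [mem_dynEntourage] at h2 ⊢
    intro j hj
    have hkpos : 0 < k := Nat.pos_of_ne_zero hk
    have h3 := h2 (j / k) (Nat.div_lt_of_lt_mul hj)
    rw [mem_dynEntourage] at h3
    have h4 := h3 (j % k) (Nat.mod_lt _ hkpos)
    rw [← Function.iterate_mul, ← Function.iterate_add_apply, ← Function.iterate_add_apply] at h4
    have h5 : j % k + k * (j / k) = j := Nat.mod_add_div j k
    rwa [h5] at h4
  have hmono : Monotone fun m ↦ (coverMincard f univ U m).toENNReal :=
    fun _ _ k_m ↦ ENat.toENNReal_mono (coverMincard_monotone_time f univ U k_m)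
  have h6 := hmono.expGrowthSup_comp_mul hk
  have h7 : ExpGrowth.expGrowthSup ((fun m ↦ (coverMincard f univ U m).toENNReal) ∘ fun n => k * n)
      ≤ 0 := by
    refine le_trans (ExpGrowth.expGrowthSup_monotone fun n => ?_) h1
    exact ENat.toENNReal_mono (hle n)
  have h8 : (k : EReal) * coverEntropyEntourage f univ U ≤ 0 := by
    have h9 : coverEntropyEntourage f univ U =
      ExpGrowth.expGrowthSup (fun m ↦ (coverMincard f univ U m).toENNReal) := rfl
    rw [h9, ← h6]
    exact h7
  by_contra hc
  have hpos : 0 < coverEntropyEntourage f univ U := lt_of_not_ge hc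
  have : 0 < (k : EReal) * coverEntropyEntourage f univ U :=
    EReal.mul_pos (by exact_mod_cast Nat.pos_of_ne_zero hk) hpos
  exact absurd h8 (not_le.mpr this)

end Crest.Agent.R123
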