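import Mathlib

/-!
# Row 123: a criterion for zero (cover) entropy

If along every orbit the frequency of "big jumps" `dist (f^[j] x) (f^[j+1] x) ≥ η` is, at some
time, arbitrarily small (for every `η > 0`), then the Bowen–Dinaburg cover entropy vanishes.
-/

set_option autoImplicit false

namespace Crest.Agent.R123.Ent

open Filter Set
open scoped Topology Uniformity SetRel

section Count

variable {X : Type*} [MetricSpace X]

/-- Number of jumps of size at least `η` along the orbit of `x` before time `n`. -/
noncomputable def bigCount (f : X → X) (η : ℝ) (x : X) (n : ℕ) : ℕ :=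
  ((Finset.range n).filter (fun j => η ≤ dist (f^[j] x) (f^[j+1] x))).card

theorem bigCount_le (f : X → X) (η : ℝ) (x : X) (n : ℕ) : bigCount f η x n ≤ n := by
  unfold bigCount
  exact (Finset.card_filter_le _ _).trans (by simp)

theorem bigCount_succ (f : X → X) (η : ℝ) (x : X) (n : ℕ) :
    bigCount f η x (n + 1) =
      bigCount f η x n + (if η ≤ dist (f^[n] x) (f^[n+1] x) then 1 else 0) := by
  unfold bigCount
  rw [Finset.range_add_one, Finset.filter_insert]
  split_ifs with h
  · rw [Finset.card_insert_of_notMem]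
    intro hmem
    exact absurd (Finset.mem_range.1 (Finset.mem_filter.1 hmem).1) (lt_irrefl n)
  · rfl

theorem bigCount_add (f : X → X) (η : ℝ) (x : X) (a b : ℕ) :
    bigCount f η x (a + b) = bigCount f η x a + bigCount f η (f^[a] x) b := by
  induction b with
  | zero =>
    have h0 : bigCount f η (f^[a] x) 0 = 0 := Nat.le_zero.1 (bigCount_le _ _ _ _)
    rw [h0, add_zero, add_zero]
  | succ b ih =>
    rw [← add_assoc, bigCount_succ, ih, bigCount_succ, add_assoc]
    congr 2
    have h1 : f^[b] (f^[a] x) = f^[a + b] x := by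
      rw [← Function.iterate_add_apply, add_comm]
    have h2 : f^[b+1] (f^[a] x) = f^[a + b + 1] x := by
      rw [← Function.iterate_add_apply]; congr 1; omega
    rw [h1, h2]

theorem eventually_bigCount_le (f : X → X) (hf : Continuous f) (η : ℝ) (x : X) (n : ℕ) :
    ∀ᶠ z in 𝓝 x, bigCount f η z n ≤ bigCount f η x n := by
  have key : ∀ j ∈ Finset.range n, ∀ᶠ z in 𝓝 x,
      (dist (f^[j] x) (f^[j+1] x) < η → dist (f^[j] z) (f^[j+1] z) < η) := by
    intro j _
    by_cases hj : dist (f^[j] x) (f^[j+1] x) < η
    · have hc : Continuous fun z => dist (f^[j] z) (f^[j+1] z) :=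
        (hf.iterate j).dist (hf.iterate (j+1))
      filter_upwards [hc.continuousAt.eventually_lt continuousAt_const hj] with z hz _
      exact hz
    · exact Eventually.of_forall fun z h => absurd h hj
  have key2 := (Finset.eventually_all (Finset.range n)).2 key
  filter_upwards [key2] with z hz
  apply Finset.card_le_card
  intro j hj
  rw [Finset.mem_filter] at hj ⊢
  refine ⟨hj.1, ?_⟩
  by_contra hlt
  exact absurd (hz j hj.1 (not_le.1 hlt)) (not_lt.2 hj.2)

/-- Uniform version of the hypothesis. -/
theorem exists_uniform_bound [CompactSpace X] (f : X → X) (hf : Continuous f) {η ε : ℝ}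
    (hε : 0 < ε) (h : ∀ x, ∃ n ≥ 1, (bigCount f η x n : ℝ) < ε * n) :
    ∃ N : ℕ, ∀ (y : X) (n : ℕ), (bigCount f η y n : ℝ) ≤ ε * n + N := by
  choose m hm1 hm using h
  obtain ⟨t, -, ht⟩ := isCompact_univ.elim_nhds_subcover
    (fun x : X => {z | bigCount f η z (m x) ≤ bigCount f η x (m x)})
    (fun x _ => eventually_bigCount_le f hf η x (m x))
  refine ⟨t.sup m, ?_⟩
  intro y n
  induction n using Nat.strong_induction_on generalizing y with
  | _ n ih =>
    by_cases hn : n ≤ t.sup m
    · have h1 : (bigCount f η y n : ℝ) ≤ n := by exact_mod_cast bigCount_le f η y n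
      have h2 : (n : ℝ) ≤ ((t.sup m : ℕ) : ℝ) := by exact_mod_cast hn
      have h3 : 0 ≤ ε * n := by positivity
      linarith
    · push Not at hn
      have hy := ht (Set.mem_univ y)
      simp only [Set.mem_iUnion] at hy
      obtain ⟨x, hxt, hx⟩ := hy
      have hmx : m x ≤ t.sup m := Finset.le_sup (f := m) hxt
      have hmn : m x ≤ n := by omega
      obtain ⟨b, rfl⟩ := Nat.exists_eq_add_of_le hmn
      have hb : b < m x + b := by have := hm1 x; omega
      have h1 := ih b hb (f^[m x] y)
      rw [bigCount_add]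
      have h2 : (bigCount f η y (m x) : ℝ) ≤ bigCount f η x (m x) := by exact_mod_cast hx
      have h3 := hm x
      push_cast
      nlinarith

end Count

section Codes

/-- Weighted count of codes with few letters. -/
theorem card_codes_le {ι κ : Type*} [Fintype ι] [Fintype κ] [DecidableEq ι]
    (S : Finset (ι → Option κ)) (x : ℝ) (hx0 : 0 < x) (hx1 : x ≤ 1) (q : ℝ)
    (hS : ∀ g ∈ S, ((Finset.univ.filter (fun i => (g i).isSome)).card : ℝ) ≤ q) :
    (S.card : ℝ) * x ^ q ≤ (1 + Fintype.card κ * x) ^ (Fintype.card ι) := by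
  classical
  set w : Option κ → ℝ := fun o => if o.isSome then x else 1 with hw
  have hsum : ∑ o : Option κ, w o = 1 + Fintype.card κ * x := by
    rw [Fintype.sum_option]
    simp [hw]
  have hprod : ∑ g : ι → Option κ, ∏ i, w (g i) = (1 + Fintype.card κ * x) ^ (Fintype.card ι) := by
    have := Finset.prod_univ_sum (ι := ι) (fun _ => (Finset.univ : Finset (Option κ)))
      (fun _ o => w o)
    simp only [hsum, Finset.prod_const, Finset.card_univ, Fintype.piFinset_univ] at this
    exact this.symm
  have hw0 : ∀ o, 0 ≤ w o := by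
    intro o; simp only [hw]; split_ifs <;> linarith
  have hwprod : ∀ g : ι → Option κ,
      ∏ i, w (g i) = x ^ ((Finset.univ.filter (fun i => (g i).isSome)).card : ℕ) := by
    intro g
    simp only [hw]
    rw [Finset.prod_ite]
    simp
  calc (S.card : ℝ) * x ^ q = ∑ g ∈ S, x ^ q := by simp
    _ ≤ ∑ g ∈ S, ∏ i, w (g i) := by
        apply Finset.sum_le_sum
        intro g hg
        rw [hwprod, ← Real.rpow_natCast]
        exact Real.rpow_le_rpow_of_exponent_ge hx0 hx1 (hS g hg)
    _ ≤ ∑ g : ι → Option κ, ∏ i, w (g i) := by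
        apply Finset.sum_le_sum_of_subset_of_nonneg (Finset.subset_univ _)
        intro g _ _
        exact Finset.prod_nonneg fun i _ => hw0 _
    _ = _ := hprod

end Codes

section Cover

variable {X : Type*} [MetricSpace X]

open Classical in
/-- Sample times. -/
noncomputable def isSample (f : X → X) (η : ℝ) (T : ℕ) (x : X) (j : ℕ) : Prop :=
  j % T = 0 ∨ ∃ i, j = i + 1 ∧ η ≤ dist (f^[i] x) (f^[i+1] x)

open Classical in
/-- The code of a point. -/
noncomputable def code {k : ℕ} (c : X → Fin k) (f : X → X) (η : ℝ) (T n : ℕ) (x : X) :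
    Fin n → Option (Fin k) :=
  fun j => if isSample f η T x j then some (c (f^[(j : ℕ)] x)) else none

theorem dist_le_of_code_eq {k : ℕ} (c : X → Fin k) (f : X → X) {η D : ℝ} (hη : 0 ≤ η)
    {T n : ℕ} (hT : 0 < T) (hc : ∀ a b, c a = c b → dist a b ≤ D) (y z : X)
    (h : code c f η T n y = code c f η T n z) (j : ℕ) (hj : j < n) :
    dist (f^[j] y) (f^[j] z) ≤ D + 2 * η * (j % T : ℕ) := by
  induction j with
  | zero =>
    have h0 := congrFun h ⟨0, hj⟩
    have hy : isSample f η T y 0 := Or.inl (by simp)
    have hz : isSample f η T z 0 := Or.inl (by simp)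
    simp only [code, hy, hz, if_true, Option.some.injEq] at h0
    have := hc _ _ h0
    simpa using this
  | succ j ih =>
    have h0 := congrFun h ⟨j+1, hj⟩
    by_cases hy : isSample f η T y (j+1)
    · by_cases hz : isSample f η T z (j+1)
      · simp only [code, hy, hz, if_true, Option.some.injEq] at h0
        have := hc _ _ h0
        have h2 : 0 ≤ 2 * η * (((j+1) % T : ℕ) : ℝ) := by positivity
        linarith
      · simp [code, hy, hz] at h0
    · by_cases hz : isSample f η T z (j+1)
      · simp [code, hy, hz] at h0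
      · have ih' := ih (by omega)
        have hmod : (j + 1) % T ≠ 0 := fun hh => hy (Or.inl hh)
        have hmod2 : (j + 1) % T = j % T + 1 := by
          rw [Nat.add_mod] at hmod ⊢
          have hlt : j % T < T := Nat.mod_lt _ hT
          rcases Nat.lt_or_ge 1 T with h1 | h1
          · rw [Nat.mod_eq_of_lt h1] at hmod ⊢
            rcases Nat.lt_or_ge (j % T + 1) T with h2 | h2
            · exact Nat.mod_eq_of_lt h2
            · have : j % T + 1 = T := by omega
              rw [this] at hmod
              simp at hmod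
          · have : T = 1 := by omega
            subst this
            simp [Nat.mod_one] at hmod
        have hdy : dist (f^[j] y) (f^[j+1] y) < η := by
          by_contra hh
          exact hy (Or.inr ⟨j, rfl, not_lt.1 hh⟩)
        have hdz : dist (f^[j] z) (f^[j+1] z) < η := by
          by_contra hh
          exact hz (Or.inr ⟨j, rfl, not_lt.1 hh⟩)
        rw [hmod2]
        push_cast
        have htri : dist (f^[j+1] y) (f^[j+1] z) ≤
            dist (f^[j] y) (f^[j+1] y) + dist (f^[j] y) (f^[j] z) + dist (f^[j] z) (f^[j+1] z) := by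
          calc dist (f^[j+1] y) (f^[j+1] z)
              ≤ dist (f^[j+1] y) (f^[j] y) + dist (f^[j] y) (f^[j] z)
                + dist (f^[j] z) (f^[j+1] z) := dist_triangle4 _ _ _ _
            _ = _ := by rw [dist_comm (f^[j+1] y) (f^[j] y)]
        linarith

/-- number of multiples of `T` below `n` -/
theorem card_mod_zero_le (T n : ℕ) :
    (((Finset.range n).filter (fun j => j % T = 0)).card : ℝ) ≤ n / T + 1 := by
  have h1 : ((Finset.range n).filter (fun j => j % T = 0)).card ≤ n / T + 1 := by
    calc ((Finset.range n).filter (fun j => j % T = 0)).card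
        ≤ ((Finset.range (n / T + 1)).image (fun i => T * i)).card := by
          apply Finset.card_le_card
          intro j hj
          rw [Finset.mem_filter, Finset.mem_range] at hj
          rw [Finset.mem_image]
          refine ⟨j / T, ?_, ?_⟩
          · rw [Finset.mem_range]
            exact Nat.lt_succ_of_le (Nat.div_le_div_right hj.1.le)
          · exact Nat.mul_div_cancel' (Nat.dvd_of_mod_eq_zero hj.2)
      _ ≤ (Finset.range (n / T + 1)).card := Finset.card_image_le
      _ = n / T + 1 := by simp
  have h2 : ((n / T : ℕ) : ℝ) ≤ (n : ℝ) / T := Nat.cast_div_le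
  have h3 : (((Finset.range n).filter (fun j => j % T = 0)).card : ℝ) ≤ ((n / T + 1 : ℕ) : ℝ) := by
    exact_mod_cast h1
  push_cast at h3
  linarith

theorem card_code_isSome_le {k : ℕ} (c : X → Fin k) (f : X → X) (η : ℝ)
    (T n : ℕ) (x : X) :
    ((Finset.univ.filter (fun j => (code c f η T n x j).isSome)).card : ℝ)
      ≤ n / T + 1 + bigCount f η x n := by
  classical
  have h1 : (Finset.univ.filter (fun j => (code c f η T n x j).isSome)).card
      ≤ ((Finset.range n).filter (fun j => j % T = 0)).card + bigCount f η x n := by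
    calc (Finset.univ.filter (fun j => (code c f η T n x j).isSome)).card
        = ((Finset.univ.filter (fun j => (code c f η T n x j).isSome)).image
            (fun j : Fin n => (j : ℕ))).card :=
          (Finset.card_image_of_injective _ Fin.val_injective).symm
      _ ≤ (((Finset.range n).filter (fun j => j % T = 0)) ∪
            (((Finset.range n).filter (fun j => η ≤ dist (f^[j] x) (f^[j+1] x))).image
              (fun i => i + 1))).card := by
          apply Finset.card_le_card
          intro j hj
          rw [Finset.mem_image] at hj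
          obtain ⟨a, ha, rfl⟩ := hj
          rw [Finset.mem_filter] at ha
          have ha2 := ha.2
          rw [Finset.mem_union]
          by_cases hs : isSample f η T x a
          · rcases hs with hs | ⟨i, hi, hi2⟩
            · left
              rw [Finset.mem_filter, Finset.mem_range]
              exact ⟨a.2, hs⟩
            · right
              rw [Finset.mem_image]
              refine ⟨i, ?_, hi.symm⟩
              rw [Finset.mem_filter, Finset.mem_range]
              exact ⟨by have := a.2; omega, hi2⟩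
          · simp [code, hs] at ha2
      _ ≤ ((Finset.range n).filter (fun j => j % T = 0)).card +
            (((Finset.range n).filter (fun j => η ≤ dist (f^[j] x) (f^[j+1] x))).image
              (fun i => i + 1)).card := Finset.card_union_le _ _
      _ ≤ _ := by
          gcongr
          exact Finset.card_image_le
  have h2 := card_mod_zero_le T n
  have h3 : ((Finset.univ.filter (fun j => (code c f η T n x j).isSome)).card : ℝ) ≤
      (((Finset.range n).filter (fun j => j % T = 0)).card : ℝ) + bigCount f η x n := by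
    exact_mod_cast h1
  linarith

/-- A finite partition of a compact metric space into sets of small diameter. -/
theorem exists_coloring [CompactSpace X] {D : ℝ} (hD : 0 < D) :
    ∃ (k : ℕ) (c : X → Fin k), ∀ a b, c a = c b → dist a b ≤ D := by
  classical
  obtain ⟨t, -, htf, ht⟩ := (isCompact_univ (X := X)).finite_cover_balls (half_pos hD)
  have hmem : ∀ x : X, ∃ y : htf.toFinset, dist x y < D / 2 := by
    intro x
    have := ht (Set.mem_univ x)
    simp only [Set.mem_iUnion, Metric.mem_ball] at this
    obtain ⟨y, hy, hxy⟩ := this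
    exact ⟨⟨y, by simpa using hy⟩, hxy⟩
  choose g hg using hmem
  refine ⟨Fintype.card htf.toFinset, fun x => Fintype.equivFin _ (g x), ?_⟩
  intro a b hab
  have hab' : g a = g b := (Fintype.equivFin _).injective hab
  have h1 := hg a
  have h2 := hg b
  rw [← hab'] at h2
  calc dist a b ≤ dist a (g a) + dist b (g a) := dist_triangle_right _ _ _
    _ ≤ D := by linarith

/-- Existence of a small dynamical cover. -/
theorem exists_cover (f : X → X) {k : ℕ} (c : X → Fin k) {η D r : ℝ} (hη : 0 ≤ η)
    {T n : ℕ} (hT : 0 < T) (hc : ∀ a b, c a = c b → dist a b ≤ D) (hr : D + 2 * η * T < r)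
    {x : ℝ} (hx0 : 0 < x) (hx1 : x ≤ 1) {q : ℝ} (hq : ∀ y : X, n / T + 1 + bigCount f η y n ≤ q) :
    ∃ s : Finset X, Dynamics.IsDynCoverOf f Set.univ {p : X × X | dist p.1 p.2 < r} n s ∧
      (s.card : ℝ) * x ^ q ≤ (1 + k * x) ^ n := by
  classical
  set S : Finset (Fin n → Option (Fin k)) :=
    Finset.univ.filter (fun g => ∃ y : X, code c f η T n y = g) with hS
  have hrep : ∀ g : S, ∃ y : X, code c f η T n y = g := fun g => (Finset.mem_filter.1 g.2).2
  choose rep hrep using hrep
  refine ⟨Finset.univ.image rep, ?_, ?_⟩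
  · intro y _
    have hy : code c f η T n y ∈ S := by
      rw [hS, Finset.mem_filter]; exact ⟨Finset.mem_univ _, y, rfl⟩
    refine ⟨rep ⟨_, hy⟩, by simp, ?_⟩
    rw [Dynamics.mem_dynEntourage]
    intro j hj
    have h1 := dist_le_of_code_eq c f hη hT hc y (rep ⟨_, hy⟩) (hrep ⟨_, hy⟩).symm j hj
    have h2 : ((j % T : ℕ) : ℝ) ≤ T := by exact_mod_cast (Nat.mod_lt j hT).le
    have h3 : 2 * η * ((j % T : ℕ) : ℝ) ≤ 2 * η * T := by gcongr
    show dist (f^[j] y) (f^[j] (rep ⟨_, hy⟩)) < r
    linarith
  · have hcard : ((Finset.univ.image rep).card : ℝ) ≤ S.card := by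
      have : (Finset.univ.image rep).card ≤ (Finset.univ : Finset S).card := Finset.card_image_le
      rw [Finset.card_univ, Fintype.card_coe] at this
      exact_mod_cast this
    have h2 := card_codes_le S x hx0 hx1 q (by
      intro g hg
      obtain ⟨y, rfl⟩ := (Finset.mem_filter.1 hg).2
      exact (card_code_isSome_le c f η T n y).trans (hq y))
    rw [Fintype.card_fin, Fintype.card_fin] at h2
    refine le_trans ?_ h2
    have : 0 ≤ x ^ q := Real.rpow_nonneg hx0.le _
    gcongr

end Cover

section Main

variable {X : Type*} [MetricSpace X] [CompactSpace X]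

omit [CompactSpace X] in
theorem entourage_symm (r : ℝ) : SetRel.IsSymm {p : X × X | dist p.1 p.2 < r} where
  symm a b h := by
    show dist b a < r
    rw [dist_comm]; exact h

/-- Small dynamical covers under the slow-orbit hypothesis. -/
theorem exists_small_cover (f : X → X) (hf : Continuous f)
    (h : ∀ x, ∀ η > 0, ∀ ε > 0, ∃ n ≥ 1, (((Finset.range n).filter
      (fun j => η ≤ dist (f^[j] x) (f^[j+1] x))).card : ℝ) < ε * n) {r : ℝ} (hr : 0 < r)
    {δ : ℝ} (hδ' : 0 < δ) :
    ∃ (n : ℕ) (s : Finset X), n ≠ 0 ∧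
      Dynamics.IsDynCoverOf f Set.univ {p : X × X | dist p.1 p.2 < r} n s ∧
      (s.card : ℝ) ≤ Real.exp (δ * n) := by
  obtain ⟨k, c, hc⟩ := exists_coloring (X := X) (half_pos hr)
  -- choose parameters
  set x : ℝ := min 1 (δ / (2 * (k + 1))) with hx
  have hx0 : 0 < x := by rw [hx]; positivity
  have hx1 : x ≤ 1 := min_le_left _ _
  have hkx : k * x ≤ δ / 2 := by
    have h1 : x ≤ δ / (2 * (k + 1)) := min_le_right _ _
    have h2 : (k : ℝ) * x ≤ k * (δ / (2 * (k + 1))) := by gcongr
    have h3 : (k : ℝ) * (δ / (2 * (k + 1))) ≤ δ / 2 := by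
      rw [← mul_div_assoc, div_le_div_iff₀ (by positivity) (by positivity)]
      nlinarith
    linarith
  set L : ℝ := -Real.log x + 1 with hL
  have hL0 : 0 < L := by
    have := Real.log_nonpos hx0.le hx1
    rw [hL]; linarith
  have hLx : -Real.log x ≤ L := by rw [hL]; linarith
  obtain ⟨T, hT⟩ := exists_nat_gt (8 * L / δ)
  have hTpos : (0 : ℝ) < T := lt_of_le_of_lt (by positivity) hT
  have hT0 : 0 < T := by exact_mod_cast hTpos
  set ε : ℝ := δ / (8 * L) with hε
  have hε0 : 0 < ε := by positivity
  set η : ℝ := r / (8 * T) with hη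
  have hη0 : 0 < η := by positivity
  obtain ⟨N, hN⟩ := exists_uniform_bound f hf (η := η) hε0 (fun y => h y η hη0 ε hε0)
  obtain ⟨n, hn⟩ := exists_nat_gt (8 * L * (N + 1) / δ)
  have hnpos : (0 : ℝ) < n := lt_of_le_of_lt (by positivity) hn
  have hn0 : n ≠ 0 := by
    rintro rfl; simp at hnpos
  set q : ℝ := n / T + 1 + (ε * n + N) with hq
  obtain ⟨s, hs, hscard⟩ := exists_cover f c (η := η) (D := r / 2) (r := r) (T := T) (n := n)
    hη0.le hT0 hc (by
      have : 2 * η * T = r / 4 := by
        rw [hη]; field_simp; norm_num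
      rw [this]; linarith) hx0 hx1 (q := q) (fun y => by
        have := hN y n
        rw [hq]; linarith)
  refine ⟨n, s, hn0, hs, ?_⟩
  -- bound the cardinality
  have hqL : q * L ≤ δ / 2 * n := by
    have h1 : (n : ℝ) / T * L ≤ δ / 8 * n := by
      have h8 : 8 * L < δ * T := by
        rw [div_lt_iff₀ hδ'] at hT; linarith
      rw [div_mul_eq_mul_div, div_le_iff₀ hTpos]
      nlinarith
    have h2 : ε * n * L = δ / 8 * n := by
      rw [hε]; field_simp
    have h3 : L * (N + 1) ≤ δ / 8 * n := by
      rw [div_lt_iff₀ hδ'] at hn; linarith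
    have : q * L = (n : ℝ) / T * L + ε * n * L + L * (N + 1) := by rw [hq]; ring
    rw [this, h2]; nlinarith
  have hq0 : 0 ≤ q := by rw [hq]; positivity
  · have hxq : x ^ q = Real.exp (Real.log x * q) := Real.rpow_def_of_pos hx0 q
    have h1 : (1 + k * x) ^ n ≤ Real.exp (δ / 2 * n) := by
      calc (1 + k * x) ^ n ≤ (Real.exp (k * x)) ^ n := by
            gcongr
            have := Real.add_one_le_exp (k * x)
            linarith
        _ = Real.exp (k * x * n) := by rw [← Real.exp_nat_mul]; ring_nf
        _ ≤ Real.exp (δ / 2 * n) := by gcongr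
    have h2 : (s.card : ℝ) ≤ Real.exp (δ / 2 * n) * Real.exp (-(Real.log x * q)) := by
      have h3 : (s.card : ℝ) * Real.exp (Real.log x * q) ≤ Real.exp (δ / 2 * n) := by
        rw [← hxq]; exact hscard.trans h1
      calc (s.card : ℝ) = (s.card : ℝ) * Real.exp (Real.log x * q) * Real.exp (-(Real.log x * q)) := by
            rw [mul_assoc, ← Real.exp_add]; simp
        _ ≤ _ := by gcongr
    refine h2.trans ?_
    rw [← Real.exp_add]
    apply Real.exp_le_exp.2
    nlinarith

omit [MetricSpace X] [CompactSpace X] in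
theorem log_card_div_le {n : ℕ} (hn0 : n ≠ 0) {s : Finset X} {δ : ℝ}
    (hcard : (s.card : ℝ) ≤ Real.exp (δ * n)) :
    ENNReal.log (s.card : ENNReal) / (n : EReal) ≤ (δ : EReal) := by
  have hlog : ENNReal.log (s.card : ENNReal) ≤ ((δ * n : ℝ) : EReal) := by
    have h1 : (s.card : ENNReal) ≤ ENNReal.ofReal (Real.exp (δ * n)) := by
      rw [← ENNReal.ofReal_natCast]
      exact ENNReal.ofReal_le_ofReal hcard
    refine (ENNReal.log_monotone h1).trans ?_
    rw [ENNReal.log_ofReal_of_pos (Real.exp_pos _), Real.log_exp]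
  have hn1 : (0 : EReal) < (n : EReal) := by exact_mod_cast Nat.pos_of_ne_zero hn0
  rw [EReal.div_le_iff_le_mul hn1 (EReal.natCast_ne_top n), mul_comm]
  refine hlog.trans (le_of_eq ?_)
  rw [EReal.coe_mul]
  rfl

theorem coverEntropyEntourage_le_zero (f : X → X) (hf : Continuous f) {q : ℕ} (hq : 0 < q)
    (h : ∀ x, ∀ η > 0, ∀ ε > 0, ∃ n ≥ 1, (((Finset.range n).filter
      (fun j => η ≤ dist ((f^[q])^[j] x) ((f^[q])^[j+1] x))).card : ℝ) < ε * n)
    {r : ℝ} (hr : 0 < r) :
    Dynamics.coverEntropyEntourage f Set.univ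
      ({p : X × X | dist p.1 p.2 < r} ○ {p : X × X | dist p.1 p.2 < r}) ≤ 0 := by
  have := entourage_symm (X := X) r
  -- uniform continuity of the first `q` iterates
  have huc : ∃ r' > 0, ∀ a b : X, dist a b < r' → ∀ i < q, dist (f^[i] a) (f^[i] b) < r := by
    have h1 : ∀ i : ℕ, ∃ r' > 0, ∀ a b : X, dist a b < r' → dist (f^[i] a) (f^[i] b) < r := by
      intro i
      have huc := CompactSpace.uniformContinuous_of_continuous (hf.iterate i)
      obtain ⟨r', hr', h'⟩ := Metric.uniformContinuous_iff.1 huc r hr
      exact ⟨r', hr', fun a b hab => h' hab⟩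
    clear hq h
    induction q with
    | zero => exact ⟨1, one_pos, fun _ _ _ i hi => absurd hi (Nat.not_lt_zero i)⟩
    | succ q ih =>
      obtain ⟨r1, hr1, h1'⟩ := ih
      obtain ⟨r2, hr2, h2'⟩ := h1 q
      refine ⟨min r1 r2, lt_min hr1 hr2, fun a b hab i hi => ?_⟩
      rcases Nat.lt_succ_iff_lt_or_eq.1 hi with hi | rfl
      · exact h1' a b (lt_of_lt_of_le hab (min_le_left _ _)) i hi
      · exact h2' a b (lt_of_lt_of_le hab (min_le_right _ _))
  obtain ⟨r', hr', huc⟩ := huc
  apply EReal.le_of_forall_lt_iff_le.1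
  intro δ hδ
  have hδ' : 0 < δ := by exact_mod_cast hδ
  obtain ⟨n, s, hn0, hs, hcard⟩ := exists_small_cover (f^[q]) (hf.iterate q) h hr' hδ'
  have hs' : Dynamics.IsDynCoverOf f Set.univ {p : X × X | dist p.1 p.2 < r} (n * q) s := by
    intro y hy
    obtain ⟨z, hz, hyz⟩ := hs hy
    refine ⟨z, hz, ?_⟩
    rw [Dynamics.mem_dynEntourage] at hyz ⊢
    intro j hj
    have hdiv : j / q < n := by rw [Nat.div_lt_iff_lt_mul hq]; exact hj
    have h1 : dist ((f^[q])^[j / q] y) ((f^[q])^[j / q] z) < r' := hyz _ hdiv
    have h2 := huc _ _ h1 (j % q) (Nat.mod_lt _ hq)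
    have h3 : ∀ w : X, f^[j % q] ((f^[q])^[j / q] w) = f^[j] w := by
      intro w
      rw [← Function.iterate_mul, ← Function.iterate_add_apply, Nat.mod_add_div]
    rw [h3, h3] at h2
    exact h2
  have hnq : n * q ≠ 0 := Nat.mul_ne_zero hn0 hq.ne'
  refine (hs'.coverEntropyEntourage_le_log_card_div (Set.mapsTo_univ _ _) hnq).trans ?_
  apply log_card_div_le hnq
  refine hcard.trans (Real.exp_le_exp.2 ?_)
  have h1 : (1 : ℝ) ≤ q := by exact_mod_cast hq
  push_cast
  have h2 : (0 : ℝ) ≤ δ * n := by positivity
  nlinarith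

/-- **Zero entropy criterion, period `q`.** -/
theorem coverEntropy_eq_zero_of_period [Nonempty X] (f : X → X) (hf : Continuous f) {q : ℕ}
    (hq : 0 < q)
    (h : ∀ x, ∀ η > 0, ∀ ε > 0, ∃ n ≥ 1, (((Finset.range n).filter
      (fun j => η ≤ dist ((f^[q])^[j] x) ((f^[q])^[j+1] x))).card : ℝ) < ε * n) :
    Dynamics.coverEntropy f Set.univ = 0 := by
  apply le_antisymm _ (Dynamics.coverEntropy_nonneg f Set.univ_nonempty)
  refine iSup₂_le fun U hU => ?_
  obtain ⟨r, hr, hrU⟩ := Metric.mem_uniformity_dist.1 hU
  refine le_trans (Dynamics.coverEntropyEntourage_antitone f Set.univ ?_)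
    (coverEntropyEntourage_le_zero f hf hq h (half_pos hr))
  rintro ⟨a, b⟩ ⟨z, h1, h2⟩
  apply hrU
  have h1' : dist a z < r / 2 := h1
  have h2' : dist z b < r / 2 := h2
  linarith [dist_triangle a z b]

/-- **Zero entropy criterion.** -/
theorem coverEntropy_eq_zero [Nonempty X] (f : X → X) (hf : Continuous f)
    (h : ∀ x, ∀ η > 0, ∀ ε > 0, ∃ n ≥ 1, (((Finset.range n).filter
      (fun j => η ≤ dist (f^[j] x) (f^[j+1] x))).card : ℝ) < ε * n) :
    Dynamics.coverEntropy f Set.univ = 0 :=
  coverEntropy_eq_zero_of_period f hf one_pos (by simpa only [Function.iterate_one] using h)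

/-- If along every orbit `dist (f^[j] x) (f^[j+q] x) → 0`, then the entropy vanishes. -/
theorem coverEntropy_eq_zero_of_tendsto [Nonempty X] (f : X → X) (hf : Continuous f) {q : ℕ}
    (hq : 0 < q)
    (h : ∀ x, Tendsto (fun j => dist (f^[j] x) (f^[j+q] x)) atTop (𝓝 0)) :
    Dynamics.coverEntropy f Set.univ = 0 := by
  apply coverEntropy_eq_zero_of_period f hf hq
  intro x η hη ε hε
  obtain ⟨J, hJ⟩ := eventually_atTop.1 ((h x).eventually (gt_mem_nhds hη))
  obtain ⟨n, hn⟩ := exists_nat_gt ((J + 1) / ε)
  have hn1 : J + 1 < ε * n := by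
    rw [div_lt_iff₀ hε] at hn; linarith
  refine ⟨n, ?_, ?_⟩
  · by_contra hlt
    have : n = 0 := by omega
    subst this
    have : (0 : ℝ) ≤ J := Nat.cast_nonneg J
    simp at hn1
    linarith
  · have hsub : ((Finset.range n).filter
        (fun j => η ≤ dist ((f^[q])^[j] x) ((f^[q])^[j+1] x))) ⊆ Finset.range J := by
      intro j hj
      rw [Finset.mem_filter] at hj
      rw [Finset.mem_range]
      by_contra hle
      have h1 : J ≤ q * j := (not_lt.1 hle).trans (Nat.le_mul_of_pos_left j hq)
      have h2 := hJ (q * j) h1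
      have h3 : (f^[q])^[j] x = f^[q * j] x := by rw [← Function.iterate_mul]
      have h4 : (f^[q])^[j+1] x = f^[q * j + q] x := by
        rw [← Function.iterate_mul, Nat.mul_succ]
      rw [h3, h4] at hj
      exact absurd hj.2 (not_le.2 h2)
    have hc : (((Finset.range n).filter
        (fun j => η ≤ dist ((f^[q])^[j] x) ((f^[q])^[j+1] x))).card : ℝ) ≤ J := by
      have := Finset.card_le_card hsub
      rw [Finset.card_range] at this
      exact_mod_cast this
    linarith

end Main

end Crest.Agent.R123.Ent
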