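/-
R123 / S0163, task EXCURSION : bounded excursions and entropy zero.
-/
import Crest.Agent.R123.Orbits
import Crest.Agent.R123.Entropy
import Crest.Agent.R123.Smooth

set_option autoImplicit false

namespace Crest.Agent.R123

lemma continuous_he : Continuous he := by
  unfold he
  exact (WithLp.continuous_snd (p := 2) (α := ℂ) (β := ℝ)).comp continuous_subtype_val

lemma continuous_ze : Continuous ze := by
  unfold ze
  exact (WithLp.continuous_fst (p := 2) (α := ℂ) (β := ℝ)).comp continuous_subtype_val

lemma continuous_psi : Continuous psi := by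
  unfold psi
  fun_prop

lemma continuous_tau : Continuous tau := by
  unfold tau
  have h1 : Continuous fun p : Mfd => psi (p.2.2.2 : ℂ) :=
    continuous_psi.comp (continuous_subtype_val.comp
      (continuous_snd.comp (continuous_snd.comp continuous_snd)))
  have h2 : Continuous fun p : Mfd => he p.1 := continuous_he.comp continuous_fst
  have h3 : Continuous fun p : Mfd => he p.2.1 :=
    continuous_he.comp (continuous_fst.comp continuous_snd)
  have h4 : Continuous fun p : Mfd => he p.2.2.1 :=
    continuous_he.comp (continuous_fst.comp (continuous_snd.comp continuous_snd))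
  have h5 : Continuous fun p : Mfd => Real.smoothTransition (-he p.1) :=
    Real.smoothTransition.continuous.comp h2.neg
  exact continuous_const.sub ((h1.mul h5).mul
    (((continuous_const.sub h3).mul (continuous_const.sub h4)).div_const 4))

/-- the clock is bounded below off a ball around `PP`. -/
lemma exists_tau_lower (ε : ℝ) (hε : 0 < ε) :
    ∃ c : ℝ, 0 < c ∧ ∀ p : Mfd, ε ≤ dist p PP → c ≤ tau p := by
  by_cases hne : ({p : Mfd | ε ≤ dist p PP}).Nonempty
  · have hcl : IsCompact {p : Mfd | ε ≤ dist p PP} :=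
      (isClosed_le continuous_const (continuous_id.dist continuous_const)).isCompact
    obtain ⟨p0, hp0, hmin⟩ := hcl.exists_isMinOn hne continuous_tau.continuousOn
    refine ⟨tau p0, ?_, fun p hp => hmin hp⟩
    refine lt_of_le_of_ne (tau_nonneg p0) (fun h => ?_)
    have h1 := (tau_eq_zero_iff p0).1 h.symm
    have h2 : ε ≤ dist p0 PP := hp0
    rw [h1, dist_self] at h2
    linarith
  · refine ⟨1, one_pos, fun p hp => ?_⟩
    exact absurd ⟨p, hp⟩ hne

open Classical in
theorem excursion (ε : ℝ) (hε : 0 < ε) : ∃ T : ℕ, ∀ (x : Mfd) (n : ℕ),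
    ((Finset.range n).filter (fun k => ε ≤ dist (F^[k] x) PP ∧ F^[k] x ∉ Circ)).card ≤ T := by
  obtain ⟨c, hc, hlow⟩ := exists_tau_lower ε hε
  refine ⟨⌈48 / c⌉₊ + 1, fun x n => ?_⟩
  set A := (Finset.range n).filter (fun k => ε ≤ dist (F^[k] x) PP ∧ F^[k] x ∉ Circ) with hA
  by_contra hcon
  push Not at hcon
  have hAne : A.Nonempty := by
    rw [← Finset.card_pos]; omega
  set k := A.max' hAne with hk
  have hkA : k ∈ A := A.max'_mem hAne
  have hk2 := (Finset.mem_filter.1 hkA).2
  have hlt : ∑ i ∈ Finset.range k, tau (F^[i] x) < 48 := by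
    by_contra h
    push Not at h
    exact hk2.2 (absorbed x k h)
  have hsub : A.erase k ⊆ Finset.range k := by
    intro i hi
    rw [Finset.mem_erase] at hi
    rw [Finset.mem_range]
    exact lt_of_le_of_ne (A.le_max' i hi.2) hi.1
  have h1 : ∑ i ∈ A.erase k, tau (F^[i] x) ≤ ∑ i ∈ Finset.range k, tau (F^[i] x) :=
    Finset.sum_le_sum_of_subset_of_nonneg hsub (fun i _ _ => tau_nonneg _)
  have h2 : (A.erase k).card • c ≤ ∑ i ∈ A.erase k, tau (F^[i] x) := by
    refine Finset.card_nsmul_le_sum _ _ _ (fun i hi => ?_)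
    have := (Finset.mem_filter.1 (Finset.mem_of_mem_erase hi)).2
    exact hlow _ this.1
  have h3 : (A.erase k).card = A.card - 1 := Finset.card_erase_of_mem hkA
  have h4 : ⌈48 / c⌉₊ + 1 ≤ (A.erase k).card := by omega
  have h5 : (48 : ℝ) ≤ (A.erase k).card • c := by
    rw [nsmul_eq_mul]
    have h6 : (48 / c : ℝ) ≤ (⌈48 / c⌉₊ : ℝ) := Nat.le_ceil _
    have h7 : ((⌈48 / c⌉₊ + 1 : ℕ) : ℝ) ≤ ((A.erase k).card : ℝ) := by exact_mod_cast h4
    push_cast at h7
    have h8 : (48 / c : ℝ) ≤ ((A.erase k).card : ℝ) := by linarith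
    rwa [div_le_iff₀ hc] at h8
  linarith

theorem entropy_zero : Dynamics.coverEntropy F Set.univ = 0 := by
  refine coverEntropy_eq_zero F PP Circ Circ_mapsTo
    (fun x hx y hy => Circ_isometry x hx y hy) (fun ε hε => ?_)
  simpa using excursion ε hε

end Crest.Agent.R123
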