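import Crest.Agent.R123.HomClass

/-! Row 123: the squaring map on the sphere and the transfer theorem. -/

set_option autoImplicit false

open CategoryTheory

namespace Crest.Agent.R123.Hom

noncomputable section

/-- transfer of an eigenvector along a split inclusion -/
theorem hasEigenvalue_transfer {M X : Type} [TopologicalSpace M] [TopologicalSpace X]
    (F : C(M, M)) (G : C(X, X)) (i : C(X, M)) (r : C(M, X))
    (hr : (r.comp i).Homotopic (ContinuousMap.id X)) (H : (F.comp i).Homotopic (i.comp G))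
    (c : SH 2 X) (hc : c ≠ 0) (h2 : Hmap G 2 c = (2 : ℝ) • c) :
    Module.End.HasEigenvalue
      (((AlgebraicTopology.singularHomologyFunctor (ModuleCat.{0} ℝ) 2).obj
        (ModuleCat.of ℝ ℝ)).map (TopCat.ofHom F)).hom (2 : ℝ) := by
  apply Module.End.hasEigenvalue_of_hasEigenvector (x := Hmap i 2 c)
  refine ⟨Module.End.mem_eigenspace_iff.2 ?_, ?_⟩
  · show Hmap F 2 (Hmap i 2 c) = (2 : ℝ) • Hmap i 2 c
    rw [← LinearMap.comp_apply, ← Hmap_comp, Hmap_homotopic H, Hmap_comp, LinearMap.comp_apply, h2,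
      map_smul]
  · intro h0
    apply hc
    have h3 : Hmap r 2 (Hmap i 2 c) = c := by
      rw [← LinearMap.comp_apply, ← Hmap_comp, Hmap_homotopic hr, Hmap_id]
      rfl
    rw [← h3, h0, map_zero]

/-- the unit sphere of `ℂ × ℝ` -/
abbrev S2 : Type := {q : ℂ × ℝ // ‖q.1‖ ^ 2 + q.2 ^ 2 = 1}

/-- the squaring map in sphere coordinates -/
def sqf (q : ℂ × ℝ) : ℂ × ℝ :=
  (((1 / (1 + q.2 ^ 2) : ℝ) : ℂ) * q.1 ^ 2, 2 * q.2 / (1 + q.2 ^ 2))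

theorem sqf_mem (q : ℂ × ℝ) (hq : ‖q.1‖ ^ 2 + q.2 ^ 2 = 1) :
    ‖(sqf q).1‖ ^ 2 + (sqf q).2 ^ 2 = 1 := by
  unfold sqf
  have h1 : 0 < 1 + q.2 ^ 2 := by positivity
  simp only [norm_mul, Complex.norm_real, norm_pow, Real.norm_eq_abs]
  rw [abs_of_pos (by positivity)]
  have h2 : ‖q.1‖ ^ 2 = 1 - q.2 ^ 2 := by linarith
  rw [h2]
  field_simp
  ring

theorem continuous_sqf : Continuous sqf := by
  unfold sqf
  have h1 : Continuous fun q : ℂ × ℝ => (1 / (1 + q.2 ^ 2) : ℝ) :=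
    continuous_const.div (by fun_prop) (fun q => by positivity)
  have h2 : Continuous fun q : ℂ × ℝ => 2 * q.2 / (1 + q.2 ^ 2) :=
    Continuous.div (by fun_prop) (by fun_prop) (fun q => by positivity)
  exact ((Complex.continuous_ofReal.comp h1).mul (by fun_prop)).prodMk h2

/-- the squaring map of the sphere -/
def sq : C(S2, S2) where
  toFun s := ⟨sqf s.1, sqf_mem s.1 s.2⟩
  continuous_toFun := (continuous_sqf.comp continuous_subtype_val).subtype_mk _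

theorem disc_sq (z : D2) : 0 ≤ 1 - ‖(z : ℂ)‖ ^ 2 := by
  have h := z.2
  rw [mem_closedBall_zero_iff] at h
  have := norm_nonneg (z : ℂ)
  nlinarith

/-- upper hemisphere -/
def sgp : C(D2, S2) where
  toFun z := ⟨((z : ℂ), Real.sqrt (1 - ‖(z : ℂ)‖ ^ 2)), by
    simp only
    rw [Real.sq_sqrt (disc_sq z)]
    ring⟩
  continuous_toFun := by
    refine Continuous.subtype_mk ?_ _
    fun_prop

/-- lower hemisphere -/
def sgm : C(D2, S2) where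
  toFun z := ⟨((z : ℂ), -Real.sqrt (1 - ‖(z : ℂ)‖ ^ 2)), by
    simp only
    rw [neg_sq, Real.sq_sqrt (disc_sq z)]
    ring⟩
  continuous_toFun := by
    refine Continuous.subtype_mk ?_ _
    fun_prop

/-- squaring on the disc -/
def qq : C(D2, D2) where
  toFun z := ⟨((1 / (2 - ‖(z : ℂ)‖ ^ 2) : ℝ) : ℂ) * (z : ℂ) ^ 2, by
    have h := disc_sq z
    have h2 : 0 < 2 - ‖(z : ℂ)‖ ^ 2 := by linarith
    rw [mem_closedBall_zero_iff, norm_mul, Complex.norm_real, norm_pow, Real.norm_eq_abs,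
      abs_of_pos (by positivity), one_div, inv_mul_le_iff₀ h2]
    linarith⟩
  continuous_toFun := by
    refine Continuous.subtype_mk ?_ _
    have h1 : Continuous fun z : D2 => (1 / (2 - ‖(z : ℂ)‖ ^ 2) : ℝ) :=
      continuous_const.div (by fun_prop) (fun z => by
        have h := disc_sq z
        have h2 : 0 < 2 - ‖(z : ℂ)‖ ^ 2 := by linarith
        exact h2.ne')
    exact (Complex.continuous_ofReal.comp h1).mul (by fun_prop)

theorem qq_circle (z : D2) (hz : ‖(z : ℂ)‖ = 1) : (qq z : ℂ) = (z : ℂ) ^ 2 := by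
  show ((1 / (2 - ‖(z : ℂ)‖ ^ 2) : ℝ) : ℂ) * (z : ℂ) ^ 2 = (z : ℂ) ^ 2
  rw [hz]
  norm_num

theorem norm_qq (z : D2) : ‖(qq z : ℂ)‖ = ‖(z : ℂ)‖ ^ 2 / (2 - ‖(z : ℂ)‖ ^ 2) := by
  have h := disc_sq z
  have h2 : 0 < 2 - ‖(z : ℂ)‖ ^ 2 := by linarith
  show ‖((1 / (2 - ‖(z : ℂ)‖ ^ 2) : ℝ) : ℂ) * (z : ℂ) ^ 2‖ = _
  rw [norm_mul, Complex.norm_real, norm_pow, Real.norm_eq_abs, abs_of_pos (by positivity)]
  ring

theorem height_qq (z : D2) : Real.sqrt (1 - ‖(qq z : ℂ)‖ ^ 2)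
    = 2 * Real.sqrt (1 - ‖(z : ℂ)‖ ^ 2) / (1 + (1 - ‖(z : ℂ)‖ ^ 2)) := by
  have h := disc_sq z
  have h2 : 0 < 2 - ‖(z : ℂ)‖ ^ 2 := by linarith
  rw [norm_qq]
  have h3 : 1 - (‖(z : ℂ)‖ ^ 2 / (2 - ‖(z : ℂ)‖ ^ 2)) ^ 2
      = (2 * Real.sqrt (1 - ‖(z : ℂ)‖ ^ 2) / (1 + (1 - ‖(z : ℂ)‖ ^ 2))) ^ 2 := by
    have h4 : 1 + (1 - ‖(z : ℂ)‖ ^ 2) = 2 - ‖(z : ℂ)‖ ^ 2 := by ring
    rw [h4, div_pow (2 * Real.sqrt (1 - ‖(z : ℂ)‖ ^ 2)), mul_pow, Real.sq_sqrt h]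
    field_simp
    ring
  rw [h3, Real.sqrt_sq]
  apply div_nonneg
  · positivity
  · linarith

theorem sq_sgp : sq.comp sgp = sgp.comp qq := by
  refine ContinuousMap.ext fun z => Subtype.ext (Prod.ext ?_ ?_)
  · show ((1 / (1 + Real.sqrt (1 - ‖(z : ℂ)‖ ^ 2) ^ 2) : ℝ) : ℂ) * (z : ℂ) ^ 2
      = ((1 / (2 - ‖(z : ℂ)‖ ^ 2) : ℝ) : ℂ) * (z : ℂ) ^ 2
    rw [Real.sq_sqrt (disc_sq z)]
    congr 3
    ring
  · show 2 * Real.sqrt (1 - ‖(z : ℂ)‖ ^ 2) / (1 + Real.sqrt (1 - ‖(z : ℂ)‖ ^ 2) ^ 2)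
      = Real.sqrt (1 - ‖(qq z : ℂ)‖ ^ 2)
    rw [height_qq, Real.sq_sqrt (disc_sq z)]

theorem sq_sgm : sq.comp sgm = sgm.comp qq := by
  refine ContinuousMap.ext fun z => Subtype.ext (Prod.ext ?_ ?_)
  · show ((1 / (1 + (-Real.sqrt (1 - ‖(z : ℂ)‖ ^ 2)) ^ 2) : ℝ) : ℂ) * (z : ℂ) ^ 2
      = ((1 / (2 - ‖(z : ℂ)‖ ^ 2) : ℝ) : ℂ) * (z : ℂ) ^ 2
    rw [neg_sq, Real.sq_sqrt (disc_sq z)]
    congr 3
    ring
  · show 2 * (-Real.sqrt (1 - ‖(z : ℂ)‖ ^ 2)) / (1 + (-Real.sqrt (1 - ‖(z : ℂ)‖ ^ 2)) ^ 2)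
      = -Real.sqrt (1 - ‖(qq z : ℂ)‖ ^ 2)
    rw [height_qq, neg_sq, Real.sq_sqrt (disc_sq z)]
    ring

theorem glue (z : D2) (hz : ‖(z : ℂ)‖ = 1) : sgp z = sgm z := by
  refine Subtype.ext (Prod.ext rfl ?_)
  show Real.sqrt (1 - ‖(z : ℂ)‖ ^ 2) = -Real.sqrt (1 - ‖(z : ℂ)‖ ^ 2)
  rw [hz]
  simp

/-- coordinate functions -/
def xS : C(S2, ℝ) := ⟨fun s => s.1.1.re, by fun_prop⟩
/-- coordinate functions -/
def yS : C(S2, ℝ) := ⟨fun s => s.1.1.im, by fun_prop⟩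
/-- coordinate functions -/
def hS : C(S2, ℝ) := ⟨fun s => s.1.2, by fun_prop⟩

theorem coordsS : Coords xS yS hS where
  nondeg := by
    intro p h1 h2
    have h3 := p.2
    rw [← Complex.normSq_eq_norm_sq, Complex.normSq_apply] at h3
    have h4 : -1 / 2 ≤ p.1.2 := h1
    have h5 : p.1.2 ≤ 0 := h2
    show 1 / 4 ≤ p.1.1.re ^ 2 + p.1.1.im ^ 2
    nlinarith

theorem ee_re (t : ℝ) : (ee t).re = Real.cos (2 * Real.pi * t) := by
  unfold ee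
  rw [Complex.exp_ofReal_mul_I_re]

theorem ee_im (t : ℝ) : (ee t).im = Real.sin (2 * Real.pi * t) := by
  unfold ee
  rw [Complex.exp_ofReal_mul_I_im]

/-- the class of the sphere -/
def clsS2 : SH 2 S2 := cls (hemi sgp sgm) (bd_hemi sgp sgm glue)

theorem clsS2_ne : clsS2 ≠ 0 :=
  cls_hemi_ne coordsS sgp sgm glue (fun t => ee_re t) (fun t => ee_im t)
    (fun _ => Real.sqrt_nonneg _) (fun _ => neg_nonpos.2 (Real.sqrt_nonneg _))

theorem sq_clsS2 : Hmap sq 2 clsS2 = (2 : ℝ) • clsS2 :=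
  Hmap_hemi sq sgp sgm qq qq glue qq_circle qq_circle sq_sgp sq_sgm

/-- transfer theorem for the squaring map of the sphere -/
theorem hasEigenvalue_of {M : Type} [TopologicalSpace M] (F : C(M, M)) (i : C(S2, M))
    (r : C(M, S2)) (hr : (r.comp i).Homotopic (ContinuousMap.id S2))
    (H : (F.comp i).Homotopic (i.comp sq)) :
    Module.End.HasEigenvalue
      (((AlgebraicTopology.singularHomologyFunctor (ModuleCat.{0} ℝ) 2).obj
        (ModuleCat.of ℝ ℝ)).map (TopCat.ofHom F)).hom (2 : ℝ) :=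
  hasEigenvalue_transfer F sq i r hr H clsS2 clsS2_ne sq_clsS2

end

end Crest.Agent.R123.Hom
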