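/-
Row 123 (S0163): the growth lemma for the carriers (pure real analysis).
-/
import Crest.Agent.R123.Orb

set_option autoImplicit false

namespace Crest.Agent.R123

namespace GrowthAux

open Real

/-- product of the factors `min 1 ((k+1)/J)` -/
noncomputable def P (J : ℝ) : ℕ → ℝ
  | 0 => 1
  | (k + 1) => P J k * min 1 (((k : ℝ) + 1) / J)

theorem P_zero (J : ℝ) : P J 0 = 1 := rfl

theorem P_succ (J : ℝ) (k : ℕ) : P J (k + 1) = P J k * min 1 (((k : ℝ) + 1) / J) := rfl

theorem P_pos {J : ℝ} (hJ : 0 < J) (k : ℕ) : 0 < P J k := by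
  induction k with
  | zero => simp [P_zero]
  | succ k ih =>
    rw [P_succ]
    exact mul_pos ih (lt_min one_pos (by positivity))

theorem P_le_one {J : ℝ} (hJ : 0 < J) (k : ℕ) : P J k ≤ 1 := by
  induction k with
  | zero => simp [P_zero]
  | succ k ih =>
    rw [P_succ]
    exact mul_le_one₀ ih (le_min zero_le_one (by positivity)) (min_le_left _ _)

theorem P_eq {J : ℝ} (hJ : 0 < J) (k : ℕ) (hk : (k : ℝ) ≤ J) : P J k = k.factorial / J ^ k := by
  induction k with
  | zero => simp [P_zero]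
  | succ k ih =>
    have h1 : (k : ℝ) + 1 ≤ J := by exact_mod_cast hk
    rw [P_succ, ih (by linarith), min_eq_right (by rw [div_le_one hJ]; exact h1)]
    rw [Nat.factorial_succ]
    push_cast
    field_simp
    try ring

theorem P_ge {J : ℝ} (hJ : 0 < J) (k : ℕ) : exp (-J) ≤ P J k := by
  induction k with
  | zero => rw [P_zero]; exact exp_le_one_iff.2 (by linarith)
  | succ k ih =>
    rcases le_total ((k : ℝ) + 1) J with h | h
    · have h2 : ((k + 1 : ℕ) : ℝ) ≤ J := by push_cast; exact h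
      rw [P_eq hJ (k + 1) h2]
      have h3 := Real.pow_div_factorial_le_exp J hJ.le (k + 1)
      rw [Real.exp_neg, ← one_div]
      have hfac : (0 : ℝ) < ((k + 1).factorial : ℝ) := by positivity
      rw [div_le_div_iff₀ (exp_pos J) (by positivity)]
      rw [div_le_iff₀ hfac] at h3
      linarith
    · rw [P_succ, min_eq_left (by rw [le_div_iff₀ hJ]; linarith), mul_one]
      exact ih

theorem satR_lower {y : ℝ} (hy : 0 ≤ y) : min y 1 / √2 ≤ satR y := by
  have hpos : 0 < √(1 + y ^ 2) := Real.sqrt_pos.2 (by positivity)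
  have h2 : 0 < √(2 : ℝ) := Real.sqrt_pos.2 (by norm_num)
  unfold satR
  rcases le_total y 1 with h | h
  · rw [min_eq_left h]
    apply div_le_div_of_nonneg_left hy hpos
    apply Real.sqrt_le_sqrt
    nlinarith
  · rw [min_eq_right h]
    rw [div_le_div_iff₀ h2 hpos, one_mul]
    calc √(1 + y ^ 2) ≤ √(y ^ 2 * 2) := by
          apply Real.sqrt_le_sqrt
          nlinarith
      _ = y * √2 := by
          rw [Real.sqrt_mul (by positivity), Real.sqrt_sq hy]

theorem gain_eq (t : ℝ) : gain t = exp 3000 * sin (π * t) ^ 2 := by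
  unfold gain
  congr 1
  have : 2 * π * t = 2 * (π * t) := by ring
  rw [this, Real.cos_two_mul, Real.cos_sq']
  ring

theorem gain_int (k : ℤ) (t : ℝ) : gain ((k : ℝ) + t) = gain t := by
  unfold gain
  have : 2 * π * ((k : ℝ) + t) = 2 * π * t + k * (2 * π) := by ring
  rw [this, Real.cos_add_int_mul_two_pi]

theorem gain_symm (t : ℝ) : gain (1 - t) = gain t := by
  unfold gain
  have : 2 * π * (1 - t) = 2 * π - 2 * π * t := by ring
  rw [this, Real.cos_two_pi_sub]

theorem gain_lower {t : ℝ} (h0 : 0 ≤ t) (h1 : t ≤ 1 / 2) : 4 * exp 3000 * t ^ 2 ≤ gain t := by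
  rw [gain_eq]
  have hs : 2 * t ≤ sin (π * t) := by
    have := Real.mul_le_sin (x := π * t) (by positivity) (by nlinarith [Real.pi_pos])
    have h2 : 2 / π * (π * t) = 2 * t := by
      field_simp
    linarith
  have : (2 * t) ^ 2 ≤ sin (π * t) ^ 2 := by
    apply pow_le_pow_left₀ (by positivity) hs
  nlinarith [exp_pos (3000 : ℝ)]

theorem gain_lower' {t : ℝ} (h0 : 1 / 2 ≤ t) (h1 : t ≤ 1) :
    4 * exp 3000 * (1 - t) ^ 2 ≤ gain t := by
  have := gain_lower (t := 1 - t) (by linarith) (by linarith)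
  rwa [gain_symm] at this

theorem gain_nonneg (t : ℝ) : 0 ≤ gain t := by
  rw [gain_eq]; positivity

theorem gain_mid {t : ℝ} (h0 : 1 / 10 ≤ t) (h1 : t ≤ 9 / 10) :
    exp 2990 * √2 ≤ gain t := by
  have hg : 4 * exp 3000 * (1 / 100) ≤ gain t := by
    rcases le_total t (1 / 2) with h | h
    · refine le_trans ?_ (gain_lower (by linarith) h)
      have : (1 / 100 : ℝ) ≤ t ^ 2 := by nlinarith
      have := exp_pos (3000 : ℝ)
      gcongr
    · refine le_trans ?_ (gain_lower' h (by linarith))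
      have : (1 / 100 : ℝ) ≤ (1 - t) ^ 2 := by nlinarith
      have := exp_pos (3000 : ℝ)
      gcongr
  refine le_trans ?_ hg
  have h3 : exp 3000 = exp 2990 * exp 10 := by
    rw [← Real.exp_add]; norm_num
  have h4 : (50 : ℝ) ≤ exp 10 := by
    have h5 : exp 10 = (exp 1) ^ 10 := by
      rw [← Real.exp_nat_mul]; norm_num
    rw [h5]
    calc (50 : ℝ) ≤ 2 ^ 10 := by norm_num
      _ ≤ (exp 1) ^ 10 := by
        apply pow_le_pow_left₀ (by norm_num)
        have := Real.exp_one_gt_d9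
        linarith
  have h6 : √(2 : ℝ) ≤ 2 := by
    rw [Real.sqrt_le_left (by norm_num)]
    norm_num
  rw [h3]
  have := exp_pos (2990 : ℝ)
  nlinarith

/-- cut off at `1/√2` -/
noncomputable def cut (x : ℝ) : ℝ := min x (1 / √2)

theorem c_pos : 0 < 1 / √(2 : ℝ) := by positivity

theorem cut_step {g x y : ℝ} (hg : 0 ≤ g) (hx : 0 ≤ cut x) (h : satR (g * x) ≤ y) :
    min (g / √2 * cut x) (1 / √2) ≤ cut y := by
  have hx0 : 0 ≤ x := le_trans hx (min_le_left _ _)
  have h1 := satR_lower (mul_nonneg hg hx0)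
  have h2 : 0 < √(2 : ℝ) := by positivity
  refine le_min ?_ (min_le_right _ _)
  calc min (g / √2 * cut x) (1 / √2) = min (g * cut x) 1 / √2 := by
        rw [← min_div_div_right h2.le]
        congr 1
        ring
    _ ≤ min (g * x) 1 / √2 := by
        gcongr
        exact min_le_left _ _
    _ ≤ satR (g * x) := h1
    _ ≤ y := h

theorem cut_step_loss {g x y z : ℝ} (hg : 0 ≤ g) (hz : 0 ≤ z) (hgz : z ^ 2 ≤ g / √2)
    (hx : 0 ≤ cut x) (h : satR (g * x) ≤ y) :
    (min 1 z) ^ 2 * cut x ≤ cut y := by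
  refine le_trans ?_ (cut_step hg hx h)
  have h1 : 0 ≤ min 1 z := le_min zero_le_one hz
  refine le_min ?_ ?_
  · have : (min 1 z) ^ 2 ≤ z ^ 2 := pow_le_pow_left₀ h1 (min_le_right _ _) 2
    exact mul_le_mul_of_nonneg_right (this.trans hgz) hx
  · have h2 : (min 1 z) ^ 2 ≤ 1 := pow_le_one₀ h1 (min_le_left _ _)
    calc (min 1 z) ^ 2 * cut x ≤ 1 * cut x := mul_le_mul_of_nonneg_right h2 hx
      _ = cut x := one_mul _
      _ ≤ 1 / √2 := min_le_right _ _

theorem sq_div_J {m w j : ℝ} (hm : 0 < m) (hj : 0 ≤ j) (h : 17 / 20 * j ≤ w) :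
    (j / (m * exp (-1500))) ^ 2 ≤ 4 * exp 3000 * (w / m) ^ 2 / √2 := by
  have h1 : exp (-1500) ^ 2 * exp 3000 = 1 := by
    rw [← Real.exp_nat_mul, ← Real.exp_add]; norm_num
  have h2 : (j / (m * exp (-1500))) ^ 2 = exp 3000 * (j / m) ^ 2 := by
    have he : exp (-1500) ≠ 0 := (exp_pos _).ne'
    rw [div_pow, mul_pow, div_pow]
    rw [div_eq_iff (by positivity)]
    calc j ^ 2 = (exp (-1500) ^ 2 * exp 3000) * j ^ 2 := by rw [h1, one_mul]
      _ = exp 3000 * (j ^ 2 / m ^ 2) * (m ^ 2 * exp (-1500) ^ 2) := by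
          field_simp
  rw [h2]
  have hs : 0 < √(2 : ℝ) := by positivity
  have hs2 : √(2 : ℝ) ≤ 3 / 2 := by
    rw [Real.sqrt_le_left (by norm_num)]; norm_num
  rw [le_div_iff₀ hs]
  have h3 : (j / m) ^ 2 * √2 ≤ 4 * (w / m) ^ 2 := by
    rw [div_pow, div_pow]
    rw [div_mul_eq_mul_div, ← mul_div_assoc]
    have h4 : (17 / 20 * j) ^ 2 ≤ w ^ 2 := pow_le_pow_left₀ (by positivity) h 2
    have h5 : j ^ 2 * √2 ≤ j ^ 2 * (3 / 2) := mul_le_mul_of_nonneg_left hs2 (sq_nonneg j)
    have h6 : j ^ 2 * √2 ≤ 4 * w ^ 2 := by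
      have := sq_nonneg j
      nlinarith
    exact div_le_div_of_nonneg_right h6 (sq_nonneg m)
  have := exp_pos (3000 : ℝ)
  calc exp 3000 * (j / m) ^ 2 * √2 = exp 3000 * ((j / m) ^ 2 * √2) := by ring
    _ ≤ exp 3000 * (4 * (w / m) ^ 2) := by gcongr
    _ = 4 * exp 3000 * (w / m) ^ 2 := by ring

end GrowthAux

open GrowthAux Real in
theorem growth (m u : ℝ) (hm : 100 ≤ m) (hu : 17/20 ≤ u) (r : ℕ → ℝ) (p q : ℕ) (hp : p ≤ 3)
    (hu2 : u ≤ 2) (hq : u + q ≤ m - 3/2) (hq2 : m - 4 ≤ u + q)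
    (h0 : Real.exp (-1200 * m) ≤ r p)
    (hrec : ∀ i, p ≤ i → i < q → satR (gain ((u + i) / m) * r i) ≤ r (i + 1)) :
    Real.exp (-m / 100) ≤ r q := by
  have hm0 : 0 < m := by linarith
  set J : ℝ := m * exp (-1500) with hJdef
  have hJ : 0 < J := by positivity
  have hJm : J ≤ m / 1501 := by
    have h1 : exp (-1500) ≤ 1 / 1501 := by
      rw [Real.exp_neg, ← one_div]
      apply one_div_le_one_div_of_le (by norm_num)
      have := Real.add_one_le_exp (1500 : ℝ)
      linarith
    rw [hJdef]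
    calc m * exp (-1500) ≤ m * (1 / 1501) := by gcongr
      _ = m / 1501 := by ring
  set l : ℕ → ℝ := fun i => cut (r i) with hl
  -- the indices
  set i1 : ℕ := ⌈m / 10⌉₊ with hi1
  set i2 : ℕ := ⌊9 * m / 10 - 2⌋₊ with hi2
  have hi1a : m / 10 ≤ (i1 : ℝ) := Nat.le_ceil _
  have hi1b : (i1 : ℝ) < m / 10 + 1 := Nat.ceil_lt_add_one (by positivity)
  have hi2a : (i2 : ℝ) ≤ 9 * m / 10 - 2 := Nat.floor_le (by linarith)
  have hi2b : 9 * m / 10 - 2 < (i2 : ℝ) + 1 := Nat.lt_floor_add_one _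
  have hpi1 : p ≤ i1 := by
    have : (p : ℝ) ≤ i1 := by
      have : (p : ℝ) ≤ 3 := by exact_mod_cast hp
      linarith
    exact_mod_cast this
  have hi12 : i1 ≤ i2 := by
    have : (i1 : ℝ) ≤ i2 := by linarith
    exact_mod_cast this
  have hi2q : i2 ≤ q := by
    have : (i2 : ℝ) ≤ q := by linarith
    exact_mod_cast this
  -- positivity and phase 1
  have hlp : exp (-1200 * m) ≤ l p := by
    refine le_min h0 ?_
    have h1 : exp (-1200 * m) ≤ exp (-1) := by
      apply Real.exp_le_exp.2; linarith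
    have h2 : exp (-1) ≤ 1 / √2 := by
      rw [Real.exp_neg, ← one_div]
      apply one_div_le_one_div_of_le (by positivity)
      have h3 := Real.exp_one_gt_d9
      have h4 : √(2 : ℝ) ≤ 2 := by
        rw [Real.sqrt_le_left (by norm_num)]; norm_num
      linarith
    exact h1.trans h2
  have hphase1 : ∀ i, p ≤ i → i ≤ i1 →
      0 ≤ l i ∧ P J i ^ 2 * l p ≤ P J p ^ 2 * l i := by
    intro i hi
    induction i, hi using Nat.le_induction with
    | base => intro _; exact ⟨(exp_pos _).le.trans hlp, le_rfl⟩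
    | succ i hi ih =>
      intro hi'
      obtain ⟨ih0, ih1⟩ := ih (by omega)
      have hilt : (i : ℝ) + 1 ≤ i1 := by exact_mod_cast hi'
      have hiq : i < q := by omega
      have ht0 : 0 ≤ (u + i) / m := by positivity
      have ht1 : (u + i) / m ≤ 1 / 2 := by
        rw [div_le_iff₀ hm0]; linarith
      have hstep : (min 1 (((i : ℝ) + 1) / J)) ^ 2 * l i ≤ l (i + 1) := by
        refine cut_step_loss (gain_nonneg _) (by positivity) ?_ ih0 (hrec i hi hiq)
        refine (sq_div_J hm0 (by positivity) (w := u + i) ?_).trans ?_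
        · have : (0 : ℝ) ≤ i := by positivity
          linarith
        · have := gain_lower ht0 ht1
          gcongr
      have hz : 0 ≤ min 1 (((i : ℝ) + 1) / J) := le_min zero_le_one (by positivity)
      refine ⟨le_trans (by positivity) hstep, ?_⟩
      rw [P_succ, mul_pow]
      calc P J i ^ 2 * min 1 (((i : ℝ) + 1) / J) ^ 2 * l p
          = min 1 (((i : ℝ) + 1) / J) ^ 2 * (P J i ^ 2 * l p) := by ring
        _ ≤ min 1 (((i : ℝ) + 1) / J) ^ 2 * (P J p ^ 2 * l i) := by gcongr
        _ = P J p ^ 2 * (min 1 (((i : ℝ) + 1) / J) ^ 2 * l i) := by ring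
        _ ≤ P J p ^ 2 * l (i + 1) := by gcongr
  have hl1 : exp (-2 * J - 1200 * m) ≤ l i1 := by
    obtain ⟨h1, h2⟩ := hphase1 i1 hpi1 le_rfl
    have h3 : exp (-J) ^ 2 ≤ P J i1 ^ 2 := pow_le_pow_left₀ (exp_pos _).le (P_ge hJ i1) 2
    have h4 : P J p ^ 2 ≤ 1 := pow_le_one₀ (P_pos hJ p).le (P_le_one hJ p)
    calc exp (-2 * J - 1200 * m) = exp (-J) ^ 2 * exp (-1200 * m) := by
          rw [← Real.exp_nat_mul, ← Real.exp_add]
          congr 1
          push_cast
          ring
      _ ≤ P J i1 ^ 2 * l p := by gcongr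
      _ ≤ P J p ^ 2 * l i1 := h2
      _ ≤ 1 * l i1 := by gcongr
      _ = l i1 := one_mul _
  -- phase 2
  have hphase2 : ∀ i, i1 ≤ i → i ≤ i2 →
      min (exp (2990 * ((i : ℝ) - i1)) * l i1) (1 / √2) ≤ l i := by
    intro i hi
    induction i, hi using Nat.le_induction with
    | base =>
      intro _
      simp
    | succ i hi ih =>
      intro hi'
      have ih := ih (by omega)
      have hii : (i1 : ℝ) ≤ i := by exact_mod_cast hi
      have hii2 : (i : ℝ) + 1 ≤ i2 := by exact_mod_cast hi'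
      have hiq : i < q := by omega
      have ht0 : 1 / 10 ≤ (u + i) / m := by
        rw [le_div_iff₀ hm0]; linarith
      have ht1 : (u + i) / m ≤ 9 / 10 := by
        rw [div_le_iff₀ hm0]; linarith
      have hG := gain_mid ht0 ht1
      have hl10 : 0 ≤ l i1 := (exp_pos _).le.trans hl1
      have hli0 : 0 ≤ l i := le_trans (le_min (by positivity) c_pos.le) ih
      have hstep := cut_step (gain_nonneg ((u + i) / m)) hli0 (hrec i (by omega) hiq)
      refine le_trans ?_ hstep
      refine le_min ?_ (min_le_right _ _)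
      have hG' : exp 2990 ≤ gain ((u + i) / m) / √2 := by
        rw [le_div_iff₀ (by positivity)]; exact hG
      have hG1 : (1 : ℝ) ≤ exp 2990 := Real.one_le_exp (by norm_num)
      have hG0 : 0 ≤ gain ((u + i) / m) / √2 := div_nonneg (gain_nonneg _) (by positivity)
      push_cast
      rcases le_total (exp (2990 * ((i : ℝ) - i1)) * l i1) (1 / √2) with hc | hc
      · rw [min_eq_left hc] at ih
        calc min (exp (2990 * ((i : ℝ) + 1 - i1)) * l i1) (1 / √2)
            ≤ exp (2990 * ((i : ℝ) + 1 - i1)) * l i1 := min_le_left _ _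
          _ = exp 2990 * (exp (2990 * ((i : ℝ) - i1)) * l i1) := by
              rw [← mul_assoc, ← Real.exp_add]
              congr 2
              ring
          _ ≤ gain ((u + i) / m) / √2 * l i := by
              gcongr
      · rw [min_eq_right hc] at ih
        calc min (exp (2990 * ((i : ℝ) + 1 - i1)) * l i1) (1 / √2)
            ≤ 1 / √2 := min_le_right _ _
          _ = 1 * (1 / √2) := (one_mul _).symm
          _ ≤ gain ((u + i) / m) / √2 * l i :=
              mul_le_mul (hG1.trans hG') ih c_pos.le hG0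
  have hl2 : 1 / √2 ≤ l i2 := by
    have h1 := hphase2 i2 hi12 le_rfl
    refine le_trans (le_min ?_ le_rfl) h1
    have h2 : (1 : ℝ) ≤ exp (2990 * ((i2 : ℝ) - i1)) * l i1 := by
      calc (1 : ℝ) ≤ exp (2990 * ((i2 : ℝ) - i1) + (-2 * J - 1200 * m)) := by
            apply Real.one_le_exp
            nlinarith
        _ = exp (2990 * ((i2 : ℝ) - i1)) * exp (-2 * J - 1200 * m) := by
            rw [Real.exp_add]
        _ ≤ _ := by gcongr
    refine le_trans ?_ h2
    rw [div_le_one (by positivity)]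
    rw [Real.one_le_sqrt]
    norm_num
  -- phase 3
  have hphase3 : ∀ i, i2 ≤ i → i ≤ q →
      0 ≤ l i ∧ P J (q - i2) ^ 2 * l i2 ≤ P J (q - i) ^ 2 * l i := by
    intro i hi
    induction i, hi using Nat.le_induction with
    | base => intro _; exact ⟨c_pos.le.trans hl2, le_rfl⟩
    | succ i hi ih =>
      intro hi'
      obtain ⟨ih0, ih1⟩ := ih (by omega)
      have hii : (i2 : ℝ) ≤ i := by exact_mod_cast hi
      have hiq : i < q := by omega
      have hiq' : (i : ℝ) + 1 ≤ q := by exact_mod_cast hi'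
      have ht0 : 1 / 2 ≤ (u + i) / m := by
        rw [le_div_iff₀ hm0]; linarith
      have ht1 : (u + i) / m ≤ 1 := by
        rw [div_le_iff₀ hm0]; linarith
      have hqi : q - i = (q - (i + 1)) + 1 := by omega
      have hcast : (((q - (i + 1) : ℕ) : ℝ) + 1) = (q : ℝ) - i := by
        rw [Nat.cast_sub (by omega)]
        push_cast
        ring
      have hstep : (min 1 ((((q - (i + 1) : ℕ) : ℝ) + 1) / J)) ^ 2 * l i ≤ l (i + 1) := by
        refine cut_step_loss (gain_nonneg _) (by positivity) ?_ ih0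
          (hrec i (by omega) hiq)
        refine (sq_div_J hm0 (by positivity) (w := m - (u + i)) ?_).trans ?_
        · rw [hcast]
          linarith
        · have := gain_lower' ht0 ht1
          have h5 : 1 - (u + i) / m = (m - (u + i)) / m := by
            field_simp
          rw [h5] at this
          gcongr
      have hz : 0 ≤ min 1 ((((q - (i + 1) : ℕ) : ℝ) + 1) / J) := le_min zero_le_one (by positivity)
      refine ⟨le_trans (by positivity) hstep, ?_⟩
      refine ih1.trans ?_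
      rw [hqi, P_succ, mul_pow]
      calc P J (q - (i + 1)) ^ 2 * min 1 ((((q - (i + 1) : ℕ) : ℝ) + 1) / J) ^ 2 * l i
          = P J (q - (i + 1)) ^ 2 * (min 1 ((((q - (i + 1) : ℕ) : ℝ) + 1) / J) ^ 2 * l i) := by ring
        _ ≤ P J (q - (i + 1)) ^ 2 * l (i + 1) := by gcongr
  obtain ⟨h1, h2⟩ := hphase3 q hi2q le_rfl
  rw [Nat.sub_self, P_zero, one_pow, one_mul] at h2
  have h3 : exp (-J) ^ 2 ≤ P J (q - i2) ^ 2 := pow_le_pow_left₀ (exp_pos _).le (P_ge hJ _) 2
  have h4 : exp (-1 / 2) ≤ 1 / √2 := by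
    have h5 : exp (-1 / 2) = 1 / √(exp 1) := by
      rw [← Real.exp_half, one_div, ← Real.exp_neg]
      congr 1
      ring
    rw [h5]
    apply one_div_le_one_div_of_le (by positivity)
    apply Real.sqrt_le_sqrt
    have := Real.exp_one_gt_d9
    linarith
  calc exp (-m / 100) ≤ exp (-2 * J + -1 / 2) := by
        apply Real.exp_le_exp.2
        linarith
    _ = exp (-J) ^ 2 * exp (-1 / 2) := by
        rw [← Real.exp_nat_mul, ← Real.exp_add]
        congr 1
        push_cast
        ring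
    _ ≤ P J (q - i2) ^ 2 * (1 / √2) := by gcongr
    _ ≤ P J (q - i2) ^ 2 * l i2 := by gcongr
    _ ≤ l q := h2
    _ ≤ r q := min_le_left _ _

open GrowthAux in
theorem growth_int (k : ℤ) (m u : ℝ) (hm : 100 ≤ m) (hu : 17/20 ≤ u) (r : ℕ → ℝ) (p q : ℕ)
    (hp : p ≤ 3) (hu2 : u ≤ 2) (hq : u + q ≤ m - 3/2) (hq2 : m - 4 ≤ u + q)
    (h0 : Real.exp (-1200 * m) ≤ r p)
    (hrec : ∀ i, p ≤ i → i < q →
      satR (gain ((k : ℝ) + (u + i) / m) * r i) ≤ r (i + 1)) :
    Real.exp (-m / 100) ≤ r q := by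
  refine growth m u hm hu r p q hp hu2 hq hq2 h0 ?_
  intro i h1 h2
  have := hrec i h1 h2
  rwa [gain_int] at this

end Crest.Agent.R123
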