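import Mathlib

/-! Row 123: barycentric subdivision, in dual (cochain) form, on lists of points. -/

set_option autoImplicit false

namespace Crest.Agent.R123.Hom

noncomputable section

variable {T T' : Type*}

/-- alternating sum of the values on the faces -/
def B (φ : List T → ℝ) : List T → ℝ
  | [] => 0
  | v :: l => φ l - B (fun l' => φ (v :: l')) l

/-- pulling out the sum: linearity -/
theorem B_sub (φ ψ : List T → ℝ) (l : List T) :
    B (fun l' => φ l' - ψ l') l = B φ l - B ψ l := by
  induction l generalizing φ ψ with
  | nil => simp [B]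
  | cons v l ih =>
    simp only [B]
    rw [ih]
    ring

theorem B_zero (l : List T) : B (fun _ => 0) l = 0 := by
  induction l with
  | nil => simp [B]
  | cons v l ih => simp only [B, ih, sub_zero]

/-- faces of a list -/
inductive IsFace : List T → List T → Prop
  | head (v : T) (l : List T) : IsFace (v :: l) l
  | cons (v : T) (l l' : List T) (h : IsFace l l') : IsFace (v :: l) (v :: l')

theorem IsFace.length {l l' : List T} (h : IsFace l l') : l.length = l'.length + 1 := by
  induction h with
  | head v l => rfl
  | cons v l l' h ih => simp [ih]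

theorem IsFace.subset {l l' : List T} (h : IsFace l l') : ∀ x ∈ l', x ∈ l := by
  induction h with
  | head v l => intro x hx; exact List.mem_cons_of_mem _ hx
  | cons v l l' h ih =>
    intro x hx
    rcases List.mem_cons.1 hx with rfl | hx
    · exact List.mem_cons_self
    · exact List.mem_cons_of_mem _ (ih x hx)

theorem B_congr (φ ψ : List T → ℝ) (l : List T) (h : ∀ l', IsFace l l' → φ l' = ψ l') :
    B φ l = B ψ l := by
  induction l generalizing φ ψ with
  | nil => simp [B]
  | cons v l ih =>
    simp only [B]
    rw [h l (IsFace.head v l), ih _ _ fun l' hl' => h _ (IsFace.cons v l l' hl')]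

theorem B_B (φ : List T → ℝ) (l : List T) : B (B φ) l = 0 := by
  induction l generalizing φ with
  | nil => simp [B]
  | cons v l ih =>
    have : B (fun l' => B φ (v :: l')) l = B (fun l' => φ l' - B (fun l'' => φ (v :: l'')) l') l := by
      rfl
    show B φ l - B (fun l' => B φ (v :: l')) l = 0
    rw [this, B_sub, ih]
    ring

theorem B_map (f : T → T') (φ : List T' → ℝ) (l : List T) :
    B φ (l.map f) = B (fun l' => φ (l'.map f)) l := by
  induction l generalizing φ with
  | nil => simp [B]
  | cons v l ih =>
    simp only [List.map_cons, B]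
    rw [ih]

variable (b : List T → T)

/-- evaluation on the barycentric subdivision (fuel version) -/
def E : ℕ → (List T → ℝ) → List T → ℝ
  | 0, φ, l => φ l
  | n + 1, φ, l => B (E n (fun l' => φ (b l :: l'))) l

theorem E_sub (n : ℕ) (φ ψ : List T → ℝ) (l : List T) :
    E b n (fun l' => φ l' - ψ l') l = E b n φ l - E b n ψ l := by
  induction n generalizing φ ψ l with
  | zero => rfl
  | succ n ih =>
    show B (E b n (fun l' => φ (b l :: l') - ψ (b l :: l'))) l = _
    have h : E b n (fun l' => φ (b l :: l') - ψ (b l :: l'))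
        = fun l'' => E b n (fun l' => φ (b l :: l')) l'' - E b n (fun l' => ψ (b l :: l')) l'' := by
      funext l''
      exact ih _ _ _
    rw [h, B_sub]
    rfl

/-- the key identity -/
theorem E_B (n : ℕ) (φ : List T → ℝ) (l : List T) (hl : l.length = n) :
    E b n (B φ) l = B (E b (n - 1) φ) l := by
  induction n generalizing φ l with
  | zero =>
    have : l = [] := List.length_eq_zero_iff.1 hl
    subst this
    simp [E, B]
  | succ n ih =>
    show B (E b n (fun l' => B φ (b l :: l'))) l = B (E b n φ) l
    have h : E b n (fun l' => B φ (b l :: l'))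
        = fun l'' => E b n φ l'' - E b n (B (fun l' => φ (b l :: l'))) l'' := by
      funext l''
      have := E_sub b n φ (B (fun l' => φ (b l :: l'))) l''
      rw [← this]
      rfl
    rw [h, B_sub]
    have h2 : B (E b n (B (fun l' => φ (b l :: l')))) l = 0 := by
      rw [B_congr _ (B (E b (n - 1) (fun l' => φ (b l :: l')))) l, B_B]
      intro l' hl'
      apply ih
      have := hl'.length
      omega
    rw [h2, sub_zero]

/-- evaluation on the barycentric subdivision -/
def Sd (φ : List T → ℝ) (l : List T) : ℝ := E b l.length φ l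

theorem Sd_B (φ : List T → ℝ) : Sd b (B φ) = B (Sd b φ) := by
  funext l
  unfold Sd
  rw [E_B b _ φ l rfl]
  apply B_congr
  intro l' hl'
  have := hl'.length
  congr 1
  omega

theorem iterate_Sd_B (m : ℕ) (φ : List T → ℝ) : (Sd b)^[m] (B φ) = B ((Sd b)^[m] φ) := by
  induction m generalizing φ with
  | zero => rfl
  | succ m ih => rw [Function.iterate_succ_apply, Sd_B, ih, Function.iterate_succ_apply]

/-- `l'` is a simplex of the subdivision of `l` (fuel version) -/
inductive InSd : ℕ → List T → List T → Prop
  | zero (l : List T) : InSd 0 l l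
  | succ (n : ℕ) (l l1 l2 : List T) (h : IsFace l l1) (h2 : InSd n l1 l2) :
      InSd (n + 1) l (b l :: l2)

theorem E_congr (n : ℕ) (φ ψ : List T → ℝ) (l : List T)
    (h : ∀ l', InSd b n l l' → φ l' = ψ l') : E b n φ l = E b n ψ l := by
  induction n generalizing φ ψ l with
  | zero => exact h l (InSd.zero l)
  | succ n ih =>
    show B (E b n (fun l' => φ (b l :: l'))) l = B (E b n (fun l' => ψ (b l :: l'))) l
    apply B_congr
    intro l1 hl1
    apply ih
    intro l2 hl2
    exact h _ (InSd.succ n l l1 l2 hl1 hl2)

/-- naturality for maps commuting with `b` on nonempty lists -/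
theorem E_map (b' : List T' → T') (f : T → T') (hf : ∀ l : List T, l ≠ [] → f (b l) = b' (l.map f))
    (n : ℕ) (φ : List T' → ℝ) (l : List T) (hl : l.length = n) :
    E b' n φ (l.map f) = E b n (fun l' => φ (l'.map f)) l := by
  induction n generalizing φ l with
  | zero => rfl
  | succ n ih =>
    have hne : l ≠ [] := by rintro rfl; simp at hl
    show B (E b' n (fun l' => φ (b' (l.map f) :: l'))) (l.map f) = _
    rw [B_map]
    show _ = B (E b n (fun l' => φ (f (b l) :: l'.map f))) l
    apply B_congr
    intro l1 hl1
    have := hl1.length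
    rw [ih _ _ (by omega), hf l hne]

theorem Sd_map (b' : List T' → T') (f : T → T')
    (hf : ∀ l : List T, l ≠ [] → f (b l) = b' (l.map f)) (φ : List T' → ℝ) (l : List T) :
    Sd b' φ (l.map f) = Sd b (fun l' => φ (l'.map f)) l := by
  unfold Sd
  rw [List.length_map]
  exact E_map b b' f hf _ φ l rfl

theorem iterate_Sd_map (b' : List T' → T') (f : T → T')
    (hf : ∀ l : List T, l ≠ [] → f (b l) = b' (l.map f)) (m : ℕ) (φ : List T' → ℝ) (l : List T) :
    (Sd b')^[m] φ (l.map f) = (Sd b)^[m] (fun l' => φ (l'.map f)) l := by
  induction m generalizing φ l with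
  | zero => rfl
  | succ m ih =>
    rw [Function.iterate_succ_apply, Function.iterate_succ_apply, ih]
    have h : (fun l' : List T => Sd b' φ (l'.map f)) = Sd b (fun l' => φ (l'.map f)) := by
      funext l'
      exact Sd_map b b' f hf φ l'
    rw [h]

theorem InSd.length {n : ℕ} {l l' : List T} (h : InSd b n l l') (hl : l.length = n) :
    l'.length = n := by
  induction h with
  | zero l => exact hl
  | succ n l l1 l2 h1 h2 ih =>
    have := h1.length
    rw [List.length_cons, ih (by omega)]

section mesh

variable [PseudoMetricSpace T]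

/-- all points are close to each other -/
def Sm (r : ℝ) (l : List T) : Prop := ∀ x ∈ l, ∀ y ∈ l, dist x y ≤ r

/-- properties of the barycenter map -/
structure BaryProp (b : List T → T) : Prop where
  conv : ∀ (l : List T) (p : T) (R : ℝ), l ≠ [] → (∀ v ∈ l, dist v p ≤ R) → dist (b l) p ≤ R
  small : ∀ (l : List T) (r : ℝ), l ≠ [] → l.length ≤ 4 → Sm r l → ∀ v ∈ l, dist (b l) v ≤ 3 / 4 * r

variable {b}

theorem InSd.dist_le (hb : BaryProp b) {n : ℕ} {l l' : List T} (h : InSd b n l l')
    (hl : l.length = n) (p : T) (R : ℝ) (hR : ∀ v ∈ l, dist v p ≤ R) : ∀ w ∈ l', dist w p ≤ R := by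
  induction h with
  | zero l => exact hR
  | succ n l l1 l2 h1 h2 ih =>
    intro w hw
    rcases List.mem_cons.1 hw with rfl | hw
    · exact hb.conv l p R (by rintro rfl; simp at hl) hR
    · have := h1.length
      exact ih (by omega) (fun v hv => hR v (h1.subset v hv)) w hw

theorem InSd.small (hb : BaryProp b) {n : ℕ} {l l' : List T} (h : InSd b n l l')
    (hl : l.length = n) (hn : n ≤ 4) (r : ℝ) (hr : 0 ≤ r) (hs : Sm r l) : Sm (3 / 4 * r) l' := by
  induction h with
  | zero l =>
    intro x hx
    rw [List.length_eq_zero_iff.1 hl] at hx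
    simp at hx
  | succ n l l1 l2 h1 h2 ih =>
    have hlen := h1.length
    have hne : l ≠ [] := by rintro rfl; simp at hl
    have h3 : ∀ v ∈ l, dist v (b l) ≤ 3 / 4 * r := fun v hv => by
      rw [dist_comm]
      exact hb.small l r hne (by omega) hs v hv
    have h4 : ∀ w ∈ l2, dist w (b l) ≤ 3 / 4 * r :=
      h2.dist_le hb (by omega) (b l) _ fun v hv => h3 v (h1.subset v hv)
    have h5 : Sm (3 / 4 * r) l2 := ih (by omega) (by omega)
      fun x hx y hy => hs x (h1.subset x hx) y (h1.subset y hy)
    intro x hx y hy
    rcases List.mem_cons.1 hx with rfl | hx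
    · rcases List.mem_cons.1 hy with rfl | hy
      · rw [dist_self]; positivity
      · rw [dist_comm]; exact h4 y hy
    · rcases List.mem_cons.1 hy with rfl | hy
      · exact h4 x hx
      · exact h5 x hx y hy

theorem iterate_Sd_congr (hb : BaryProp b) (m : ℕ) (φ ψ : List T → ℝ) (l : List T)
    (hl : l.length ≤ 4) (r : ℝ) (hr : 0 ≤ r) (hs : Sm r l)
    (h : ∀ l' : List T, l'.length = l.length → Sm ((3 / 4) ^ m * r) l' → φ l' = ψ l') :
    (Sd b)^[m] φ l = (Sd b)^[m] ψ l := by
  induction m generalizing φ ψ with
  | zero =>
    apply h l rfl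
    simpa using hs
  | succ m ih =>
    rw [Function.iterate_succ_apply, Function.iterate_succ_apply]
    apply ih
    intro l1 hl1 hs1
    unfold Sd
    apply E_congr
    intro l2 hl2
    apply h
    · rw [hl2.length b rfl, hl1]
    · have := hl2.small hb rfl (by omega) _ (by positivity) hs1
      rw [← mul_assoc] at this
      rwa [pow_succ']

end mesh

end

end Crest.Agent.R123.Hom
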