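import Crest.Agent.R123.HDouble
import Crest.Agent.R123.HSd

/-! Row 123: barycenters in standard simplices. -/

set_option autoImplicit false

namespace Crest.Agent.R123.Hom

noncomputable section

open scoped Classical in
theorem bary_mem {n : ℕ} (l : List (Dn n)) (hl : l ≠ []) :
    (fun i => (l.map fun p : Dn n => p i).sum / l.length) ∈ stdSimplex ℝ (Fin (n + 1)) := by
  have hlen : (0 : ℝ) < l.length := by
    have := List.length_pos_iff.2 hl
    exact_mod_cast this
  constructor
  · intro i
    apply div_nonneg _ hlen.le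
    apply List.sum_nonneg
    intro x hx
    obtain ⟨p, _, rfl⟩ := List.mem_map.1 hx
    exact stdSimplex.zero_le p i
  · rw [← Finset.sum_div, div_eq_one_iff_eq hlen.ne']
    clear hlen hl
    induction l with
    | nil => simp
    | cons p l ih =>
      simp only [List.map_cons, List.sum_cons, Finset.sum_add_distrib, ih, List.length_cons]
      rw [stdSimplex.sum_eq_one]
      push_cast
      ring

open scoped Classical in
/-- the barycenter -/
def bary {n : ℕ} (l : List (Dn n)) : Dn n :=
  if hl : l ≠ [] then ⟨fun i => (l.map fun p : Dn n => p i).sum / l.length, bary_mem l hl⟩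
  else stdSimplex.vertex 0

theorem bary_apply {n : ℕ} (l : List (Dn n)) (hl : l ≠ []) (i : Fin (n + 1)) :
    bary l i = (l.map fun p : Dn n => p i).sum / l.length := by
  unfold bary
  rw [dif_pos hl]
  rfl

theorem bary_singleton {n : ℕ} (p : Dn n) : bary [p] = p := by
  ext i
  rw [bary_apply _ (by simp)]
  simp

theorem dist_Dn_le {n : ℕ} (p q : Dn n) (R : ℝ) (hR : 0 ≤ R) :
    dist p q ≤ R ↔ ∀ i, |p i - q i| ≤ R := by
  rw [Subtype.dist_eq, dist_pi_le_iff hR]
  rfl

theorem sum_sub_le (xs : List ℝ) (c R : ℝ) (h : ∀ x ∈ xs, |x - c| ≤ R) :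
    |xs.sum - xs.length * c| ≤ xs.length * R := by
  induction xs with
  | nil => simp
  | cons x xs ih =>
    have h1 := ih fun y hy => h y (List.mem_cons_of_mem _ hy)
    have h2 := h x List.mem_cons_self
    rw [List.sum_cons, List.length_cons]
    push_cast
    have h3 : x + xs.sum - ((xs.length : ℝ) + 1) * c = (x - c) + (xs.sum - xs.length * c) := by ring
    rw [h3]
    refine (abs_add_le _ _).trans ?_
    linarith

theorem baryProp (n : ℕ) : BaryProp (bary (n := n)) where
  conv := by
    intro l p R hl hR
    have hR0 : 0 ≤ R := by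
      obtain ⟨v, hv⟩ := List.exists_mem_of_ne_nil l hl
      exact dist_nonneg.trans (hR v hv)
    have hlen : (0 : ℝ) < l.length := by
      have := List.length_pos_iff.2 hl
      exact_mod_cast this
    rw [dist_Dn_le _ _ _ hR0]
    intro i
    rw [bary_apply l hl]
    have h1 := sum_sub_le (l.map fun p : Dn n => p i) (p i) R (by
      intro x hx
      obtain ⟨v, hv, rfl⟩ := List.mem_map.1 hx
      exact (dist_Dn_le _ _ _ hR0).1 (hR v hv) i)
    rw [List.length_map] at h1
    have h2 : (l.map fun p : Dn n => p i).sum / l.length - p i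
        = ((l.map fun p : Dn n => p i).sum - l.length * p i) / l.length := by
      field_simp
    rw [h2, abs_div, abs_of_pos hlen, div_le_iff₀ hlen]
    linarith
  small := by
    classical
    intro l r hl hlen4 hs v hv
    have hr : 0 ≤ r := dist_nonneg.trans (hs v hv v hv)
    have hlen : (0 : ℝ) < l.length := by
      have := List.length_pos_iff.2 hl
      exact_mod_cast this
    rw [dist_Dn_le _ _ _ (by positivity)]
    intro i
    rw [bary_apply l hl]
    obtain ⟨s, t, rfl⟩ := List.append_of_mem hv
    have h0 : ((s ++ v :: t).map fun p : Dn n => p i).sum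
        = v i + ((s ++ t).map fun p : Dn n => p i).sum := by
      simp only [List.map_append, List.map_cons, List.sum_append, List.sum_cons]
      ring
    have h1 := sum_sub_le ((s ++ t).map fun p : Dn n => p i) (v i) r (by
      intro x hx
      obtain ⟨w, hw, rfl⟩ := List.mem_map.1 hx
      refine (dist_Dn_le _ _ _ hr).1 (hs w ?_ v hv) i
      rcases List.mem_append.1 hw with hw | hw
      · exact List.mem_append_left _ hw
      · exact List.mem_append_right _ (List.mem_cons_of_mem _ hw))
    have h3 : ((s ++ t).length : ℝ) = ((s ++ v :: t).length : ℝ) - 1 := by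
      simp only [List.length_append, List.length_cons]
      push_cast
      ring
    rw [List.length_map, h3] at h1
    set l := s ++ v :: t
    have h2 : (l.map fun p : Dn n => p i).sum / l.length - v i
        = (((s ++ t).map fun p : Dn n => p i).sum - (l.length - 1) * v i) / l.length := by
      rw [h0]
      field_simp
      ring
    have h4 : (l.length : ℝ) ≤ 4 := by exact_mod_cast hlen4
    rw [h2, abs_div, abs_of_pos hlen, div_le_iff₀ hlen]
    nlinarith

theorem bary_face {n : ℕ} (i : Fin (n + 2)) (l : List (Dn n)) (hl : l ≠ []) :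
    face n i (bary l) = bary (l.map (face n i)) := by
  ext j
  rw [bary_apply _ (by simpa using hl), face_apply]
  simp only [bary_apply l hl, List.map_map, List.length_map]
  have h : ∀ l : List (Dn n), (l.map ((fun p : Dn (n + 1) => p j) ∘ (face n i))).sum
      = ∑ k : Fin (n + 1), if i.succAbove k = j then (l.map fun p : Dn n => p k).sum else 0 := by
    intro l
    induction l with
    | nil => simp
    | cons p l ih =>
      simp only [List.map_cons, List.sum_cons, ih, Function.comp_apply, face_apply]
      rw [← Finset.sum_add_distrib]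
      refine Finset.sum_congr rfl fun k _ => ?_
      split_ifs <;> simp
  rw [h, Finset.sum_div]
  refine Finset.sum_congr rfl fun k _ => ?_
  split_ifs <;> simp

/-- the subdivision operator on the standard simplex -/
abbrev SdD (n : ℕ) : (List (Dn n) → ℝ) → (List (Dn n) → ℝ) := Sd bary

theorem SdD_single {n : ℕ} (φ : List (Dn n) → ℝ) (v : Dn n) : SdD n φ [v] = φ [v] := by
  show B (E bary 0 (fun l' => φ (bary [v] :: l'))) [v] = φ [v]
  simp [B, E, bary_singleton]

theorem iterate_SdD_single {n : ℕ} (m : ℕ) (φ : List (Dn n) → ℝ) (v : Dn n) :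
    (SdD n)^[m] φ [v] = φ [v] := by
  induction m generalizing φ with
  | zero => rfl
  | succ m ih => rw [Function.iterate_succ_apply, ih, SdD_single]

theorem iterate_SdD_face {n : ℕ} (m : ℕ) (i : Fin (n + 2)) (φ : List (Dn (n + 1)) → ℝ)
    (l : List (Dn n)) :
    (SdD (n + 1))^[m] φ (l.map (face n i)) = (SdD n)^[m] (fun l' => φ (l'.map (face n i))) l :=
  iterate_Sd_map bary bary (face n i) (fun l hl => bary_face i l hl) m φ l

theorem dist_Dn_le_one {n : ℕ} (p q : Dn n) : dist p q ≤ 1 := by
  rw [dist_Dn_le _ _ _ zero_le_one]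
  intro i
  have h1 := stdSimplex.zero_le p i
  have h2 := stdSimplex.zero_le q i
  have h3 := stdSimplex.le_one p i
  have h4 := stdSimplex.le_one q i
  rw [abs_le]
  constructor <;> linarith

/-- two cochains agreeing on small lists have the same values on fine subdivisions -/
theorem eventually_SdD {n : ℕ} (φ ψ : List (Dn n) → ℝ) (l : List (Dn n)) (hl : l.length ≤ 4)
    (ε : ℝ) (hε : 0 < ε) (h : ∀ l' : List (Dn n), l'.length = l.length → Sm ε l' → φ l' = ψ l') :
    ∀ᶠ m : ℕ in Filter.atTop, (SdD n)^[m] φ l = (SdD n)^[m] ψ l := by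
  have h1 : Filter.Tendsto (fun m : ℕ => (3 / 4 : ℝ) ^ m) Filter.atTop (nhds 0) :=
    tendsto_pow_atTop_nhds_zero_of_lt_one (by norm_num) (by norm_num)
  filter_upwards [h1.eventually (ge_mem_nhds hε)] with m hm
  apply iterate_Sd_congr (baryProp n) m φ ψ l hl 1 zero_le_one
    (fun x _ y _ => dist_Dn_le_one x y)
  intro l' hl' hs
  apply h l' hl'
  intro x hx y hy
  exact (hs x hx y hy).trans (by rw [mul_one]; exact hm)

end

end Crest.Agent.R123.Hom
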