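import Crest.Agent.R123.HBasic

/-! Row 123: the class of a sphere glued from two discs, and its doubling. -/

set_option autoImplicit false

open CategoryTheory AlgebraicTopology Simplicial Opposite

namespace Crest.Agent.R123.Hom

noncomputable section

/-- the closed unit disc -/
abbrev D2 : Type := Metric.closedBall (0 : ℂ) 1

theorem face_apply {n : ℕ} (i : Fin (n + 2)) (s : Dn n) (j : Fin (n + 2)) :
    (face n i s) j = ∑ k : Fin (n + 1), if i.succAbove k = j then s k else 0 := by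
  classical
  show (stdSimplex.map i.succAbove s) j = _
  rw [stdSimplex.map_coe, FunOnFinite.linearMap_apply_apply, Finset.sum_filter]

theorem face0 (s : Dn 1) : (face 1 0 s) 0 = 0 ∧ (face 1 0 s) 1 = s 0 ∧ (face 1 0 s) 2 = s 1 := by
  refine ⟨?_, ?_, ?_⟩ <;> rw [face_apply, Fin.sum_univ_two] <;> simp [Fin.succAbove, Fin.ext_iff]

theorem face1 (s : Dn 1) : (face 1 1 s) 0 = s 0 ∧ (face 1 1 s) 1 = 0 ∧ (face 1 1 s) 2 = s 1 := by
  refine ⟨?_, ?_, ?_⟩ <;> rw [face_apply, Fin.sum_univ_two] <;> simp [Fin.succAbove, Fin.ext_iff]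

theorem face2 (s : Dn 1) : (face 1 2 s) 0 = s 0 ∧ (face 1 2 s) 1 = s 1 ∧ (face 1 2 s) 2 = 0 := by
  refine ⟨?_, ?_, ?_⟩ <;> rw [face_apply, Fin.sum_univ_two] <;> simp [Fin.succAbove, Fin.ext_iff]

/-- `e(t) = exp(2 π i t)` -/
def ee (t : ℝ) : ℂ := Complex.exp ((2 * Real.pi * t : ℝ) * Complex.I)

theorem norm_ee (t : ℝ) : ‖ee t‖ = 1 := Complex.norm_exp_ofReal_mul_I _

theorem continuous_ee : Continuous ee := by
  unfold ee
  fun_prop

theorem ee_add_one (t : ℝ) : ee (t + 1) = ee t := by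
  unfold ee
  rw [Complex.exp_eq_exp_iff_exists_int]
  refine ⟨1, ?_⟩
  push_cast
  ring

theorem ee_one : ee 1 = 1 := by
  have := ee_add_one 0
  rw [zero_add] at this
  rw [this]
  simp [ee]

theorem ee_zero : ee 0 = 1 := by simp [ee]

theorem ee_sq (t : ℝ) : ee t ^ 2 = ee (2 * t) := by
  unfold ee
  rw [← Complex.exp_nat_mul]
  congr 1
  push_cast
  ring

/-- cone coordinates -/
def kf (p : ℝ × ℝ) : ℂ := ((p.1 + p.2 : ℝ) : ℂ) * ee (p.2 / (p.1 + p.2))

theorem norm_kf (p : ℝ × ℝ) : ‖kf p‖ = |p.1 + p.2| := by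
  unfold kf
  rw [norm_mul, norm_ee, mul_one, Complex.norm_real, Real.norm_eq_abs]

theorem continuous_kf : Continuous kf := by
  rw [continuous_iff_continuousAt]
  intro p
  by_cases h : p.1 + p.2 = 0
  · have h0 : kf p = 0 := by
      have := norm_kf p
      rw [h, abs_zero, norm_eq_zero] at this
      exact this
    unfold ContinuousAt
    rw [h0, tendsto_zero_iff_norm_tendsto_zero]
    simp only [norm_kf]
    have h1 : Continuous fun p : ℝ × ℝ => |p.1 + p.2| := by fun_prop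
    have h2 := h1.tendsto p
    rw [h, abs_zero] at h2
    exact h2
  · unfold kf
    have h1 : ContinuousAt (fun p : ℝ × ℝ => ((p.1 + p.2 : ℝ) : ℂ)) p := by fun_prop
    have h2 : ContinuousAt (fun p : ℝ × ℝ => p.2 / (p.1 + p.2)) p := by
      apply ContinuousAt.div
      · fun_prop
      · fun_prop
      · exact h
    exact h1.mul (continuous_ee.continuousAt.comp h2)

theorem continuous_coord {n : ℕ} (i : Fin (n + 1)) : Continuous fun s : Dn n => s i :=
  (continuous_apply i).comp continuous_subtype_val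

theorem kf_mem (t : Dn 2) : kf (t 1, t 2) ∈ Metric.closedBall (0 : ℂ) 1 := by
  rw [mem_closedBall_zero_iff, norm_kf]
  have h0 := stdSimplex.zero_le t 0
  have h1 := stdSimplex.zero_le t 1
  have h2 := stdSimplex.zero_le t 2
  have h' := stdSimplex.sum_eq_one t
  rw [Fin.sum_univ_three] at h'
  rw [abs_of_nonneg (add_nonneg h1 h2)]
  show t 1 + t 2 ≤ 1
  linarith

/-- the cone simplex -/
def kap : C(Dn 2, D2) where
  toFun t := ⟨kf (t 1, t 2), kf_mem t⟩
  continuous_toFun := (continuous_kf.comp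
    ((continuous_coord 1).prodMk (continuous_coord 2))).subtype_mk _

/-- a point of the circle as a point of the disc -/
def circ (t : ℝ) : D2 := ⟨ee t, by rw [mem_closedBall_zero_iff, norm_ee]⟩

theorem continuous_circ : Continuous circ := continuous_ee.subtype_mk _

/-- the loop -/
def gam1 : C(Dn 1, D2) := ⟨fun s => circ (s 1), continuous_circ.comp (continuous_coord 1)⟩

/-- the doubled loop -/
def gam2 : C(Dn 1, D2) :=
  ⟨fun s => circ (2 * s 1), continuous_circ.comp (continuous_const.mul (continuous_coord 1))⟩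

/-- the meridian -/
def mer : C(Dn 1, D2) := kap.comp (face 1 1)

/-- the simplex on the circle -/
def ww : C(Dn 2, D2) :=
  ⟨fun s => circ (s 1 + 2 * s 2), continuous_circ.comp
    ((continuous_coord 1).add (continuous_const.mul (continuous_coord 2)))⟩

theorem sum_two (s : Dn 1) : s 0 + s 1 = 1 := stdSimplex.add_eq_one s

theorem kap_face0 : kap.comp (face 1 0) = gam1 := by
  refine ContinuousMap.ext fun s => Subtype.ext ?_
  show kf ((face 1 0 s) 1, (face 1 0 s) 2) = ee (s 1)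
  obtain ⟨h0, h1, h2⟩ := face0 s
  rw [h1, h2]
  unfold kf
  simp only [sum_two, div_one, Complex.ofReal_one, one_mul]

theorem kap_face2 : kap.comp (face 1 2) = mer := by
  refine ContinuousMap.ext fun s => Subtype.ext ?_
  show kf ((face 1 2 s) 1, (face 1 2 s) 2) = kf ((face 1 1 s) 1, (face 1 1 s) 2)
  obtain ⟨h0, h1, h2⟩ := face2 s
  obtain ⟨k0, k1, k2⟩ := face1 s
  rw [h1, h2, k1, k2]
  unfold kf
  simp only [add_zero, zero_div, zero_add, ee_zero, mul_one]
  by_cases h : s 1 = 0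
  · simp [h]
  · rw [div_self h, ee_one, mul_one]

theorem ww_face0 : ww.comp (face 1 0) = gam1 := by
  ext s
  show ee ((face 1 0 s) 1 + 2 * (face 1 0 s) 2) = ee (s 1)
  obtain ⟨h0, h1, h2⟩ := face0 s
  rw [h1, h2, ← ee_add_one (s 1)]
  congr 1
  have := sum_two s
  linarith

theorem ww_face1 : ww.comp (face 1 1) = gam2 := by
  ext s
  show ee ((face 1 1 s) 1 + 2 * (face 1 1 s) 2) = ee (2 * s 1)
  obtain ⟨h0, h1, h2⟩ := face1 s
  rw [h1, h2, zero_add]

theorem ww_face2 : ww.comp (face 1 2) = gam1 := by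
  ext s
  show ee ((face 1 2 s) 1 + 2 * (face 1 2 s) 2) = ee (s 1)
  obtain ⟨h0, h1, h2⟩ := face2 s
  rw [h1, h2, mul_zero, add_zero]

variable {X Y : Type} [TopologicalSpace X] [TopologicalSpace Y]

theorem bd_sgl2 (σ : C(Dn 2, X)) : bd X 1 (sgl σ) = sgl (σ.comp (face 1 0))
    - sgl (σ.comp (face 1 1)) + sgl (σ.comp (face 1 2)) := by
  rw [bd_sgl, Fin.sum_univ_three]
  simp [sub_eq_add_neg]

theorem bd_kap : bd D2 1 (sgl kap) = sgl gam1 := by
  rw [bd_sgl2, kap_face0, kap_face2]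
  show sgl gam1 - sgl mer + sgl mer = _
  abel

theorem bd_ww : bd D2 1 (sgl ww) = (2 : ℝ) • sgl gam1 - sgl gam2 := by
  rw [bd_sgl2, ww_face0, ww_face1, ww_face2, two_smul]
  abel

instance : ContractibleSpace D2 :=
  (convex_closedBall (0 : ℂ) 1).contractibleSpace ⟨0, by simp⟩

/-- the glued cycle -/
def hemi (σp σm : C(D2, X)) : (SC X).X 2 := sgl (σp.comp kap) - sgl (σm.comp kap)

theorem comp_gam1 (σp σm : C(D2, X)) (hσ : ∀ z : D2, ‖(z : ℂ)‖ = 1 → σp z = σm z) :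
    σp.comp gam1 = σm.comp gam1 := by
  ext s
  exact hσ _ (norm_ee _)

theorem comp_ww (σp σm : C(D2, X)) (hσ : ∀ z : D2, ‖(z : ℂ)‖ = 1 → σp z = σm z) :
    σp.comp ww = σm.comp ww := by
  ext s
  exact hσ _ (norm_ee _)

theorem bd_hemi (σp σm : C(D2, X)) (hσ : ∀ z : D2, ‖(z : ℂ)‖ = 1 → σp z = σm z) :
    bd X 1 (hemi σp σm) = 0 := by
  unfold hemi
  rw [map_sub, ← push_sgl σp kap, ← push_sgl σm kap, bd_push, bd_push, bd_kap, push_sgl, push_sgl,
    comp_gam1 σp σm hσ, sub_self]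

theorem comp_q (q : C(D2, D2)) (hq : ∀ z : D2, ‖(z : ℂ)‖ = 1 → (q z : ℂ) = (z : ℂ) ^ 2) :
    q.comp gam1 = gam2 := by
  ext s
  show (q (circ (s 1)) : ℂ) = ee (2 * s 1)
  rw [hq _ (norm_ee _)]
  exact ee_sq _

theorem exists_fill (q : C(D2, D2)) (hq : ∀ z : D2, ‖(z : ℂ)‖ = 1 → (q z : ℂ) = (z : ℂ) ^ 2) :
    ∃ y, bd D2 2 y = push q 2 (sgl kap) - (2 : ℝ) • sgl kap + sgl ww := by
  apply exists_bd_of_contractible
  rw [map_add, map_sub, map_smul, bd_push, bd_kap, bd_ww, push_sgl, comp_q q hq]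
  abel

theorem push_comp_apply {Z : Type} [TopologicalSpace Z] (f : C(X, Y)) (g : C(Y, Z)) (n : ℕ)
    (x : (SC X).X n) : push (g.comp f) n x = push g n (push f n x) := by
  have h : push (g.comp f) n = (push g n).comp (push f n) := by
    apply chain_ext
    intro σ
    rw [LinearMap.comp_apply, push_sgl, push_sgl, push_sgl]
    rfl
  rw [h]
  rfl

/-- doubling of the glued class -/
theorem double_hemi (F : C(X, X)) (σp σm : C(D2, X)) (qp qm : C(D2, D2))
    (hσ : ∀ z : D2, ‖(z : ℂ)‖ = 1 → σp z = σm z)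
    (hqp : ∀ z : D2, ‖(z : ℂ)‖ = 1 → (qp z : ℂ) = (z : ℂ) ^ 2)
    (hqm : ∀ z : D2, ‖(z : ℂ)‖ = 1 → (qm z : ℂ) = (z : ℂ) ^ 2)
    (hFp : F.comp σp = σp.comp qp) (hFm : F.comp σm = σm.comp qm) :
    ∃ y, bd X 2 y = push F 2 (hemi σp σm) - (2 : ℝ) • hemi σp σm := by
  obtain ⟨yp, hyp⟩ := exists_fill qp hqp
  obtain ⟨ym, hym⟩ := exists_fill qm hqm
  refine ⟨push σp 3 yp - push σm 3 ym, ?_⟩
  rw [map_sub, bd_push, bd_push, hyp, hym]
  have e1 : push σp 2 (push qp 2 (sgl kap)) = push F 2 (sgl (σp.comp kap)) := by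
    rw [← push_sgl σp kap, ← push_comp_apply, ← push_comp_apply, hFp]
  have e2 : push σm 2 (push qm 2 (sgl kap)) = push F 2 (sgl (σm.comp kap)) := by
    rw [← push_sgl σm kap, ← push_comp_apply, ← push_comp_apply, hFm]
  have e3 : push σp 2 (sgl ww) = push σm 2 (sgl ww) := by
    rw [push_sgl, push_sgl, comp_ww σp σm hσ]
  unfold hemi
  rw [map_add, map_sub, map_smul, map_add, map_sub, map_smul, e1, e2, e3]
  simp only [push_sgl, map_sub, smul_sub]
  abel

theorem Hmap_hemi (F : C(X, X)) (σp σm : C(D2, X)) (qp qm : C(D2, D2))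
    (hσ : ∀ z : D2, ‖(z : ℂ)‖ = 1 → σp z = σm z)
    (hqp : ∀ z : D2, ‖(z : ℂ)‖ = 1 → (qp z : ℂ) = (z : ℂ) ^ 2)
    (hqm : ∀ z : D2, ‖(z : ℂ)‖ = 1 → (qm z : ℂ) = (z : ℂ) ^ 2)
    (hFp : F.comp σp = σp.comp qp) (hFm : F.comp σm = σm.comp qm) :
    Hmap F 2 (cls (hemi σp σm) (bd_hemi σp σm hσ))
      = (2 : ℝ) • cls (hemi σp σm) (bd_hemi σp σm hσ) := by
  have h0 : bd X 1 ((2 : ℝ) • hemi σp σm) = 0 := by
    rw [map_smul, bd_hemi σp σm hσ, smul_zero]
  rw [map_cls, ← cls_smul (2 : ℝ) (hemi σp σm) (bd_hemi σp σm hσ)]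
  exact (cls_eq_iff _ _ _ _).2 (double_hemi F σp σm qp qm hσ hqp hqm hFp hFm)

end

end Crest.Agent.R123.Hom
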