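import Crest.Agent.R123.HBary

/-! Row 123: the label cocycle; the glued class is not zero. -/

set_option autoImplicit false

open CategoryTheory

namespace Crest.Agent.R123.Hom

noncomputable section

/-- 1-cochain on labels -/
def c1 (a b : Fin 4) : ℤ :=
  if a = 0 ∧ b = 1 then 1 else if a = 1 ∧ b = 0 then -1 else
  if a = 1 ∧ b = 2 then 1 else if a = 2 ∧ b = 1 then -1 else
  if a = 2 ∧ b = 0 then 1 else if a = 0 ∧ b = 2 then -1 else 0

/-- 2-cochain on labels -/
def c2 (a b c : Fin 4) : ℤ :=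
  if a ≠ 3 ∧ b ≠ 3 ∧ c ≠ 3 then c1 b c - c1 a c + c1 a b else 0

theorem c2_ne {a b c : Fin 4} (h : c2 a b c ≠ 0) :
    (a = 0 ∨ b = 0 ∨ c = 0) ∧ (a = 1 ∨ b = 1 ∨ c = 1) ∧ (a = 2 ∨ b = 2 ∨ c = 2) := by
  revert a b c; decide

theorem c2_cocycle {a b c d : Fin 4} (h : c2 b c d - (c2 a c d - (c2 a b d - c2 a b c)) ≠ 0) :
    (a = 0 ∨ b = 0 ∨ c = 0 ∨ d = 0) ∧ (a = 1 ∨ b = 1 ∨ c = 1 ∨ d = 1) ∧
      (a = 2 ∨ b = 2 ∨ c = 2 ∨ d = 2) ∧ (a = 3 ∨ b = 3 ∨ c = 3 ∨ d = 3) := by
  revert a b c d; decide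

/-- list versions -/
def C1 : List (Fin 4) → ℝ
  | [a, b] => (c1 a b : ℝ)
  | _ => 0

/-- list versions -/
def C2 : List (Fin 4) → ℝ
  | [a, b, c] => (c2 a b c : ℝ)
  | _ => 0

variable {X : Type} [TopologicalSpace X]

open scoped Classical in
/-- the label of a point -/
def lab (x y h : X → ℝ) (p : X) : Fin 4 :=
  if h p < -1 / 2 then 3 else if x p ≤ 0 then 1 else if 0 ≤ y p then 0 else 2

/-- vertices of the standard simplex -/
abbrev vx (n : ℕ) (i : Fin (n + 1)) : Dn n := stdSimplex.vertex i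

/-- the value of the label cochain on the `m`-fold subdivision of a simplex -/
def om (L : X → Fin 4) (m : ℕ) (σ : C(Dn 2, X)) : ℝ :=
  (SdD 2)^[m] (fun l => C2 (l.map fun p => L (σ p))) [vx 2 0, vx 2 1, vx 2 2]

theorem face_vx {n : ℕ} (i : Fin (n + 2)) (j : Fin (n + 1)) :
    face n i (vx n j) = vx (n + 1) (i.succAbove j) :=
  stdSimplex.map_vertex _ _

theorem om_face (L : X → Fin 4) (m : ℕ) (τ : C(Dn 3, X)) (i : Fin 4) :
    om L m (τ.comp (face 2 i)) = (SdD 3)^[m] (fun l => C2 (l.map fun p => L (τ p)))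
      [vx 3 (i.succAbove 0), vx 3 (i.succAbove 1), vx 3 (i.succAbove 2)] := by
  have h := iterate_SdD_face m i (fun l => C2 (l.map fun p => L (τ p))) [vx 2 0, vx 2 1, vx 2 2]
  simp only [List.map_cons, List.map_nil, face_vx, List.map_map] at h
  rw [h]
  rfl

theorem om_bd (L : X → Fin 4) (m : ℕ) (τ : C(Dn 3, X)) :
    ∑ i : Fin 4, (-1 : ℤ) ^ (i : ℕ) • om L m (τ.comp (face 2 i))
      = (SdD 3)^[m] (B (fun l => C2 (l.map fun p => L (τ p)))) [vx 3 0, vx 3 1, vx 3 2, vx 3 3] := by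
  rw [iterate_Sd_B]
  simp only [om_face, Fin.sum_univ_four, B]
  simp [Fin.succAbove, Fin.lt_def]
  ring

theorem iterate_SdD_zero {n : ℕ} (m : ℕ) (l : List (Dn n)) : (SdD n)^[m] (fun _ => 0) l = 0 := by
  have h : SdD n (fun _ => 0) = fun _ => 0 := by
    funext l
    show E bary l.length (fun _ => 0) l = 0
    have : ∀ (k : ℕ) (l : List (Dn n)), E bary k (fun _ => (0 : ℝ)) l = 0 := by
      intro k
      induction k with
      | zero => intro l; rfl
      | succ k ih =>
        intro l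
        show B (E bary k (fun _ => 0)) l = 0
        rw [show E bary k (fun _ : List (Dn n) => (0 : ℝ)) = fun _ => 0 from funext ih]
        exact B_zero l
    exact this _ _
  have h2 : (SdD n)^[m] (fun _ => 0) = fun _ => 0 := by
    induction m with
    | zero => rfl
    | succ m ih => rw [Function.iterate_succ_apply, h, ih]
  rw [h2]

/-- the geometric hypotheses on the coordinate functions -/
structure Coords (x y h : C(X, ℝ)) : Prop where
  nondeg : ∀ p, -1 / 2 ≤ h p → h p ≤ 0 → 1 / 4 ≤ x p ^ 2 + y p ^ 2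

theorem lab_zero {x y h : X → ℝ} {p : X} (hp : lab x y h p = 0) :
    -1 / 2 ≤ h p ∧ 0 < x p ∧ 0 ≤ y p := by
  unfold lab at hp
  split_ifs at hp with h1 h2 h3
  · exact absurd hp (by decide)
  · exact absurd hp (by decide)
  · exact ⟨not_lt.1 h1, not_le.1 h2, h3⟩
  · exact absurd hp (by decide)

theorem lab_one {x y h : X → ℝ} {p : X} (hp : lab x y h p = 1) : x p ≤ 0 := by
  unfold lab at hp
  split_ifs at hp with h1 h2 h3
  · exact absurd hp (by decide)
  · exact h2
  · exact absurd hp (by decide)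
  · exact absurd hp (by decide)

theorem lab_two {x y h : X → ℝ} {p : X} (hp : lab x y h p = 2) : y p < 0 := by
  unfold lab at hp
  split_ifs at hp with h1 h2 h3
  · exact absurd hp (by decide)
  · exact absurd hp (by decide)
  · exact absurd hp (by decide)
  · exact not_le.1 h3

theorem lab_three {x y h : X → ℝ} {p : X} (hp : lab x y h p = 3) : h p < -1 / 2 := by
  unfold lab at hp
  split_ifs at hp with h1 h2 h3
  · exact h1
  · exact absurd hp (by decide)
  · exact absurd hp (by decide)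
  · exact absurd hp (by decide)

theorem lab_ne_three {x y h : X → ℝ} {p : X} (hp : -1 / 2 ≤ h p) : lab x y h p ≠ 3 := by
  intro h3
  have := lab_three h3
  linarith

theorem no_three {x y h : C(X, ℝ)} (hc : Coords x y h) {p0 p1 p2 : X}
    (h0 : lab x y h p0 = 0) (h1 : lab x y h p1 = 1) (h2 : lab x y h p2 = 2)
    (hx : |x p0 - x p1| < 1 / 4) (hy : |y p0 - y p2| < 1 / 4) (hh : h p0 ≤ 0) : False := by
  obtain ⟨a1, a2, a3⟩ := lab_zero h0
  have b1 := lab_one h1
  have c1 := lab_two h2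
  have := hc.nondeg p0 a1 hh
  rw [abs_lt] at hx hy
  nlinarith

theorem exists_small {n : ℕ} (σ : C(Dn n, X)) (x y h : C(X, ℝ)) :
    ∃ ε > 0, ∀ p q : Dn n, dist p q ≤ ε → |x (σ p) - x (σ q)| < 1 / 4 ∧
      |y (σ p) - y (σ q)| < 1 / 4 ∧ |h (σ p) - h (σ q)| < 1 / 4 := by
  have key : ∀ u : C(X, ℝ), ∃ ε > 0, ∀ p q : Dn n, dist p q < ε →
      |u (σ p) - u (σ q)| < 1 / 4 := by
    intro u
    have hu : UniformContinuous (fun p : Dn n => u (σ p)) :=
      CompactSpace.uniformContinuous_of_continuous (by fun_prop)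
    obtain ⟨ε, hε, H⟩ := Metric.uniformContinuous_iff.1 hu (1 / 4) (by norm_num)
    exact ⟨ε, hε, fun p q hpq => H hpq⟩
  obtain ⟨e1, he1, H1⟩ := key x
  obtain ⟨e2, he2, H2⟩ := key y
  obtain ⟨e3, he3, H3⟩ := key h
  refine ⟨min e1 (min e2 e3) / 2, by positivity, fun p q hpq => ?_⟩
  have hm : 0 < min e1 (min e2 e3) := by positivity
  have hlt : dist p q < min e1 (min e2 e3) := by linarith
  exact ⟨H1 p q (hlt.trans_le (min_le_left _ _)),
    H2 p q (hlt.trans_le ((min_le_right _ _).trans (min_le_left _ _))),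
    H3 p q (hlt.trans_le ((min_le_right _ _).trans (min_le_right _ _)))⟩

theorem list_three {T : Type*} {l : List T} (hl : l.length = 3) : ∃ a b c, l = [a, b, c] := by
  match l, hl with
  | [a, b, c], _ => exact ⟨a, b, c, rfl⟩

theorem list_four {T : Type*} {l : List T} (hl : l.length = 4) : ∃ a b c d, l = [a, b, c, d] := by
  match l, hl with
  | [a, b, c, d], _ => exact ⟨a, b, c, d, rfl⟩

theorem list_two {T : Type*} {l : List T} (hl : l.length = 2) : ∃ a b, l = [a, b] := by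
  match l, hl with
  | [a, b], _ => exact ⟨a, b, rfl⟩

/-- the label cochain is closed in the limit -/
theorem om_bd_eventually {x y h : C(X, ℝ)} (hc : Coords x y h) (τ : C(Dn 3, X)) :
    ∀ᶠ m : ℕ in Filter.atTop,
      ∑ i : Fin 4, (-1 : ℤ) ^ (i : ℕ) • om (lab x y h) m (τ.comp (face 2 i)) = 0 := by
  obtain ⟨ε, hε, H⟩ := exists_small τ x y h
  have h1 := eventually_SdD (B (fun l => C2 (l.map fun p => lab x y h (τ p)))) (fun _ => 0)
    [vx 3 0, vx 3 1, vx 3 2, vx 3 3] (by simp) ε hε (by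
      intro l hl hs
      obtain ⟨a, b, c, d, rfl⟩ := list_four (by simpa using hl)
      by_contra hne
      have hval : B (fun l => C2 (l.map fun p => lab x y h (τ p))) [a, b, c, d]
          = ((c2 (lab x y h (τ b)) (lab x y h (τ c)) (lab x y h (τ d))
            - (c2 (lab x y h (τ a)) (lab x y h (τ c)) (lab x y h (τ d))
            - (c2 (lab x y h (τ a)) (lab x y h (τ b)) (lab x y h (τ d))
            - c2 (lab x y h (τ a)) (lab x y h (τ b)) (lab x y h (τ c)))) : ℤ) : ℝ) := by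
        simp [B, C2]
      rw [hval] at hne
      have hne' := (c2_cocycle (Int.cast_ne_zero.1 hne))
      obtain ⟨g0, g1, g2, g3⟩ := hne'
      have f0 : ∃ p ∈ [a, b, c, d], lab x y h (τ p) = 0 := by simpa using g0
      have f1 : ∃ p ∈ [a, b, c, d], lab x y h (τ p) = 1 := by simpa using g1
      have f2 : ∃ p ∈ [a, b, c, d], lab x y h (τ p) = 2 := by simpa using g2
      have f3 : ∃ p ∈ [a, b, c, d], lab x y h (τ p) = 3 := by simpa using g3
      obtain ⟨p0, m0, q0⟩ := f0
      obtain ⟨p1, m1, q1⟩ := f1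
      obtain ⟨p2, m2, q2⟩ := f2
      obtain ⟨p3, m3, q3⟩ := f3
      have r1 := (H p0 p1 (hs p0 m0 p1 m1)).1
      have r2 := (H p0 p2 (hs p0 m0 p2 m2)).2.1
      have r3 := (H p0 p3 (hs p0 m0 p3 m3)).2.2
      have r4 := lab_three q3
      rw [abs_lt] at r3
      exact no_three hc q0 q1 q2 r1 r2 (by linarith))
  filter_upwards [h1] with m hm
  rw [om_bd, hm, iterate_SdD_zero]

/-- the functional with values in sequences -/
def Om (L : X → Fin 4) : (SC X).X 2 →ₗ[ℝ] (ℕ → ℝ) := liftC (fun σ m => om L m σ)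

/-- eventually vanishing sequences -/
def Nev : Submodule ℝ (ℕ → ℝ) where
  carrier := {f | ∀ᶠ m : ℕ in Filter.atTop, f m = 0}
  add_mem' := by
    intro f g hf hg
    filter_upwards [hf, hg] with m h1 h2
    simp [h1, h2]
  zero_mem' := Filter.Eventually.of_forall fun _ => rfl
  smul_mem' := by
    intro r f hf
    filter_upwards [hf] with m h1
    simp [h1]

theorem Om_bd {x y h : C(X, ℝ)} (hc : Coords x y h) (z : (SC X).X 3) :
    Om (lab x y h) (bd X 2 z) ∈ Nev := by
  rw [← Submodule.Quotient.mk_eq_zero]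
  have h1 : (Nev.mkQ.comp (Om (lab x y h))).comp (bd X 2) = 0 := by
    apply chain_ext
    intro τ
    rw [LinearMap.comp_apply, LinearMap.comp_apply, Submodule.mkQ_apply, LinearMap.zero_apply,
      Submodule.Quotient.mk_eq_zero, bd_sgl, map_sum]
    have h2 : ∑ i : Fin (2 + 2), Om (lab x y h) ((-1 : ℤ) ^ (i : ℕ) • sgl (τ.comp (face 2 i)))
        = fun m => ∑ i : Fin 4, (-1 : ℤ) ^ (i : ℕ) • om (lab x y h) m (τ.comp (face 2 i)) := by
      funext m
      rw [Finset.sum_apply]
      refine Finset.sum_congr rfl fun i _ => ?_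
      rw [map_zsmul]
      unfold Om
      rw [liftC_sgl]
      rfl
    rw [h2]
    exact om_bd_eventually hc τ
  exact congrArg (fun φ => φ z) h1

end

end Crest.Agent.R123.Hom
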