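import Crest.Agent.R123.HLabel

/-! Row 123: the glued class is not zero; eigenvalue 2 on `H_2`. -/

set_option autoImplicit false

open CategoryTheory

namespace Crest.Agent.R123.Hom

noncomputable section

variable {X : Type} [TopologicalSpace X]

/-- on the lower disc the label cochain is eventually zero -/
theorem om_lower {x y h : C(X, ℝ)} (hc : Coords x y h) (σ : C(Dn 2, X))
    (hσ : ∀ p, h (σ p) ≤ 0) : ∀ᶠ m : ℕ in Filter.atTop, om (lab x y h) m σ = 0 := by
  obtain ⟨ε, hε, H⟩ := exists_small σ x y h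
  have h1 := eventually_SdD (fun l => C2 (l.map fun p => lab x y h (σ p))) (fun _ => 0)
    [vx 2 0, vx 2 1, vx 2 2] (by simp) ε hε (by
      intro l hl hs
      obtain ⟨a, b, c, rfl⟩ := list_three (by simpa using hl)
      by_contra hne
      have hval : C2 ([a, b, c].map fun p => lab x y h (σ p))
          = (c2 (lab x y h (σ a)) (lab x y h (σ b)) (lab x y h (σ c)) : ℝ) := by
        simp [C2]
      rw [hval] at hne
      obtain ⟨g0, g1, g2⟩ := c2_ne (Int.cast_ne_zero.1 hne)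
      have f0 : ∃ p ∈ [a, b, c], lab x y h (σ p) = 0 := by simpa using g0
      have f1 : ∃ p ∈ [a, b, c], lab x y h (σ p) = 1 := by simpa using g1
      have f2 : ∃ p ∈ [a, b, c], lab x y h (σ p) = 2 := by simpa using g2
      obtain ⟨p0, m0, q0⟩ := f0
      obtain ⟨p1, m1, q1⟩ := f1
      obtain ⟨p2, m2, q2⟩ := f2
      have r1 := (H p0 p1 (hs p0 m0 p1 m1)).1
      have r2 := (H p0 p2 (hs p0 m0 p2 m2)).2.1
      exact no_three hc q0 q1 q2 r1 r2 (hσ p0))
  filter_upwards [h1] with m hm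
  show (SdD 2)^[m] _ _ = 0
  rw [hm, iterate_SdD_zero]

/-- the value of the 1-cochain on the subdivided edge -/
def om1 (L : X → Fin 4) (m : ℕ) (σ : C(Dn 1, X)) : ℝ :=
  (SdD 1)^[m] (fun l => C1 (l.map fun p => L (σ p))) [vx 1 0, vx 1 1]

theorem om_upper (L : X → Fin 4) (σ : C(Dn 2, X)) (hσ : ∀ p, L (σ p) ≠ 3) (m : ℕ) :
    om L m σ = om1 L m (σ.comp (face 1 0)) - om1 L m (σ.comp (face 1 1))
      + om1 L m (σ.comp (face 1 2)) := by
  have h1 : om L m σ = (SdD 2)^[m] (B (fun l => C1 (l.map fun p => L (σ p))))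
      [vx 2 0, vx 2 1, vx 2 2] := by
    unfold om
    apply iterate_Sd_congr (baryProp 2) m _ _ _ (by simp) 1 zero_le_one
      (fun x _ y _ => dist_Dn_le_one x y)
    intro l hl _
    obtain ⟨a, b, c, rfl⟩ := list_three (by simpa using hl)
    simp [B, C1, C2, c2, hσ]
    ring
  have h2 : ∀ i : Fin 3, om1 L m (σ.comp (face 1 i))
      = (SdD 2)^[m] (fun l => C1 (l.map fun p => L (σ p)))
        [vx 2 (i.succAbove 0), vx 2 (i.succAbove 1)] := by
    intro i
    have h := iterate_SdD_face m i (fun l => C1 (l.map fun p => L (σ p))) [vx 1 0, vx 1 1]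
    simp only [List.map_cons, List.map_nil, face_vx, List.map_map] at h
    rw [h]
    rfl
  rw [h1, iterate_Sd_B, h2, h2, h2]
  simp [B, Fin.succAbove, Fin.lt_def]
  ring

/-- the lifted label -/
def FF (t : ℝ) : ℝ := if t < 1 / 4 then 0 else if t ≤ 3 / 4 then 1 else if t < 1 then 2 else 3

/-- the label of a point of the circle -/
def lt (t : ℝ) : Fin 4 :=
  if Real.cos (2 * Real.pi * t) ≤ 0 then 1 else if 0 ≤ Real.sin (2 * Real.pi * t) then 0 else 2

theorem lt_eq {t : ℝ} (h0 : 0 ≤ t) (h1 : t ≤ 1) :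
    lt t = if t < 1 / 4 then 0 else if t ≤ 3 / 4 then 1 else if t < 1 then 2 else 0 := by
  have hpi := Real.pi_pos
  unfold lt
  by_cases a1 : t < 1 / 4
  · have hc : 0 < Real.cos (2 * Real.pi * t) := Real.cos_pos_of_mem_Ioo ⟨by nlinarith, by nlinarith⟩
    have hs : 0 ≤ Real.sin (2 * Real.pi * t) := Real.sin_nonneg_of_nonneg_of_le_pi (by positivity)
      (by nlinarith)
    rw [if_neg (not_le.2 hc), if_pos hs, if_pos a1]
  · rw [if_neg a1]
    by_cases a2 : t ≤ 3 / 4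
    · have hc : Real.cos (2 * Real.pi * t) ≤ 0 :=
        Real.cos_nonpos_of_pi_div_two_le_of_le (by nlinarith) (by nlinarith)
      rw [if_pos hc, if_pos a2]
    · rw [if_neg a2]
      have hc : 0 < Real.cos (2 * Real.pi * t) := by
        rw [← Real.cos_sub_two_pi]
        exact Real.cos_pos_of_mem_Ioo ⟨by nlinarith, by nlinarith⟩
      rw [if_neg (not_le.2 hc)]
      by_cases a3 : t < 1
      · have hs : Real.sin (2 * Real.pi * t) < 0 := by
          rw [← Real.sin_sub_two_pi]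
          exact Real.sin_neg_of_neg_of_neg_pi_lt (by nlinarith) (by nlinarith)
        rw [if_neg (not_le.2 hs), if_pos a3]
      · have : t = 1 := le_antisymm h1 (not_lt.1 a3)
        subst this
        rw [mul_one, Real.sin_two_pi, if_pos le_rfl, if_neg a3]

theorem c1_lt {u v : ℝ} (hu0 : 0 ≤ u) (hu1 : u ≤ 1) (hv0 : 0 ≤ v) (hv1 : v ≤ 1)
    (huv : |u - v| ≤ 1 / 8) : (c1 (lt u) (lt v) : ℝ) = FF v - FF u := by
  rw [lt_eq hu0 hu1, lt_eq hv0 hv1]
  rw [abs_le] at huv
  unfold FF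
  split_ifs <;> first | (exfalso; linarith) | (simp [c1]; done) | (simp [c1]; norm_num)

/-- evaluation on the loop -/
theorem om1_loop (L : X → Fin 4) (σ : C(Dn 1, X)) (hσ : ∀ s : Dn 1, L (σ s) = lt (s 1)) :
    ∀ᶠ m : ℕ in Filter.atTop, om1 L m σ = 3 := by
  have h1 := eventually_SdD (fun l => C1 (l.map fun p => L (σ p)))
    (B (fun l : List (Dn 1) => match l with
      | [s] => FF (s 1)
      | _ => 0)) [vx 1 0, vx 1 1] (by simp) (1 / 8) (by norm_num) (by
      intro l hl hs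
      obtain ⟨a, b, rfl⟩ := list_two (by simpa using hl)
      have hd : |a 1 - b 1| ≤ 1 / 8 :=
        (dist_Dn_le a b (1 / 8) (by norm_num)).1 (hs a (by simp) b (by simp)) 1
      have := c1_lt (stdSimplex.zero_le a 1) (stdSimplex.le_one a 1) (stdSimplex.zero_le b 1)
        (stdSimplex.le_one b 1) hd
      simp only [List.map_cons, List.map_nil, C1, hσ, B]
      rw [this]
      ring)
  filter_upwards [h1] with m hm
  unfold om1
  rw [hm, iterate_Sd_B]
  simp only [B]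
  rw [iterate_SdD_single, iterate_SdD_single]
  simp [FF]
  norm_num

/-- the glued class is not a boundary -/
theorem hemi_ne {x y h : C(X, ℝ)} (hc : Coords x y h) (σp σm : C(D2, X))
    (hx : ∀ t : ℝ, x (σp (circ t)) = Real.cos (2 * Real.pi * t))
    (hy : ∀ t : ℝ, y (σp (circ t)) = Real.sin (2 * Real.pi * t))
    (hp : ∀ z, 0 ≤ h (σp z)) (hm : ∀ z, h (σm z) ≤ 0) (z : (SC X).X 3) :
    bd X 2 z ≠ hemi σp σm := by
  intro hz
  have h1 := Om_bd hc z
  rw [hz] at h1
  have h2 : ∀ᶠ m : ℕ in Filter.atTop, Om (lab x y h) (hemi σp σm) m = 0 := h1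
  have h3 : ∀ m : ℕ, Om (lab x y h) (hemi σp σm) m
      = om (lab x y h) m (σp.comp kap) - om (lab x y h) m (σm.comp kap) := by
    intro m
    unfold hemi Om
    rw [map_sub, liftC_sgl, liftC_sgl]
    rfl
  have h4 := om_lower hc (σm.comp kap) (fun p => hm _)
  have h5 : ∀ᶠ m : ℕ in Filter.atTop, om (lab x y h) m (σp.comp kap) = 3 := by
    have h6 := om1_loop (lab x y h) (σp.comp gam1) (by
      intro s
      have hh := hp (circ (s 1))
      show lab x y h (σp (circ (s 1))) = lt (s 1)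
      unfold lab lt
      rw [if_neg (by linarith), hx, hy])
    filter_upwards [h6] with m hm6
    rw [om_upper (lab x y h) (σp.comp kap) (fun p => lab_ne_three (by
      have := hp (kap p)
      show -1 / 2 ≤ h (σp (kap p))
      linarith)) m]
    rw [ContinuousMap.comp_assoc, ContinuousMap.comp_assoc, ContinuousMap.comp_assoc, kap_face0,
      kap_face2, hm6]
    show 3 - om1 _ m (σp.comp mer) + om1 _ m (σp.comp mer) = 3
    ring
  obtain ⟨m, a, b, c⟩ := (h2.and (h4.and h5)).exists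
  rw [h3, b, c] at a
  norm_num at a

theorem cls_hemi_ne {x y h : C(X, ℝ)} (hc : Coords x y h) (σp σm : C(D2, X))
    (hσ : ∀ z : D2, ‖(z : ℂ)‖ = 1 → σp z = σm z)
    (hx : ∀ t : ℝ, x (σp (circ t)) = Real.cos (2 * Real.pi * t))
    (hy : ∀ t : ℝ, y (σp (circ t)) = Real.sin (2 * Real.pi * t))
    (hp : ∀ z, 0 ≤ h (σp z)) (hm : ∀ z, h (σm z) ≤ 0) :
    cls (hemi σp σm) (bd_hemi σp σm hσ) ≠ 0 := by
  rw [Ne, cls_eq_zero_iff]
  rintro ⟨z, hz⟩
  exact hemi_ne hc σp σm hx hy hp hm z hz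

/-- the general eigenvalue theorem -/
theorem eigen2 (F : C(X, X)) (σp σm : C(D2, X)) (qp qm : C(D2, D2))
    (hσ : ∀ z : D2, ‖(z : ℂ)‖ = 1 → σp z = σm z)
    (hqp : ∀ z : D2, ‖(z : ℂ)‖ = 1 → (qp z : ℂ) = (z : ℂ) ^ 2)
    (hqm : ∀ z : D2, ‖(z : ℂ)‖ = 1 → (qm z : ℂ) = (z : ℂ) ^ 2)
    (hFp : F.comp σp = σp.comp qp) (hFm : F.comp σm = σm.comp qm)
    {x y h : C(X, ℝ)} (hc : Coords x y h)
    (hx : ∀ t : ℝ, x (σp (circ t)) = Real.cos (2 * Real.pi * t))
    (hy : ∀ t : ℝ, y (σp (circ t)) = Real.sin (2 * Real.pi * t))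
    (hp : ∀ z, 0 ≤ h (σp z)) (hm : ∀ z, h (σm z) ≤ 0) :
    Module.End.HasEigenvalue
      (((AlgebraicTopology.singularHomologyFunctor (ModuleCat.{0} ℝ) 2).obj
        (ModuleCat.of ℝ ℝ)).map (TopCat.ofHom F)).hom (2 : ℝ) := by
  have h1 := Hmap_hemi F σp σm qp qm hσ hqp hqm hFp hFm
  have h2 := cls_hemi_ne hc σp σm hσ hx hy hp hm
  apply Module.End.hasEigenvalue_of_hasEigenvector (x := cls (hemi σp σm) (bd_hemi σp σm hσ))
  exact ⟨Module.End.mem_eigenspace_iff.2 h1, h2⟩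

end

end Crest.Agent.R123.Hom
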