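/-
R123 / S0163, task HOPF-A : lifts to the tautological line bundle over S², continuous logs.
-/
import Crest.Agent.R123.Cone

set_option autoImplicit false

noncomputable section

namespace Crest.Agent.R123

/-- projector onto the tautological line over `y ∈ S²`:
`½ [[1+h, ζ],[conj ζ, 1-h]]` -/
def proj (y : S2) (ξ : ℂ × ℂ) : ℂ × ℂ :=
  ((((1 + he y : ℝ) : ℂ) * ξ.1 + ze y * ξ.2) / 2,
   ((starRingEnd ℂ) (ze y) * ξ.1 + ((1 - he y : ℝ) : ℂ) * ξ.2) / 2)

/-- `ξ` is a lift of `s : K → S²` : a nonvanishing section of the pulled back line bundle -/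
def IsLift {K : Type} [TopologicalSpace K] (s : C(K, S2)) (ξ : C(K, ℂ × ℂ)) : Prop :=
  ∀ x, ξ x ≠ 0 ∧ proj (s x) (ξ x) = ξ x

/-! ### a homotopy principle -/

/-- If `K` is contractible and `P` is a property of maps `K → M` which holds for constant maps
and which is locally constant along homotopies, then it holds for all maps. -/
theorem homotopy_principle {K : Type} [TopologicalSpace K] [CompactSpace K] [ContractibleSpace K]
    {M : Type*} [PseudoMetricSpace M] (P : C(K, M) → Prop) (s : C(K, M))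
    (hconst : ∀ x : K, P (ContinuousMap.const K (s x)))
    (hloc : ∀ Γ : C(unitInterval, C(K, M)), (∀ t x, Γ t x ∈ Set.range s) →
      ∀ t, ∀ᶠ t' in nhds t, P (Γ t') ↔ P (Γ t)) : P s := by
  obtain ⟨y, ⟨H⟩⟩ := id_nullhomotopic K
  let H' : C(unitInterval × K, M) := s.comp H.toContinuousMap
  let Γ : C(unitInterval, C(K, M)) := H'.curry
  have hΓ : ∀ t x, Γ t x = s (H (t, x)) := fun t x => rfl
  have h0 : Γ 0 = s := by
    ext x
    rw [hΓ, H.apply_zero]
    rfl
  have h1 : Γ 1 = ContinuousMap.const K (s y) := by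
    ext x
    rw [hΓ, H.apply_one]
    rfl
  have hlc : IsLocallyConstant (fun t : unitInterval => P (Γ t)) := by
    rw [IsLocallyConstant.iff_eventually_eq]
    intro t
    filter_upwards [hloc Γ (fun t x => ⟨_, (hΓ t x).symm⟩) t] with t' ht'
    exact propext ht'
  have := hlc.apply_eq_of_preconnectedSpace 0 1
  simp only [h0, h1] at this
  rw [this]
  exact hconst y

/-! ### logarithms -/

theorem log_step {K : Type} [TopologicalSpace K] (g g' : C(K, ℂ))
    (hg : ∀ x, g x ≠ 0) (hgg' : ∀ x, ‖g' x - g x‖ < ‖g x‖)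
    (h : ∃ l : C(K, ℂ), ∀ x, Complex.exp (l x) = g x) :
    ∃ l : C(K, ℂ), ∀ x, Complex.exp (l x) = g' x := by
  obtain ⟨l, hl⟩ := h
  have hslit : ∀ x, g' x / g x ∈ Complex.slitPlane := by
    intro x
    have h1 : g' x / g x = 1 + (g' x - g x) / g x := by
      field_simp [hg x]
      ring
    rw [h1]
    apply Complex.mem_slitPlane_of_norm_lt_one
    rw [norm_div, div_lt_one (norm_pos_iff.2 (hg x))]
    exact hgg' x
  refine ⟨⟨fun x => l x + Complex.log (g' x / g x), ?_⟩, ?_⟩
  · refine l.continuous.add (Continuous.clog ?_ hslit)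
    exact g'.continuous.div g.continuous hg
  · intro x
    show Complex.exp (l x + Complex.log (g' x / g x)) = g' x
    rw [Complex.exp_add, Complex.exp_log, hl x]
    · field_simp [hg x]
    · exact Complex.slitPlane_ne_zero (hslit x)

theorem exists_log {K : Type} [TopologicalSpace K] [CompactSpace K] [ContractibleSpace K]
    (r : C(K, ℂ)) (hr : ∀ x, r x ≠ 0) : ∃ l : C(K, ℂ), ∀ x, Complex.exp (l x) = r x := by
  have hne : Nonempty K := inferInstance
  refine homotopy_principle (fun g => ∃ l : C(K, ℂ), ∀ x, Complex.exp (l x) = g x) r ?_ ?_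
  · intro y
    exact ⟨ContinuousMap.const K (Complex.log (r y)), fun x => Complex.exp_log (hr y)⟩
  · intro Γ hΓ t
    have hnz : ∀ t x, Γ t x ≠ 0 := by
      intro t x
      obtain ⟨y, hy⟩ := hΓ t x
      rw [← hy]
      exact hr y
    obtain ⟨x₀, -, hx₀⟩ := isCompact_univ.exists_isMinOn (Set.univ_nonempty (α := K))
      ((Γ t).continuous.norm.continuousOn)
    set m : ℝ := ‖Γ t x₀‖ with hm
    have hmpos : 0 < m := norm_pos_iff.2 (hnz t x₀)
    have hmle : ∀ x, m ≤ ‖Γ t x‖ := fun x => hx₀ (Set.mem_univ x)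
    have hcont : Filter.Tendsto Γ (nhds t) (nhds (Γ t)) := Γ.continuous.tendsto t
    have hball := hcont.eventually (Metric.ball_mem_nhds (Γ t) (half_pos hmpos))
    filter_upwards [hball] with t' ht'
    have hd : ∀ x, ‖Γ t' x - Γ t x‖ < m / 2 := by
      intro x
      have h1 : dist (Γ t' x) (Γ t x) ≤ dist (Γ t') (Γ t) :=
        ContinuousMap.dist_apply_le_dist x
      rw [← dist_eq_norm]
      exact lt_of_le_of_lt h1 ht'
    constructor
    · intro h
      refine log_step (Γ t') (Γ t) (hnz t') ?_ h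
      intro x
      have h1 := hd x
      have h2 := hmle x
      have h3 : ‖Γ t x‖ ≤ ‖Γ t' x‖ + ‖Γ t' x - Γ t x‖ := by
        have := norm_sub_le (Γ t' x) (Γ t' x - Γ t x)
        simpa using this
      rw [norm_sub_rev]
      linarith
    · intro h
      refine log_step (Γ t) (Γ t') (hnz t) ?_ h
      intro x
      have h1 := hd x
      have h2 := hmle x
      linarith

/-! ### lifts to the line bundle -/

lemma he_ze_sq (y : S2) : ((he y : ℝ) : ℂ) ^ 2 + ze y * (starRingEnd ℂ) (ze y) = 1 := by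
  have h := ze_he y
  rw [Complex.mul_conj, Complex.normSq_eq_norm_sq]
  have h2 : he y ^ 2 + ‖ze y‖ ^ 2 = 1 := by linarith
  exact_mod_cast h2

lemma proj_proj (y : S2) (ξ : ℂ × ℂ) : proj y (proj y ξ) = proj y ξ := by
  have h := he_ze_sq y
  ext
  · simp only [proj]
    push_cast
    linear_combination (ξ.1 / 4) * h
  · simp only [proj]
    push_cast
    linear_combination (ξ.2 / 4) * h

lemma hopf_continuous_ze : Continuous (ze : S2 → ℂ) :=
  (WithLp.prod_continuous_ofLp 2 ℂ ℝ).fst.comp continuous_subtype_val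

lemma hopf_continuous_he : Continuous (he : S2 → ℝ) :=
  (WithLp.prod_continuous_ofLp 2 ℂ ℝ).snd.comp continuous_subtype_val

lemma dist_sq_S2 (y y' : S2) :
    dist y y' ^ 2 = 2 - 2 * (he y * he y' + ((starRingEnd ℂ) (ze y') * ze y).re) := by
  have h1 : dist y y' = dist (y : E3) (y' : E3) := rfl
  rw [h1, dist_eq_norm, WithLp.prod_norm_sq_eq_of_L2]
  have e1 : ((y : E3) - (y' : E3)).fst = ze y - ze y' := rfl
  have e2 : ((y : E3) - (y' : E3)).snd = he y - he y' := rfl
  rw [e1, e2, Real.norm_eq_abs, sq_abs]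
  have h2 := ze_he y
  have h3 := ze_he y'
  rw [← Complex.normSq_eq_norm_sq] at h2 h3 ⊢
  rw [Complex.normSq_apply] at h2 h3 ⊢
  simp only [Complex.sub_re, Complex.sub_im, Complex.mul_re, Complex.conj_re, Complex.conj_im]
  linarith

lemma exists_ne_zero_proj (y : S2) : ∃ ξ : ℂ × ℂ, ξ ≠ 0 ∧ proj y ξ = ξ := by
  by_cases hy : he y = -1
  · refine ⟨(0, 1), by simp, ?_⟩
    have hz : ze y = 0 := by
      have := ze_he y
      rw [hy] at this
      have h2 : ‖ze y‖ = 0 := by nlinarith [norm_nonneg (ze y)]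
      exact norm_eq_zero.1 h2
    ext
    · simp [proj, hz]
    · simp only [proj, hz, hy]
      norm_num
  · refine ⟨(((1 + he y : ℝ) : ℂ), (starRingEnd ℂ) (ze y)), ?_, ?_⟩
    · intro h
      have h1 := congrArg Prod.fst h
      simp only [Prod.fst_zero] at h1
      apply hy
      have : (1 + he y : ℝ) = 0 := by exact_mod_cast h1
      linarith
    · have h := he_ze_sq y
      ext
      · simp only [proj]
        push_cast
        linear_combination (1 / 2) * h
      · simp only [proj]
        push_cast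
        ring

lemma proj_ne_zero {y y' : S2} (hyy' : dist y y' < 2) {ξ : ℂ × ℂ} (hξ : ξ ≠ 0)
    (h : proj y ξ = ξ) : proj y' ξ ≠ 0 := by
  intro h'
  have a1 := congrArg Prod.fst h
  have a2 := congrArg Prod.snd h
  have b1 := congrArg Prod.fst h'
  have b2 := congrArg Prod.snd h'
  simp only [proj, Prod.fst_zero, Prod.snd_zero] at a1 a2 b1 b2
  set a := ξ.1 with ha
  set b := ξ.2 with hb
  set z := ze y with hz
  set z' := ze y' with hz'
  set p : ℝ := he y with hp
  set p' : ℝ := he y' with hp'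
  push_cast at a1 a2 b1 b2
  -- conjugated equations
  have a1c := congrArg (starRingEnd ℂ) a1
  have a2c := congrArg (starRingEnd ℂ) a2
  have b1c := congrArg (starRingEnd ℂ) b1
  have b2c := congrArg (starRingEnd ℂ) b2
  simp only [map_div₀, map_add, map_mul, map_sub, map_one, Complex.conj_conj, map_zero,
    Complex.conj_ofReal, map_ofNat] at a1c a2c b1c b2c
  set ac := (starRingEnd ℂ) a with hac
  set bc := (starRingEnd ℂ) b with hbc
  set zc := (starRingEnd ℂ) z with hzc
  set zc' := (starRingEnd ℂ) z' with hzc'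
  have hN : (a * ac + b * bc) * (1 + p * p' + (zc' * z + z' * zc) / 2) = 0 := by
    linear_combination 2 * ac * b1 + 2 * bc * b2 + p' * (2 * ac * a1 - 2 * b * a2c) +
      (zc' / 2) * (2 * bc * a1 + 2 * a * a2c) + (z' / 2) * (2 * b * a1c + 2 * ac * a2)
  have hNpos : a * ac + b * bc ≠ 0 := by
    rw [hac, hbc, Complex.mul_conj, Complex.mul_conj]
    intro h0
    have h1 : Complex.normSq a + Complex.normSq b = 0 := by exact_mod_cast h0
    have h2 := Complex.normSq_nonneg a
    have h3 := Complex.normSq_nonneg b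
    have h4 : a = 0 := Complex.normSq_eq_zero.1 (by linarith)
    have h5 : b = 0 := Complex.normSq_eq_zero.1 (by linarith)
    exact hξ (Prod.ext h4 h5)
  have h1 : (1 + p * p' + (zc' * z + z' * zc) / 2 : ℂ) = 0 :=
    (mul_eq_zero.1 hN).resolve_left hNpos
  have h2 : 1 + p * p' + (zc' * z).re = 0 := by
    have h3 := congrArg Complex.re h1
    have h4 : (z' * zc).re = (zc' * z).re := by
      rw [hzc, hzc']
      simp only [Complex.mul_re, Complex.conj_re, Complex.conj_im]
      ring
    simp only [Complex.add_re, Complex.one_re, Complex.zero_re, ← Complex.ofReal_mul,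
      Complex.ofReal_re, Complex.div_ofNat_re, h4] at h3
    linarith
  have h5 := dist_sq_S2 y y'
  have h6 : dist y y' ^ 2 = 4 := by
    rw [h5]
    simp only [← hz, ← hz', ← hp, ← hp']
    linarith
  nlinarith [dist_nonneg (x := y) (y := y')]

theorem exists_lift {K : Type} [TopologicalSpace K] [CompactSpace K] [ContractibleSpace K]
    (s : C(K, S2)) : ∃ ξ : C(K, ℂ × ℂ), IsLift s ξ := by
  refine homotopy_principle (fun g => ∃ ξ : C(K, ℂ × ℂ), IsLift g ξ) s ?_ ?_
  · intro y
    obtain ⟨ξ, h1, h2⟩ := exists_ne_zero_proj (s y)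
    exact ⟨ContinuousMap.const K ξ, fun x => ⟨h1, h2⟩⟩
  · intro Γ _ t
    have hcont : Filter.Tendsto Γ (nhds t) (nhds (Γ t)) := Γ.continuous.tendsto t
    have hball := hcont.eventually (Metric.ball_mem_nhds (Γ t) (zero_lt_two : (0 : ℝ) < 2))
    have hstep : ∀ g g' : C(K, S2), dist g g' < 2 → (∃ ξ : C(K, ℂ × ℂ), IsLift g ξ) →
        ∃ ξ : C(K, ℂ × ℂ), IsLift g' ξ := by
      rintro g g' hgg' ⟨ξ, hξ⟩
      refine ⟨⟨fun x => proj (g' x) (ξ x), ?_⟩, ?_⟩
      · unfold proj
        have h1 : Continuous fun x => ze (g' x) := hopf_continuous_ze.comp g'.continuous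
        have h2 : Continuous fun x => he (g' x) := hopf_continuous_he.comp g'.continuous
        have h3 := ξ.continuous
        fun_prop
      · intro x
        refine ⟨?_, proj_proj _ _⟩
        exact proj_ne_zero (lt_of_le_of_lt (ContinuousMap.dist_apply_le_dist x) hgg') (hξ x).1
          (hξ x).2
    filter_upwards [hball] with t' ht'
    exact ⟨hstep _ _ ht', hstep _ _ (by rw [dist_comm]; exact ht')⟩

end Crest.Agent.R123
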