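/-
R123 / S0163, task HOPF : a singular 2-cocycle on S² from the tautological line bundle.
-/
import Crest.Agent.R123.HopfLift

set_option autoImplicit false

noncomputable section

namespace Crest.Agent.R123

instance contractible_Dl (n : ℕ) : ContractibleSpace (Dl n) :=
  (convex_stdSimplex ℝ (Fin (n + 1))).contractibleSpace ⟨_, single_mem_stdSimplex ℝ 0⟩

/-! ### Hermitian products of lifts -/

/-- Hermitian product on `ℂ × ℂ` -/
def herm (ξ η : ℂ × ℂ) : ℂ := (starRingEnd ℂ) ξ.1 * η.1 + (starRingEnd ℂ) ξ.2 * η.2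

lemma herm_self (ξ : ℂ × ℂ) : herm ξ ξ = ((‖ξ.1‖ ^ 2 + ‖ξ.2‖ ^ 2 : ℝ) : ℂ) := by
  simp only [herm]
  rw [Complex.conj_mul', Complex.conj_mul']
  push_cast
  ring

lemma herm_self_pos {ξ : ℂ × ℂ} (h : ξ ≠ 0) : 0 < ‖ξ.1‖ ^ 2 + ‖ξ.2‖ ^ 2 := by
  by_contra hn
  have h1 : ‖ξ.1‖ ^ 2 = 0 := by nlinarith [sq_nonneg ‖ξ.1‖, sq_nonneg ‖ξ.2‖]
  have h2 : ‖ξ.2‖ ^ 2 = 0 := by nlinarith [sq_nonneg ‖ξ.1‖, sq_nonneg ‖ξ.2‖]
  apply h
  apply Prod.ext
  · simpa using h1
  · simpa using h2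

lemma herm_self_ne {ξ : ℂ × ℂ} (h : ξ ≠ 0) : herm ξ ξ ≠ 0 := by
  rw [herm_self]
  exact_mod_cast (herm_self_pos h).ne'

lemma herm_smul (ξ η : ℂ × ℂ) (μ : ℂ) : herm ξ (μ • η) = μ * herm ξ η := by
  simp only [herm, Prod.smul_fst, Prod.smul_snd, smul_eq_mul]
  ring

lemma proj_det {y : S2} {ξ η : ℂ × ℂ} (hξ : proj y ξ = ξ) (hη : proj y η = η) :
    ξ.1 * η.2 = ξ.2 * η.1 := by
  have a1 := congrArg Prod.fst hξ
  have a2 := congrArg Prod.snd hξ
  have b1 := congrArg Prod.fst hη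
  have b2 := congrArg Prod.snd hη
  simp only [proj] at a1 a2 b1 b2
  push_cast at a1 a2 b1 b2
  have e1 : (1 + (he y : ℂ)) * (ξ.1 * η.2 - ξ.2 * η.1) = 0 := by
    linear_combination -2 * ξ.1 * b2 + 2 * η.1 * a2
  have e2 : (1 - (he y : ℂ)) * (ξ.1 * η.2 - ξ.2 * η.1) = 0 := by
    linear_combination -2 * η.2 * a1 + 2 * ξ.2 * b1
  linear_combination (e1 + e2) / 2

lemma eq_smul {y : S2} {ξ η : ℂ × ℂ} (hξ0 : ξ ≠ 0) (hξ : proj y ξ = ξ) (hη : proj y η = η) :
    η = (herm ξ η / herm ξ ξ) • ξ := by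
  have hd := proj_det hξ hη
  have h0 := herm_self_ne hξ0
  apply Prod.ext
  · simp only [Prod.smul_fst, smul_eq_mul]
    rw [div_mul_eq_mul_div, eq_div_iff h0]
    simp only [herm]
    linear_combination (-(starRingEnd ℂ) ξ.2) * hd
  · simp only [Prod.smul_snd, smul_eq_mul]
    rw [div_mul_eq_mul_div, eq_div_iff h0]
    simp only [herm]
    linear_combination ((starRingEnd ℂ) ξ.1) * hd

lemma herm_ne {y : S2} {ξ η : ℂ × ℂ} (hξ0 : ξ ≠ 0) (hη0 : η ≠ 0) (hξ : proj y ξ = ξ)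
    (hη : proj y η = η) : herm ξ η ≠ 0 := by
  intro h
  apply hη0
  rw [eq_smul hξ0 hξ hη, h, zero_div, zero_smul]

section
variable {K : Type} [TopologicalSpace K]

/-- pointwise Hermitian product -/
def rr (ξ η : C(K, ℂ × ℂ)) : C(K, ℂ) :=
  ⟨fun x => herm (ξ x) (η x), by unfold herm; fun_prop⟩

@[simp] lemma rr_apply (ξ η : C(K, ℂ × ℂ)) (x : K) : rr ξ η x = herm (ξ x) (η x) := rfl

lemma rr_ne {s : C(K, S2)} {ξ η : C(K, ℂ × ℂ)} (hξ : IsLift s ξ) (hη : IsLift s η) (x : K) :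
    rr ξ η x ≠ 0 := herm_ne (hξ x).1 (hη x).1 (hξ x).2 (hη x).2

lemma IsLift.comp {K' : Type} [TopologicalSpace K'] {s : C(K, S2)} {ξ : C(K, ℂ × ℂ)}
    (h : IsLift s ξ) (g : C(K', K)) : IsLift (s.comp g) (ξ.comp g) := fun x => h (g x)

/-- the quotient of two lifts -/
lemma IsLift.exists_mul {s : C(K, S2)} {ξ η : C(K, ℂ × ℂ)} (hξ : IsLift s ξ) (hη : IsLift s η) :
    ∃ μ : C(K, ℂ), (∀ x, μ x ≠ 0) ∧ ∀ x, η x = μ x • ξ x := by
  refine ⟨⟨fun x => herm (ξ x) (η x) / herm (ξ x) (ξ x), ?_⟩, fun x => ?_, fun x => ?_⟩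
  · exact Continuous.div (rr ξ η).continuous (rr ξ ξ).continuous
      (fun x => herm_self_ne (hξ x).1)
  · exact div_ne_zero (rr_ne hξ hη x) (herm_self_ne (hξ x).1)
  · exact eq_smul (hξ x).1 (hξ x).2 (hη x).2

/-! ### logarithms -/

lemma log_unique [PreconnectedSpace K] (l l' : C(K, ℂ))
    (h : ∀ x, Complex.exp (l x) = Complex.exp (l' x)) (x y : K) : l x - l' x = l y - l' y := by
  have h1 : ∀ x, ∃ n : ℤ, l x = l' x + n * (2 * Real.pi * Complex.I) :=
    fun x => Complex.exp_eq_exp_iff_exists_int.1 (h x)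
  choose n hn using h1
  have hpi : (2 * (Real.pi : ℂ) * Complex.I) ≠ 0 := by
    simp [Real.pi_ne_zero, Complex.I_ne_zero]
  have hc : Continuous n := by
    rw [Int.isClosedEmbedding_coe_real.isEmbedding.continuous_iff]
    have : (fun x => ((n x : ℤ) : ℝ)) =
        fun x => ((l x - l' x) / (2 * (Real.pi : ℂ) * Complex.I)).re := by
      funext x
      rw [hn x, add_sub_cancel_left, mul_div_assoc, div_self hpi, mul_one]
      simp
    show Continuous (fun x => ((n x : ℤ) : ℝ))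
    rw [this]
    fun_prop
  have hxy : n x = n y := PreconnectedSpace.constant ‹_› hc
  rw [hn x, hn y, hxy]
  ring

end

/-- vertices of the interval -/
abbrev vx {n : ℕ} (i : Fin (n + 1)) : Dl n := stdSimplex.vertex i

/-- increment of the argument of a nonvanishing function along the interval -/
def inc (r : C(Dl 1, ℂ)) : ℝ :=
  open Classical in
  if h : ∀ x, r x ≠ 0 then
    ((exists_log r h).choose (vx 1) - (exists_log r h).choose (vx 0)).im
  else 0

lemma inc_eq (r : C(Dl 1, ℂ)) (l : C(Dl 1, ℂ)) (hl : ∀ x, Complex.exp (l x) = r x) :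
    inc r = (l (vx 1) - l (vx 0)).im := by
  have h : ∀ x, r x ≠ 0 := fun x => by rw [← hl x]; exact Complex.exp_ne_zero _
  unfold inc
  rw [dif_pos h]
  have h2 := (exists_log r h).choose_spec
  have h3 := log_unique (exists_log r h).choose l (fun x => by rw [h2 x, hl x]) (vx 1) (vx 0)
  have h4 : (exists_log r h).choose (vx 1) - (exists_log r h).choose (vx 0) =
      l (vx 1) - l (vx 0) := by linear_combination h3
  rw [h4]

lemma inc_mul (r r' : C(Dl 1, ℂ)) (h : ∀ x, r x ≠ 0) (h' : ∀ x, r' x ≠ 0) :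
    inc (r * r') = inc r + inc r' := by
  obtain ⟨l, hl⟩ := exists_log r h
  obtain ⟨l', hl'⟩ := exists_log r' h'
  rw [inc_eq r l hl, inc_eq r' l' hl', inc_eq (r * r') (l + l') (fun x => by
    simp [Complex.exp_add, hl x, hl' x])]
  simp only [ContinuousMap.add_apply, Complex.sub_im, Complex.add_im]
  ring

lemma face_vx {n : ℕ} (i : Fin (n + 2)) (j : Fin (n + 1)) :
    face i (vx j) = vx (i.succAbove j) := by
  show stdSimplex.map _ _ = _
  exact stdSimplex.map_vertex _ _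

lemma inc_face_sum (μ : C(Dl 2, ℂ)) (h : ∀ x, μ x ≠ 0) :
    ∑ i : Fin 3, ((-1 : ℝ) ^ (i : ℕ)) * inc (μ.comp (face i)) = 0 := by
  obtain ⟨l, hl⟩ := exists_log μ h
  have h1 : ∀ i : Fin 3, inc (μ.comp (face i)) =
      (l (vx (i.succAbove 1)) - l (vx (i.succAbove 0))).im := by
    intro i
    rw [inc_eq (μ.comp (face i)) (l.comp (face i)) (fun x => hl _)]
    simp only [ContinuousMap.comp_apply, face_vx]
  have e00 : (0 : Fin 3).succAbove (0 : Fin 2) = 1 := rfl
  have e01 : (0 : Fin 3).succAbove (1 : Fin 2) = 2 := rfl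
  have e10 : (1 : Fin 3).succAbove (0 : Fin 2) = 0 := rfl
  have e11 : (1 : Fin 3).succAbove (1 : Fin 2) = 2 := rfl
  have e20 : (2 : Fin 3).succAbove (0 : Fin 2) = 0 := rfl
  have e21 : (2 : Fin 3).succAbove (1 : Fin 2) = 1 := rfl
  simp only [h1, Fin.sum_univ_three, e00, e01, e10, e11, e20, e21]
  simp only [Complex.sub_im, Fin.val_zero, Fin.val_one, Fin.val_two]
  ring

/-! ### the cocycle -/

/-- the chosen lift of a path -/
def chl (e : C(Dl 1, S2)) : C(Dl 1, ℂ × ℂ) := (exists_lift e).choose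

lemma chl_spec (e : C(Dl 1, S2)) : IsLift e (chl e) := (exists_lift e).choose_spec

/-- the cochain computed with a given lift -/
def Wl (σ : C(Dl 2, S2)) (ξ : C(Dl 2, ℂ × ℂ)) : ℝ :=
  ∑ i : Fin 3, ((-1 : ℝ) ^ (i : ℕ)) * inc (rr (chl (σ.comp (face i))) (ξ.comp (face i)))

lemma Wl_eq {σ : C(Dl 2, S2)} {ξ η : C(Dl 2, ℂ × ℂ)} (hξ : IsLift σ ξ) (hη : IsLift σ η) :
    Wl σ η = Wl σ ξ := by
  obtain ⟨μ, hμ, hμη⟩ := hξ.exists_mul hη
  have h0 := inc_face_sum μ hμ
  have h1 : ∀ i : Fin 3, inc (rr (chl (σ.comp (face i))) (η.comp (face i))) =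
      inc (μ.comp (face i)) + inc (rr (chl (σ.comp (face i))) (ξ.comp (face i))) := by
    intro i
    rw [← inc_mul _ _ (fun x => hμ _) (rr_ne (chl_spec _) (hξ.comp (face i)))]
    congr 1
    ext x
    simp only [rr_apply, ContinuousMap.comp_apply, ContinuousMap.mul_apply, hμη, herm_smul]
  unfold Wl
  simp only [h1, mul_add, Finset.sum_add_distrib, h0, zero_add]

def WW (σ : C(Dl 2, S2)) : ℝ := Wl σ (exists_lift σ).choose

lemma WW_eq {σ : C(Dl 2, S2)} {ξ : C(Dl 2, ℂ × ℂ)} (hξ : IsLift σ ξ) : WW σ = Wl σ ξ :=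
  Wl_eq hξ (exists_lift σ).choose_spec

lemma WW_cocycle (t : C(Dl 3, S2)) :
    ∑ i : Fin 4, ((-1 : ℝ) ^ (i : ℕ)) * WW (t.comp (face i)) = 0 := by
  obtain ⟨ξ, hξ⟩ := exists_lift t
  set Gf : (Fin 2 → Fin 4) → ℝ := fun f =>
    inc (rr (chl (t.comp ⟨stdSimplex.map f, stdSimplex.continuous_map _⟩))
      (ξ.comp ⟨stdSimplex.map f, stdSimplex.continuous_map _⟩)) with hGf
  have hff : ∀ (i : Fin 4) (j : Fin 3), (face i).comp (face j) =
      (⟨stdSimplex.map (Fin.succAbove i ∘ Fin.succAbove j), stdSimplex.continuous_map _⟩ :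
        C(Dl 1, Dl 3)) := by
    intro i j
    ext1 x
    show stdSimplex.map _ (stdSimplex.map _ x) = _
    rw [stdSimplex.map_comp_apply]
    rfl
  have h1 : ∀ i : Fin 4, WW (t.comp (face i)) =
      ∑ j : Fin 3, ((-1 : ℝ) ^ (j : ℕ)) * Gf (Fin.succAbove i ∘ Fin.succAbove j) := by
    intro i
    rw [WW_eq (hξ.comp (face i))]
    unfold Wl
    refine Finset.sum_congr rfl (fun j _ => ?_)
    rw [ContinuousMap.comp_assoc, ContinuousMap.comp_assoc, hff i j]
  simp only [h1]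
  have a1 : (Fin.succAbove (1 : Fin 4) ∘ Fin.succAbove (0 : Fin 3) : Fin 2 → Fin 4) =
      Fin.succAbove (0 : Fin 4) ∘ Fin.succAbove (0 : Fin 3) := by decide
  have a2 : (Fin.succAbove (2 : Fin 4) ∘ Fin.succAbove (0 : Fin 3) : Fin 2 → Fin 4) =
      Fin.succAbove (0 : Fin 4) ∘ Fin.succAbove (1 : Fin 3) := by decide
  have a3 : (Fin.succAbove (3 : Fin 4) ∘ Fin.succAbove (0 : Fin 3) : Fin 2 → Fin 4) =
      Fin.succAbove (0 : Fin 4) ∘ Fin.succAbove (2 : Fin 3) := by decide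
  have a4 : (Fin.succAbove (2 : Fin 4) ∘ Fin.succAbove (1 : Fin 3) : Fin 2 → Fin 4) =
      Fin.succAbove (1 : Fin 4) ∘ Fin.succAbove (1 : Fin 3) := by decide
  have a5 : (Fin.succAbove (3 : Fin 4) ∘ Fin.succAbove (1 : Fin 3) : Fin 2 → Fin 4) =
      Fin.succAbove (1 : Fin 4) ∘ Fin.succAbove (2 : Fin 3) := by decide
  have a6 : (Fin.succAbove (3 : Fin 4) ∘ Fin.succAbove (2 : Fin 3) : Fin 2 → Fin 4) =
      Fin.succAbove (2 : Fin 4) ∘ Fin.succAbove (2 : Fin 3) := by decide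
  simp only [Fin.sum_univ_four, Fin.sum_univ_three, a1, a2, a3, a4, a5, a6]
  simp only [Fin.val_zero, Fin.val_one, Fin.val_two]
  have v3 : ((3 : Fin 4) : ℕ) = 3 := rfl
  simp only [v3]
  ring

/-! ### evaluation -/

/-- section over the image of `jj` -/
def sU : C(ℂ, ℂ × ℂ) := ⟨fun v => (v, 1), by fun_prop⟩
/-- section over the image of `flip ∘ jj` -/
def sV : C(ℂ, ℂ × ℂ) := ⟨fun v => (1, (starRingEnd ℂ) v), by fun_prop⟩

lemma one_add_ne (v : ℂ) : ((1 : ℂ) + (‖v‖ : ℂ) ^ 2) ≠ 0 := by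
  have : (0:ℝ) < 1 + ‖v‖ ^ 2 := by positivity
  exact_mod_cast this.ne'

lemma isLift_sU : IsLift jjC sU := by
  intro v
  refine ⟨fun h => ?_, ?_⟩
  · have := congrArg Prod.snd h
    simp [sU] at this
  · have h0 := one_add_ne v
    have hv : v * (starRingEnd ℂ) v = (‖v‖ : ℂ) ^ 2 := Complex.mul_conj' v
    have e1 : (jjC v : S2) = jj v := rfl
    rw [e1]
    simp only [proj, jj, ze_mkS2, he_mkS2, sU, ContinuousMap.coe_mk]
    push_cast
    apply Prod.ext
    · simp only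
      field_simp
      ring
    · simp only [map_div₀, map_mul, map_add, map_one, map_pow, Complex.conj_ofReal,
        map_ofNat]
      field_simp
      linear_combination 2 * hv

lemma isLift_sV : IsLift (flipC.comp jjC) sV := by
  intro v
  refine ⟨fun h => ?_, ?_⟩
  · have := congrArg Prod.fst h
    simp [sV] at this
  · have h0 := one_add_ne v
    have hv : v * (starRingEnd ℂ) v = (‖v‖ : ℂ) ^ 2 := Complex.mul_conj' v
    have e1 : ((flipC.comp jjC) v : S2) = flip (jj v) := rfl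
    rw [e1]
    simp only [proj, flip, jj, ze_mkS2, he_mkS2, sV, ContinuousMap.coe_mk]
    push_cast
    apply Prod.ext
    · simp only
      field_simp
      linear_combination 2 * hv
    · simp only [map_div₀, map_mul, map_add, map_one, map_pow, Complex.conj_ofReal,
        map_ofNat]
      field_simp
      ring

lemma norm_loopC (x : Dl 1) : ‖loopC x‖ = 1 := by
  show ‖Complex.exp _‖ = 1
  exact Complex.norm_exp_ofReal_mul_I _

lemma inc_loopC : inc loopC = 2 * Real.pi := by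
  have h := inc_eq loopC ⟨fun x => (((2 * Real.pi * x 1 : ℝ) : ℂ) * Complex.I), by
    have h1 : Continuous fun x : Dl 1 => x 1 :=
      (continuous_apply (1 : Fin 2)).comp continuous_subtype_val
    exact (Complex.continuous_ofReal.comp (continuous_const.mul h1)).mul continuous_const⟩
    (fun x => rfl)
  rw [h]
  simp

lemma Wl_face {σ : C(Dl 2, S2)} {ξ : C(Dl 2, ℂ × ℂ)}
    (h12 : σ.comp (face 1) = σ.comp (face 2)) (h12' : ξ.comp (face 1) = ξ.comp (face 2)) :
    Wl σ ξ = inc (rr (chl (σ.comp (face 0))) (ξ.comp (face 0))) := by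
  unfold Wl
  simp only [Fin.sum_univ_three, h12, h12']
  simp only [Fin.val_zero, Fin.val_one, Fin.val_two]
  ring

lemma WW_DU_sub_DV : WW DU - WW DV = 2 * Real.pi := by
  have hU : IsLift DU (sU.comp coneC) := isLift_sU.comp coneC
  have hV : IsLift DV (sV.comp coneC) := isLift_sV.comp coneC
  have hc := coneC_face12
  rw [WW_eq hU, WW_eq hV]
  rw [Wl_face (by
    unfold DU; rw [ContinuousMap.comp_assoc, ContinuousMap.comp_assoc, hc]) (by
    rw [ContinuousMap.comp_assoc, ContinuousMap.comp_assoc, hc])]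
  rw [Wl_face (by
    unfold DV; rw [ContinuousMap.comp_assoc (f := flipC.comp jjC) (g := coneC),
      ContinuousMap.comp_assoc (f := flipC.comp jjC) (g := coneC), hc]) (by
    rw [ContinuousMap.comp_assoc, ContinuousMap.comp_assoc, hc])]
  have hD : DU.comp (face 0) = DV.comp (face 0) := by
    ext1 x
    show jj (coneC (face 0 x)) = flip (jj (coneC (face 0 x)))
    have : coneC (face 0 x) = loopC x := by rw [← coneC_face0]; rfl
    rw [this, flip_jj_of_norm (norm_loopC x)]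
  rw [← hD]
  have hmul : rr (chl (DU.comp (face 0))) ((sU.comp coneC).comp (face 0)) =
      loopC * rr (chl (DU.comp (face 0))) ((sV.comp coneC).comp (face 0)) := by
    ext x
    have : coneC (face 0 x) = loopC x := by rw [← coneC_face0]; rfl
    simp only [rr_apply, ContinuousMap.comp_apply, ContinuousMap.mul_apply, this, ← herm_smul]
    congr 1
    have hl : loopC x * (starRingEnd ℂ) (loopC x) = 1 := by
      rw [Complex.mul_conj', norm_loopC x]; norm_num
    apply Prod.ext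
    · simp [sU, sV]
    · simp [sU, sV, hl]
  rw [hmul, inc_mul _ _ (fun x => ?_) (fun x => ?_), inc_loopC]
  · ring
  · intro h
    have := norm_loopC x
    rw [h] at this
    simp at this
  · have h1 : IsLift (DU.comp (face 0)) ((sV.comp coneC).comp (face 0)) := by
      rw [hD]; exact hV.comp (face 0)
    exact rr_ne (chl_spec _) h1 x

/-- The cocycle. -/
theorem exists_cocycle :
    ∃ W : C(Dl 2, S2) → ℝ,
      (∀ t : C(Dl 3, S2), ∑ i : Fin 4, ((-1 : ℝ) ^ (i : ℕ)) * W (t.comp (face i)) = 0) ∧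
      W DU - W DV ≠ 0 := by
  refine ⟨WW, WW_cocycle, ?_⟩
  rw [WW_DU_sub_DV]
  positivity

end Crest.Agent.R123
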