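/-
R123: change of the model space of a boundaryless manifold to a single vector space.
-/
import Mathlib.Geometry.Manifold.IsManifold.ExtChartAt
import Mathlib.Geometry.Manifold.ContMDiff.Basic
import Mathlib.Geometry.Manifold.ContMDiff.Constructions
import Mathlib.Geometry.Manifold.ContMDiff.NormedSpace
import Mathlib.Geometry.Manifold.Instances.Sphere
import Mathlib.Analysis.InnerProductSpace.EuclideanDist

set_option autoImplicit false
open scoped Manifold ContDiff Topology
open Set Module

namespace Crest.Agent.R123.Model

section Transport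

variable {E E' : Type*} [NormedAddCommGroup E] [NormedSpace ℝ E]
  [NormedAddCommGroup E'] [NormedSpace ℝ E'] {H : Type*} [TopologicalSpace H]
  (I : ModelWithCorners ℝ E H) [I.Boundaryless] (L : E ≃L[ℝ] E')

/-- the model space is homeomorphic to the new vector space -/
noncomputable def homeo : H ≃ₜ E' := I.toHomeomorph.trans L.toHomeomorph

@[simp] theorem homeo_apply (x : H) : homeo I L x = L (I x) := rfl
@[simp] theorem homeo_symm_apply (x : E') : (homeo I L).symm x = I.symm (L.symm x) := rfl

variable (M : Type*) [TopologicalSpace M] [ChartedSpace H M]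

/-- the transported charted space structure -/
@[reducible] noncomputable def charted : ChartedSpace E' M where
  atlas := (fun e : OpenPartialHomeomorph M H =>
    e.trans (homeo I L).toOpenPartialHomeomorph) '' atlas H M
  chartAt x := (chartAt H x).trans (homeo I L).toOpenPartialHomeomorph
  mem_chart_source x := by simp
  chart_mem_atlas x := mem_image_of_mem _ (chart_mem_atlas H x)

theorem isManifold (n : ℕ∞ω) [IsManifold I n M] :
    @IsManifold ℝ _ E' _ _ E' _ (modelWithCornersSelf ℝ E') n M _ (charted I L M) := by
  let := charted I L M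
  refine isManifold_of_contDiffOn (modelWithCornersSelf ℝ E') n M ?_
  rintro _ _ ⟨e, he, rfl⟩ ⟨e', he', rfl⟩
  have h := ((contDiffGroupoid n I).compatible he he').1
  simp only [contDiffPregroupoid] at h
  have h2 : ContDiffOn ℝ n (L ∘ (I ∘ (e.symm.trans e') ∘ I.symm) ∘ L.symm)
      (L.symm ⁻¹' (I.symm ⁻¹' (e.symm.trans e').source ∩ range I)) := by
    refine L.contDiff.comp_contDiffOn ?_
    exact h.comp L.symm.contDiff.contDiffOn (fun x hx => hx)
  refine h2.congr_mono ?_ ?_
  · intro x _
    simp
  · intro x hx
    simp only [modelWithCornersSelf_coe_symm, preimage_id_eq, id_eq, modelWithCornersSelf_coe,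
      range_id, inter_univ] at hx
    simp only [mem_preimage, mem_inter_iff]
    rw [I.range_eq_univ]
    refine ⟨?_, mem_univ _⟩
    simpa using hx

theorem extChartAt_coe (x : M) :
    (@extChartAt ℝ E' M E' _ _ _ _ _ (modelWithCornersSelf ℝ E') (charted I L M) x : M → E') =
      L ∘ extChartAt I x := by
  let := charted I L M
  ext y
  simp [extChartAt, OpenPartialHomeomorph.extend]
  rfl

theorem extChartAt_coe_symm (x : M) :
    ((@extChartAt ℝ E' M E' _ _ _ _ _ (modelWithCornersSelf ℝ E') (charted I L M) x).symm :
      E' → M) = (extChartAt I x).symm ∘ L.symm := by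
  let := charted I L M
  ext y
  simp [extChartAt, OpenPartialHomeomorph.extend]
  rfl

theorem extChartAt_target (x : M) :
    (@extChartAt ℝ E' M E' _ _ _ _ _ (modelWithCornersSelf ℝ E') (charted I L M) x).target =
      L.symm ⁻¹' (extChartAt I x).target := by
  let := charted I L M
  have h : (chartAt E' x) = (chartAt H x).trans (homeo I L).toOpenPartialHomeomorph := rfl
  ext y
  simp [extChartAt, OpenPartialHomeomorph.extend, h, I.range_eq_univ]

theorem extChartAt_source (x : M) :
    (@extChartAt ℝ E' M E' _ _ _ _ _ (modelWithCornersSelf ℝ E') (charted I L M) x).source =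
      (extChartAt I x).source := by
  let := charted I L M
  have h : (chartAt E' x) = (chartAt H x).trans (homeo I L).toOpenPartialHomeomorph := rfl
  simp [extChartAt, OpenPartialHomeomorph.extend, h]

theorem contMDiff {n : ℕ∞ω} {f : M → M} [IsManifold I n M]
    (hf : ContMDiff I I n f) :
    @ContMDiff ℝ _ E' _ _ E' _ (modelWithCornersSelf ℝ E') M _ (charted I L M)
      E' _ _ E' _ (modelWithCornersSelf ℝ E') M _ (charted I L M) n f := by
  rw [contMDiff_iff] at hf
  have hM := isManifold I L M n
  let := charted I L M
  rw [contMDiff_iff]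
  refine ⟨hf.1, fun x y => ?_⟩
  have h := hf.2 x y
  rw [extChartAt_coe, extChartAt_coe_symm, extChartAt_target, extChartAt_source]
  have h2 := (L.contDiff (n := n)).comp_contDiffOn
    (h.comp (s := L.symm ⁻¹' ((extChartAt I x).target ∩
      (extChartAt I x).symm ⁻¹' (f ⁻¹' (extChartAt I y).source)))
      L.symm.contDiff.contDiffOn (fun x hx => hx))
  exact h2

end Transport

end Crest.Agent.R123.Model
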