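/-
R123 / S0163, task S2CLASS : an eigenvector for squaring on H₂(S²).
-/
import Crest.Agent.R123.HopfCocycle

set_option autoImplicit false

noncomputable section

open CategoryTheory

namespace Crest.Agent.R123

lemma KCmap_comm {X Y : Type} [TopologicalSpace X] [TopologicalSpace Y] (f : C(X, Y)) (i j : ℕ)
    (x : (KC X).X i) :
    ((KC Y).d i j).hom (((KCmap f).f i).hom x) = ((KCmap f).f j).hom (((KC X).d i j).hom x) := by
  have h := (KCmap f).comm i j
  have h2 : ((KCmap f).f i ≫ (KC Y).d i j).hom x = ((KC X).d i j ≫ (KCmap f).f j).hom x :=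
    congrArg (fun m => m.hom x) h
  rw [ModuleCat.hom_comp, ModuleCat.hom_comp] at h2
  exact h2

lemma flip_jj_comp {n : ℕ} (s : C(Dl n, ℂ)) (hs : ∀ x, ‖s x‖ = 1) :
    (flipC.comp jjC).comp s = jjC.comp s := by
  ext1 x
  exact flip_jj_of_norm (hs x)

lemma norm_loopC (x : Dl 1) : ‖loopC x‖ = 1 := Complex.norm_exp_ofReal_mul_I _

lemma norm_sigC (x : Dl 2) : ‖sigC x‖ = 1 := Complex.norm_exp_ofReal_mul_I _

lemma DU_face0 : DU.comp (face 0) = jjC.comp loopC := by
  rw [DU, ContinuousMap.comp_assoc, coneC_face0]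

lemma DV_face0 : DV.comp (face 0) = jjC.comp loopC := by
  rw [DV, ContinuousMap.comp_assoc, coneC_face0, flip_jj_comp _ norm_loopC]

lemma DU_face12 : DU.comp (face 1) = DU.comp (face 2) := by
  rw [DU, ContinuousMap.comp_assoc, ContinuousMap.comp_assoc, coneC_face12]

lemma DV_face12 : DV.comp (face 1) = DV.comp (face 2) := by
  have h1 : DV.comp (face 1) = (flipC.comp jjC).comp (coneC.comp (face 1)) := rfl
  have h2 : DV.comp (face 2) = (flipC.comp jjC).comp (coneC.comp (face 2)) := rfl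
  rw [h1, h2, coneC_face12]

lemma d_gen2 {X : Type} [TopologicalSpace X] (s : C(Dl 2, X)) :
    ((KC X).d 2 1).hom (gen s) =
      gen (s.comp (face 0)) - gen (s.comp (face 1)) + gen (s.comp (face 2)) := by
  rw [d_gen (n := 1) s, Fin.sum_univ_three]
  simp only [Fin.val_zero, pow_zero, one_smul, Fin.val_one, pow_one, neg_smul, Fin.val_two]
  norm_num
  abel

theorem exists_class : ∃ y : HH 2 S2, y ≠ 0 ∧ (HHmap 2 sqSC).hom y = (2 : ℝ) • y := by
  obtain ⟨W, hW, hne⟩ := exists_cocycle
  set ch : (KC ℂ).X 2 := gen (sqC.comp coneC) - (2 : ℝ) • gen coneC + gen sigC with hch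
  have hch0 : ((KC ℂ).d 2 1).hom ch = 0 := by
    rw [hch, map_add, map_sub, map_smul, d_gen2, d_gen2, d_gen2, sigC_face0, sigC_face1,
      sigC_face2, coneC_face0, ContinuousMap.comp_assoc, ContinuousMap.comp_assoc,
      ContinuousMap.comp_assoc, coneC_face0, coneC_face12]
    module
  obtain ⟨e, he⟩ := exists_boundary ch hch0
  refine eigen_criterion sqSC (gen DU - gen DV) ?_ W hW ?_
    (((KCmap jjC).f 3).hom e - ((KCmap (flipC.comp jjC)).f 3).hom e) ?_
  · rw [map_sub, d_gen2, d_gen2, DU_face0, DV_face0, DU_face12, DV_face12]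
    abel
  · rw [map_sub, func_gen, func_gen]
    exact hne
  · rw [map_sub, KCmap_comm, KCmap_comm, he, hch]
    simp only [map_add, map_sub, map_smul, map_gen]
    rw [flip_jj_comp _ norm_sigC]
    have h1 : jjC.comp (sqC.comp coneC) = sqSC.comp DU := by
      rw [DU, ← ContinuousMap.comp_assoc, ← ContinuousMap.comp_assoc, sq_comp_jj]
    have h2 : (flipC.comp jjC).comp (sqC.comp coneC) = sqSC.comp DV := by
      rw [DV, ContinuousMap.comp_assoc, h1, DU, ← ContinuousMap.comp_assoc,
        ← ContinuousMap.comp_assoc, ← ContinuousMap.comp_assoc, ← ContinuousMap.comp_assoc,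
        sq_comp_flip]
    rw [h1, h2]
    change _ - (2 : ℝ) • gen DU + _ - (_ - (2 : ℝ) • gen DV + _) = _
    module

end Crest.Agent.R123
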