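/-
Row 123 (S0163): variation lemma for saturated recursions (pure reals).
-/
import Crest.Agent.R123.Orb

set_option autoImplicit false

namespace Crest.Agent.R123

open Real Finset

namespace Var

theorem satR_nonneg {y : ℝ} (hy : 0 ≤ y) : 0 ≤ satR y := by
  unfold satR; positivity

theorem satR_lt_one (y : ℝ) : satR y < 1 := by
  unfold satR
  rw [div_lt_one (by positivity)]
  calc y ≤ |y| := le_abs_self y
    _ = √(y ^ 2) := (Real.sqrt_sq_eq_abs y).symm
    _ < √(1 + y ^ 2) := Real.sqrt_lt_sqrt (by positivity) (by linarith)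

theorem satR_mono {x y : ℝ} (hx : 0 ≤ x) (hxy : x ≤ y) : satR x ≤ satR y := by
  have hy : 0 ≤ y := hx.trans hxy
  unfold satR
  rw [div_le_div_iff₀ (by positivity) (by positivity)]
  have h2 : 0 ≤ y * √(1 + x ^ 2) := by positivity
  apply le_of_sq_le_sq _ h2
  rw [mul_pow, mul_pow, Real.sq_sqrt (by positivity), Real.sq_sqrt (by positivity)]
  nlinarith [mul_self_nonneg x, mul_self_nonneg y]

/-- "once nondecreasing, stays nondecreasing" sequences with values in `[0,2]`. -/
theorem var_up (r : ℕ → ℝ) (n : ℕ) : ∀ p : ℕ,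
    (∀ i, p ≤ i → i + 1 < p + n → r i ≤ r (i + 1) → r (i + 1) ≤ r (i + 2)) →
    (∀ i, p ≤ i → i ≤ p + n → 0 ≤ r i ∧ r i ≤ 2) →
    ∑ i ∈ Ico p (p + n), |r (i + 1) - r i| ≤ r p + 2 := by
  induction n with
  | zero =>
    intro p _ h
    have := h p le_rfl (by omega)
    simp; linarith [this.1]
  | succ n ih =>
    intro p hm hb
    have hp := hb p le_rfl (by omega)
    rcases le_total (r p) (r (p + 1)) with hle | hle
    · -- all nondecreasing
      have key : ∀ k, k ≤ n → r (p + k) ≤ r (p + k + 1) := by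
        intro k
        induction k with
        | zero => intro _; simpa using hle
        | succ k ihk =>
          intro hk
          have h1 := ihk (by omega)
          have h2 := hm (p + k) (by omega) (by omega) h1
          exact h2
      have hs : ∑ i ∈ Ico p (p + (n + 1)), |r (i + 1) - r i| =
          ∑ i ∈ Ico p (p + (n + 1)), (r (i + 1) - r i) := by
        apply Finset.sum_congr rfl
        intro i hi
        rw [Finset.mem_Ico] at hi
        obtain ⟨k, rfl⟩ := Nat.exists_eq_add_of_le hi.1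
        exact abs_of_nonneg (sub_nonneg.2 (key k (by omega)))
      rw [hs, Finset.sum_Ico_sub r (by omega)]
      have := hb (p + (n + 1)) (by omega) le_rfl
      linarith [hp.1, this.2]
    · rw [Finset.sum_eq_sum_Ico_succ_bot (by omega)]
      have h3 : p + (n + 1) = (p + 1) + n := by ring
      rw [h3, abs_of_nonpos (sub_nonpos.2 hle)]
      have := ih (p + 1) (fun i hi hi2 => hm i (by omega) (by omega))
        (fun i hi hi2 => hb i (by omega) (by omega))
      linarith

/-- "once nonincreasing, stays nonincreasing" sequences with values in `[0,2]`. -/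
theorem var_down (r : ℕ → ℝ) (n p : ℕ)
    (hm : ∀ i, p ≤ i → i + 1 < p + n → r (i + 1) ≤ r i → r (i + 2) ≤ r (i + 1))
    (hb : ∀ i, p ≤ i → i ≤ p + n → 0 ≤ r i ∧ r i ≤ 2) :
    ∑ i ∈ Ico p (p + n), |r (i + 1) - r i| ≤ 4 - r p := by
  have h := var_up (fun i => 2 - r i) n p
    (fun i hi hi2 h => by have := hm i hi hi2 (by linarith); linarith)
    (fun i hi hi2 => ⟨by linarith [(hb i hi hi2).2], by linarith [(hb i hi hi2).1]⟩)
  have e : ∑ i ∈ Ico p (p + n), |r (i + 1) - r i| =
      ∑ i ∈ Ico p (p + n), |(2 - r (i + 1)) - (2 - r i)| := by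
    apply Finset.sum_congr rfl
    intro i _
    rw [show (2 - r (i + 1)) - (2 - r i) = -(r (i + 1) - r i) by ring, abs_neg]
  rw [e]
  linarith

end Var

open Var in
/-- Total variation of a saturated recursion with unimodal gains. -/
theorem variation (r a : ℕ → ℝ) (p c q : ℕ) (hpc : p ≤ c) (hcq : c ≤ q) (ha : ∀ i, 0 ≤ a i)
    (hup : ∀ i, p ≤ i → i + 1 < c → a i ≤ a (i + 1))
    (hdown : ∀ i, c ≤ i → i + 1 < q → a (i + 1) ≤ a i)
    (h0 : 0 ≤ r p) (h1 : r p ≤ 2) (hr : ∀ i, p ≤ i → i < q → r (i + 1) = satR (a i * r i)) :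
    ∑ i ∈ Finset.Ico p q, |r (i + 1) - r i| ≤ 8 := by
  have hb : ∀ k, p + k ≤ q → 0 ≤ r (p + k) ∧ r (p + k) ≤ 2 := by
    intro k
    induction k with
    | zero => intro _; exact ⟨h0, h1⟩
    | succ k ih =>
      intro hk
      have h := ih (by omega)
      have e := hr (p + k) (by omega) (by omega)
      rw [← add_assoc, e]
      exact ⟨satR_nonneg (mul_nonneg (ha _) h.1), by linarith [satR_lt_one (a (p + k) * r (p + k))]⟩
  have hb' : ∀ i, p ≤ i → i ≤ q → 0 ≤ r i ∧ r i ≤ 2 := by
    intro i hi hi2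
    obtain ⟨k, rfl⟩ := Nat.exists_eq_add_of_le hi
    exact hb k hi2
  rw [← Finset.sum_Ico_consecutive _ hpc hcq]
  obtain ⟨n₁, rfl⟩ := Nat.exists_eq_add_of_le hpc
  obtain ⟨n₂, rfl⟩ := Nat.exists_eq_add_of_le hcq
  have A := var_up r n₁ p
    (fun i hi hi2 h => by
      rw [hr i hi (by omega)] at h ⊢
      rw [hr (i + 1) (by omega) (by omega), hr i hi (by omega)]
      have hri := hb' i hi (by omega)
      apply satR_mono (mul_nonneg (ha i) hri.1)
      exact mul_le_mul (hup i hi hi2) h hri.1 (ha _))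
    (fun i hi hi2 => hb' i hi (by omega))
  have B := var_down r n₂ (p + n₁)
    (fun i hi hi2 h => by
      rw [hr i (by omega) (by omega)] at h ⊢
      rw [hr (i + 1) (by omega) (by omega), hr i (by omega) (by omega)]
      have hri := hb' i (by omega) (by omega)
      have hri1 := satR_nonneg (mul_nonneg (ha i) hri.1)
      apply satR_mono (mul_nonneg (ha _) hri1)
      exact mul_le_mul (hdown i hi hi2) h hri1 (ha _))
    (fun i hi hi2 => hb' i (by omega) (by omega))
  have := (hb' (p + n₁) (by omega) (by omega)).1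
  linarith

/-- number of big jumps -/
theorem variation_card (r a : ℕ → ℝ) (p c q : ℕ) (hpc : p ≤ c) (hcq : c ≤ q)
    (ha : ∀ i, 0 ≤ a i)
    (hup : ∀ i, p ≤ i → i + 1 < c → a i ≤ a (i + 1))
    (hdown : ∀ i, c ≤ i → i + 1 < q → a (i + 1) ≤ a i)
    (h0 : 0 ≤ r p) (h1 : r p ≤ 2) (hr : ∀ i, p ≤ i → i < q → r (i + 1) = satR (a i * r i))
    (η : ℝ) (hη : 0 < η) :
    (((Finset.Ico p q).filter (fun i => η ≤ |r (i + 1) - r i|)).card : ℝ) ≤ 8 / η := by
  have h := variation r a p c q hpc hcq ha hup hdown h0 h1 hr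
  rw [le_div_iff₀ hη]
  calc (((Finset.Ico p q).filter (fun i => η ≤ |r (i + 1) - r i|)).card : ℝ) * η
      = ∑ i ∈ (Finset.Ico p q).filter (fun i => η ≤ |r (i + 1) - r i|), η := by
        rw [Finset.sum_const, nsmul_eq_mul]
    _ ≤ ∑ i ∈ (Finset.Ico p q).filter (fun i => η ≤ |r (i + 1) - r i|), |r (i + 1) - r i| :=
        Finset.sum_le_sum (fun i hi => (Finset.mem_filter.1 hi).2)
    _ ≤ ∑ i ∈ Finset.Ico p q, |r (i + 1) - r i| :=
        Finset.sum_le_sum_of_subset_of_nonneg (Finset.filter_subset _ _)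
          (fun _ _ _ => abs_nonneg _)
    _ ≤ 8 := h

theorem gain_nonneg (t : ℝ) : 0 ≤ gain t := by
  unfold gain
  have := Real.cos_le_one (2 * π * t)
  have := Real.exp_pos 3000
  apply mul_nonneg (by positivity)
  linarith

theorem gain_add_int (t : ℝ) (k : ℤ) : gain ((k : ℝ) + t) = gain t := by
  unfold gain
  have : 2 * π * ((k : ℝ) + t) = 2 * π * t + k * (2 * π) := by ring
  rw [this, Real.cos_add_int_mul_two_pi]

theorem gain_mono {s t : ℝ} (hs : 0 ≤ s) (hst : s ≤ t) (ht : t ≤ 1 / 2) : gain s ≤ gain t := by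
  unfold gain
  have h1 : Real.cos (2 * π * t) ≤ Real.cos (2 * π * s) := by
    apply Real.cos_le_cos_of_nonneg_of_le_pi
    · have := Real.pi_pos; positivity
    · have := Real.pi_pos; nlinarith
    · have := Real.pi_pos; nlinarith
  have := Real.exp_pos 3000
  nlinarith

theorem gain_anti {s t : ℝ} (hs : 1 / 2 ≤ s) (hst : s ≤ t) (ht : t ≤ 1) : gain t ≤ gain s := by
  have h := gain_mono (s := 1 - t) (t := 1 - s) (by linarith) (by linarith) (by linarith)
  have e : ∀ y : ℝ, gain (1 - y) = gain y := by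
    intro y
    unfold gain
    have : 2 * π * (1 - y) = 2 * π - 2 * π * y := by ring
    rw [this, Real.cos_two_pi_sub]
  rwa [e, e] at h

/-- the gains along a turn are unimodal -/
theorem gain_unimodal (k : ℤ) (u m : ℝ) (hm : 0 < m) (hu : 0 ≤ u) (p q : ℕ) (hpq : p ≤ q)
    (hq : u + q ≤ m) :
    ∃ c, p ≤ c ∧ c ≤ q ∧
      (∀ i : ℕ, p ≤ i → i + 1 < c →
        gain ((k : ℝ) + (u + i) / m) ≤ gain ((k : ℝ) + (u + (i + 1 : ℕ)) / m)) ∧
      (∀ i : ℕ, c ≤ i → i + 1 < q →
        gain ((k : ℝ) + (u + (i + 1 : ℕ)) / m) ≤ gain ((k : ℝ) + (u + i) / m)) := by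
  classical
  -- c = first index ≥ p (≤ q) with (u+c)/m ≥ 1/2
  by_cases hex : ∃ c, p ≤ c ∧ c ≤ q ∧ 1 / 2 ≤ (u + c) / m
  · have hmin := Nat.find_spec hex
    refine ⟨Nat.find hex, hmin.1, hmin.2.1, ?_, ?_⟩
    · intro i hi hi2
      rw [gain_add_int, gain_add_int]
      have hlt : (u + (i + 1 : ℕ)) / m < 1 / 2 := by
        by_contra hcon
        push Not at hcon
        exact Nat.find_min hex hi2 ⟨by omega, by omega, hcon⟩
      apply gain_mono (by positivity) _ hlt.le
      gcongr
      simp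
    · intro i hi hi2
      rw [gain_add_int, gain_add_int]
      have h1 : 1 / 2 ≤ (u + i) / m := by
        refine hmin.2.2.trans ?_
        gcongr
      apply gain_anti h1
      · gcongr; simp
      · rw [div_le_one hm]
        have : ((i + 1 : ℕ) : ℝ) ≤ (q : ℝ) := by exact_mod_cast hi2.le
        linarith
  · push Not at hex
    refine ⟨q, hpq, le_rfl, ?_, ?_⟩
    · intro i hi hi2
      rw [gain_add_int, gain_add_int]
      have hlt := hex (i + 1) (by omega) (by omega)
      apply gain_mono (by positivity) _ hlt.le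
      gcongr
      simp
    · intro i hi hi2
      omega

end Crest.Agent.R123
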