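import Mathlib

/-!
R123 / Wild: the `C¹` function `G : ℂ → ℂ` with `G (v ^ 4) = 64 G v` for `‖v‖ ≤ 4`, vanishing on the
closed unit disc and outside the disc of radius `256`, and the semiconjugacy
`A (H v) = H (v ^ 2)`, `H v = (G v, G (v ^ 2) / 8)`, `A (w₁, w₂) = (8 w₂, 8 w₁)`.
-/

set_option autoImplicit false

open scoped ContDiff

namespace Crest.Agent.R123

/-- cut-off: zero for `‖v‖ ≤ 4` and for `‖v‖ ≥ 256`, one for `8 ≤ ‖v‖ ≤ 64` -/
noncomputable def bump (v : ℂ) : ℝ :=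
  Real.smoothTransition ((Complex.normSq v - 16) / 48) *
    Real.smoothTransition ((65536 - Complex.normSq v) / 61440)

lemma contDiff_normSq {n : WithTop ℕ∞} : ContDiff ℝ n (fun v : ℂ => Complex.normSq v) := by
  have : (fun v : ℂ => Complex.normSq v) = fun v : ℂ => ‖v‖ ^ 2 := by
    funext v; rw [Complex.normSq_eq_norm_sq]
  rw [this]
  exact contDiff_norm_sq ℝ

lemma contDiff_bump {n : ℕ∞} : ContDiff ℝ n bump := by
  unfold bump
  refine ContDiff.mul ?_ ?_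
  · exact Real.smoothTransition.contDiff.comp ((contDiff_normSq.sub contDiff_const).div_const _)
  · exact Real.smoothTransition.contDiff.comp ((contDiff_const.sub contDiff_normSq).div_const _)

lemma bump_nonneg (v : ℂ) : 0 ≤ bump v :=
  mul_nonneg (Real.smoothTransition.nonneg _) (Real.smoothTransition.nonneg _)

lemma bump_le_one (v : ℂ) : bump v ≤ 1 :=
  mul_le_one₀ (Real.smoothTransition.le_one _) (Real.smoothTransition.nonneg _)
    (Real.smoothTransition.le_one _)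

lemma bump_zero_of_le {v : ℂ} (h : ‖v‖ ≤ 4) : bump v = 0 := by
  unfold bump
  rw [Real.smoothTransition.zero_of_nonpos, zero_mul]
  rw [Complex.normSq_eq_norm_sq]
  have := norm_nonneg v
  nlinarith

lemma bump_zero_of_ge {v : ℂ} (h : 256 ≤ ‖v‖) : bump v = 0 := by
  unfold bump
  rw [Real.smoothTransition.zero_of_nonpos (x := (65536 - Complex.normSq v) / 61440), mul_zero]
  rw [Complex.normSq_eq_norm_sq]
  nlinarith

lemma bump_one {v : ℂ} (h : 8 ≤ ‖v‖) (h' : ‖v‖ ≤ 64) : bump v = 1 := by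
  unfold bump
  rw [Real.smoothTransition.one_of_one_le, Real.smoothTransition.one_of_one_le, one_mul]
  · rw [Complex.normSq_eq_norm_sq]; nlinarith
  · rw [Complex.normSq_eq_norm_sq]; nlinarith

/-- one building block -/
noncomputable def ghat (v : ℂ) : ℂ := (((bump v / 2048 : ℝ)) : ℂ) * v

lemma contDiff_ghat {n : ℕ∞} : ContDiff ℝ n ghat := by
  unfold ghat
  exact (Complex.ofRealCLM.contDiff.comp (contDiff_bump.div_const _)).mul contDiff_id

lemma ghat_zero_of_le {v : ℂ} (h : ‖v‖ ≤ 4) : ghat v = 0 := by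
  unfold ghat; rw [bump_zero_of_le h]; simp

lemma ghat_zero_of_ge {v : ℂ} (h : 256 ≤ ‖v‖) : ghat v = 0 := by
  unfold ghat; rw [bump_zero_of_ge h]; simp

lemma norm_ghat_eq (v : ℂ) : ‖ghat v‖ = bump v / 2048 * ‖v‖ := by
  unfold ghat
  rw [norm_mul, Complex.norm_real, Real.norm_of_nonneg (by have := bump_nonneg v; positivity)]

lemma norm_ghat_le (v : ℂ) : ‖ghat v‖ ≤ 1 / 8 := by
  by_cases h : ‖v‖ ≤ 256
  · rw [norm_ghat_eq]
    have h1 := bump_le_one v
    have h2 := bump_nonneg v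
    have h3 := norm_nonneg v
    nlinarith
  · rw [ghat_zero_of_ge (le_of_not_ge h)]; simp

lemma hasCompactSupport_ghat : HasCompactSupport ghat := by
  apply HasCompactSupport.of_support_subset_isCompact (isCompact_closedBall (0 : ℂ) 256)
  intro v hv
  rw [mem_closedBall_zero_iff]
  by_contra hc
  exact hv (ghat_zero_of_ge (le_of_not_ge hc))

/-- the terms of the series -/
noncomputable def gterm (n : ℕ) (v : ℂ) : ℂ := (((1 / 64 : ℝ) ^ n : ℝ) : ℂ) * ghat (v ^ (4 ^ n))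

/-- the wild function -/
noncomputable def G (v : ℂ) : ℂ := ∑' n, gterm n v

lemma norm_gterm_le (n : ℕ) (v : ℂ) : ‖gterm n v‖ ≤ (1 / 64 : ℝ) ^ n * (1 / 8) := by
  unfold gterm
  rw [norm_mul, Complex.norm_real, Real.norm_of_nonneg (by positivity)]
  exact mul_le_mul_of_nonneg_left (norm_ghat_le _) (by positivity)

lemma summable_bound : Summable (fun n : ℕ => (1 / 64 : ℝ) ^ n * (1 / 8)) :=
  (summable_geometric_of_lt_one (by norm_num) (by norm_num)).mul_right _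

lemma summable_gterm (v : ℂ) : Summable (fun n => gterm n v) :=
  Summable.of_norm_bounded summable_bound (fun n => norm_gterm_le n v)

lemma contDiff_gterm (n : ℕ) {k : ℕ∞} : ContDiff ℝ k (gterm n) := by
  unfold gterm
  refine contDiff_const.mul ?_
  exact contDiff_ghat.comp (contDiff_id.pow _)

lemma exists_fderiv_bound : ∃ C : ℝ, ∀ y : ℂ, ‖fderiv ℝ ghat y‖ * (1 + ‖y‖) ≤ C := by
  have h1 : Continuous (fderiv ℝ ghat) :=
    (contDiff_ghat (n := 1)).continuous_fderiv (by norm_num)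
  have h2 : HasCompactSupport (fderiv ℝ ghat) := hasCompactSupport_ghat.fderiv ℝ
  have h3 : Continuous (fun y : ℂ => ‖fderiv ℝ ghat y‖ * (1 + ‖y‖)) :=
    h1.norm.mul (continuous_const.add continuous_norm)
  have h4 : HasCompactSupport (fun y : ℂ => ‖fderiv ℝ ghat y‖ * (1 + ‖y‖)) := h2.norm.mul_right
  obtain ⟨C, hC⟩ := h3.bounded_above_of_compact_support h4
  exact ⟨C, fun y => (le_abs_self _).trans (hC y)⟩

lemma hasFDerivAt_pow_real (N : ℕ) (v : ℂ) :
    ∃ L : ℂ →L[ℝ] ℂ, HasFDerivAt (fun v : ℂ => v ^ N) L v ∧ ‖L‖ ≤ N * ‖v‖ ^ (N - 1) := by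
  refine ⟨_, (hasDerivAt_pow N v).hasFDerivAt.restrictScalars ℝ, ?_⟩
  refine ContinuousLinearMap.opNorm_le_bound _ (by positivity) (fun x => ?_)
  simp only [ContinuousLinearMap.coe_restrictScalars', ContinuousLinearMap.toSpanSingleton_apply,
    smul_eq_mul]
  rw [norm_mul, norm_mul, norm_pow, Complex.norm_natCast, mul_comm]

lemma exists_gterm_deriv_bound :
    ∃ C : ℝ, 0 ≤ C ∧ ∀ (n : ℕ) (v : ℂ), ‖fderiv ℝ (gterm n) v‖ ≤ C * (1 / 16 : ℝ) ^ n := by
  obtain ⟨C, hC⟩ := exists_fderiv_bound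
  have hC0 : 0 ≤ C := le_trans (by positivity) (hC 0)
  refine ⟨C, hC0, fun n v => ?_⟩
  obtain ⟨L, hL, hLn⟩ := hasFDerivAt_pow_real (4 ^ n) v
  have hg : HasFDerivAt ghat (fderiv ℝ ghat (v ^ (4 ^ n))) (v ^ (4 ^ n)) :=
    ((contDiff_ghat (n := 1)).differentiable (by norm_num) _).hasFDerivAt
  have h1 : HasFDerivAt (gterm n) ((((1 / 64 : ℝ) ^ n : ℝ) : ℂ) •
      ((fderiv ℝ ghat (v ^ (4 ^ n))).comp L)) v := by
    unfold gterm
    exact (hg.comp v hL).const_mul _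
  rw [h1.fderiv, norm_smul, Complex.norm_real, Real.norm_of_nonneg (by positivity)]
  have h2 : ‖v‖ ^ (4 ^ n - 1) ≤ 1 + ‖v ^ (4 ^ n)‖ := by
    rw [norm_pow]
    by_cases hv : ‖v‖ ≤ 1
    · have := pow_le_one₀ (n := 4 ^ n - 1) (norm_nonneg v) hv
      have h3 : 0 ≤ ‖v‖ ^ (4 ^ n) := by positivity
      linarith
    · have := pow_le_pow_right₀ (le_of_not_ge hv) (Nat.sub_le (4 ^ n) 1)
      linarith
  have h3 : ‖(fderiv ℝ ghat (v ^ (4 ^ n))).comp L‖ ≤ C * 4 ^ n := by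
    calc ‖(fderiv ℝ ghat (v ^ (4 ^ n))).comp L‖ ≤ ‖fderiv ℝ ghat (v ^ (4 ^ n))‖ * ‖L‖ :=
          ContinuousLinearMap.opNorm_comp_le _ _
      _ ≤ ‖fderiv ℝ ghat (v ^ (4 ^ n))‖ * (((4 ^ n : ℕ) : ℝ) * (1 + ‖v ^ (4 ^ n)‖)) := by
          refine mul_le_mul_of_nonneg_left (hLn.trans ?_) (norm_nonneg _)
          exact mul_le_mul_of_nonneg_left h2 (by positivity)
      _ = (‖fderiv ℝ ghat (v ^ (4 ^ n))‖ * (1 + ‖v ^ (4 ^ n)‖)) * 4 ^ n := by push_cast; ring
      _ ≤ C * 4 ^ n := mul_le_mul_of_nonneg_right (hC _) (by positivity)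
  calc (1 / 64 : ℝ) ^ n * ‖(fderiv ℝ ghat (v ^ (4 ^ n))).comp L‖ ≤ (1 / 64 : ℝ) ^ n * (C * 4 ^ n) :=
        mul_le_mul_of_nonneg_left h3 (by positivity)
    _ = C * (1 / 16 : ℝ) ^ n := by
        rw [mul_left_comm, ← mul_pow]; norm_num

/-- the wild function is `C¹` -/
theorem contDiff_G : ContDiff ℝ 1 G := by
  obtain ⟨C, hC0, hC⟩ := exists_gterm_deriv_bound
  unfold G
  refine contDiff_tsum (𝕜 := ℝ) (N := 1) (v := fun k n => if k = 0 then (1 / 64 : ℝ) ^ n * (1 / 8)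
    else C * (1 / 16 : ℝ) ^ n) (fun n => contDiff_gterm n) (fun k hk => ?_) (fun k n x hk => ?_)
  · by_cases h : k = 0
    · simp only [h, if_true]; exact summable_bound
    · simp only [h, if_false]
      exact (summable_geometric_of_lt_one (by norm_num) (by norm_num)).mul_left _
  · by_cases h : k = 0
    · subst h
      simp only [if_true, norm_iteratedFDeriv_zero]
      exact norm_gterm_le n x
    · have hk1 : k = 1 := by
        have : k ≤ 1 := by exact_mod_cast hk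
        omega
      subst hk1
      simp only [one_ne_zero, if_false]
      rw [← norm_iteratedFDeriv_fderiv, norm_iteratedFDeriv_zero]
      exact hC n x

/-- functional equation -/
lemma G_eq (v : ℂ) : G v = ghat v + (1 / 64 : ℂ) * G (v ^ 4) := by
  unfold G
  rw [(summable_gterm v).tsum_eq_zero_add]
  congr 1
  · unfold gterm; simp
  · rw [← tsum_mul_left]
    refine tsum_congr (fun n => ?_)
    unfold gterm
    rw [← pow_mul, show 4 ^ (n + 1) = 4 * 4 ^ n by ring, pow_succ]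
    push_cast
    ring

lemma G_eq_of_le {v : ℂ} (h : ‖v‖ ≤ 4) : G (v ^ 4) = 64 * G v := by
  rw [G_eq v, ghat_zero_of_le h]; ring

lemma G_zero_of_le_one {v : ℂ} (h : ‖v‖ ≤ 1) : G v = 0 := by
  unfold G
  have : ∀ n, gterm n v = 0 := by
    intro n
    unfold gterm
    rw [ghat_zero_of_le, mul_zero]
    rw [norm_pow]
    exact (pow_le_one₀ (norm_nonneg v) h).trans (by norm_num)
  simp [this]

lemma G_zero_of_ge {v : ℂ} (h : 256 ≤ ‖v‖) : G v = 0 := by
  unfold G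
  have : ∀ n, gterm n v = 0 := by
    intro n
    unfold gterm
    rw [ghat_zero_of_ge, mul_zero]
    rw [norm_pow]
    calc (256 : ℝ) ≤ ‖v‖ := h
      _ = ‖v‖ ^ 1 := (pow_one _).symm
      _ ≤ ‖v‖ ^ (4 ^ n) := pow_le_pow_right₀ (by linarith) (Nat.one_le_pow _ _ (by norm_num))
  simp [this]

lemma G_eq_ghat {v : ℂ} (h : 4 ≤ ‖v‖) : G v = ghat v := by
  rw [G_eq v, G_zero_of_ge, mul_zero, add_zero]
  rw [norm_pow]
  nlinarith [pow_le_pow_left₀ (by norm_num) h 4]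

lemma norm_G_le (v : ℂ) : ‖G v‖ ≤ 1 / 8 := by
  have h0 : ∀ v, ‖G v‖ ≤ 8 / 63 := by
    intro v
    have h1 := tsum_of_norm_bounded (summable_bound.hasSum) (fun n => norm_gterm_le n v)
    rw [tsum_mul_right, tsum_geometric_of_lt_one (by norm_num) (by norm_num)] at h1
    unfold G
    linarith
  by_cases h : ‖v‖ ≤ 4
  · have h2 := G_eq_of_le h
    have h3 := h0 (v ^ 4)
    rw [h2, norm_mul] at h3
    norm_num at h3
    linarith
  · rw [G_eq_ghat (le_of_not_ge h)]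
    exact norm_ghat_le v

lemma norm_G_le_of_le {v : ℂ} (h : ‖v‖ ≤ 4) : ‖G v‖ ≤ 1 / 512 := by
  have h2 := G_eq_of_le h
  have h3 := norm_G_le (v ^ 4)
  rw [h2, norm_mul] at h3
  norm_num at h3
  linarith

/-- for `‖v‖ ≥ 4` the value is a nonnegative multiple of `v` -/
lemma G_ray {v : ℂ} (h : 4 ≤ ‖v‖) : G v = ((bump v / 2048 : ℝ) : ℂ) * v := by
  rw [G_eq_ghat h]; rfl

lemma G_mid {v : ℂ} (h : 8 ≤ ‖v‖) (h' : ‖v‖ ≤ 64) : G v = ((1 / 2048 : ℝ) : ℂ) * v := by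
  rw [G_ray (by linarith), bump_one h h']

/-- the semiconjugacy -/
noncomputable def H (v : ℂ) : ℂ × ℂ := (G v, G (v ^ 2) / 8)

/-- the linear expansion -/
def A (w : ℂ × ℂ) : ℂ × ℂ := (8 * w.2, 8 * w.1)

lemma contDiff_H : ContDiff ℝ 1 H := by
  unfold H
  exact contDiff_G.prodMk ((contDiff_G.comp (contDiff_id.pow 2)).div_const _)

theorem A_H {v : ℂ} (h : ‖v‖ ≤ 4) : A (H v) = H (v ^ 2) := by
  unfold A H
  have h1 : (v ^ 2) ^ 2 = v ^ 4 := by ring
  rw [h1, G_eq_of_le h]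
  refine Prod.ext ?_ ?_ <;> simp <;> ring

lemma H_zero_of_le_one {v : ℂ} (h : ‖v‖ ≤ 1) : H v = 0 := by
  unfold H
  rw [G_zero_of_le_one h, G_zero_of_le_one (by rw [norm_pow]; exact pow_le_one₀ (norm_nonneg v) h)]
  simp

lemma H_zero_of_ge {v : ℂ} (h : 256 ≤ ‖v‖) : H v = 0 := by
  unfold H
  rw [G_zero_of_ge h, G_zero_of_ge (by rw [norm_pow]; nlinarith)]
  simp

lemma norm_H_fst_le (v : ℂ) : ‖(H v).1‖ ≤ 1 / 8 := norm_G_le v

lemma norm_H_snd_le (v : ℂ) : ‖(H v).2‖ ≤ 1 / 64 := by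
  show ‖G (v ^ 2) / 8‖ ≤ 1 / 64
  rw [norm_div]
  have := norm_G_le (v ^ 2)
  norm_num
  linarith

lemma norm_H_fst_le_of_le {v : ℂ} (h : ‖v‖ ≤ 4) : ‖(H v).1‖ ≤ 1 / 512 := norm_G_le_of_le h

lemma norm_H_snd_le_of_le {v : ℂ} (h : ‖v‖ ≤ 2) : ‖(H v).2‖ ≤ 1 / 4096 := by
  show ‖G (v ^ 2) / 8‖ ≤ 1 / 4096
  rw [norm_div]
  have := norm_G_le_of_le (v := v ^ 2) (by rw [norm_pow]; nlinarith [norm_nonneg v])
  norm_num
  linarith

end Crest.Agent.R123
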