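import Crest.Agent.R123.Wild

/-!
R123 / XKick (helper758): the kick `E : ℂ × ℂ → ℂ` of the design in note 3094,
`E w = 16 S₁(|w₁|) w₁² / |w₁|² + 16 S₂(|w₂|) w₂ / |w₂|`.
-/

set_option autoImplicit false

open scoped ContDiff

namespace Crest.Agent.R123

/-- first half of the kick: `0` for `‖w‖ ≤ 1/512`, norm `16` for `1/256 ≤ ‖w‖` -/
noncomputable def E1 (w : ℂ) : ℂ :=
  ((16 * Real.smoothTransition ((‖w‖ ^ 2 * 262144 - 1) / 3) / ‖w‖ ^ 2 : ℝ) : ℂ) * w ^ 2

/-- second half of the kick: `0` for `‖w‖ ≤ 1/4096`, norm `16` for `1/1024 ≤ ‖w‖` -/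
noncomputable def E2 (w : ℂ) : ℂ :=
  ((16 * Real.smoothTransition ((‖w‖ ^ 2 * 16777216 - 1) / 15) / ‖w‖ : ℝ) : ℂ) * w

/-- the kick -/
noncomputable def kickE (w : ℂ × ℂ) : ℂ := E1 w.1 + E2 w.2

lemma E1_zero {w : ℂ} (h : ‖w‖ ≤ 1 / 512) : E1 w = 0 := by
  unfold E1
  rw [Real.smoothTransition.zero_of_nonpos]
  · simp
  · have := norm_nonneg w
    nlinarith

lemma E2_zero {w : ℂ} (h : ‖w‖ ≤ 1 / 4096) : E2 w = 0 := by
  unfold E2
  rw [Real.smoothTransition.zero_of_nonpos]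
  · simp
  · have := norm_nonneg w
    nlinarith

lemma kickE_zero_of_le {w : ℂ × ℂ} (h1 : ‖w.1‖ ≤ 1 / 512) (h2 : ‖w.2‖ ≤ 1 / 4096) :
    kickE w = 0 := by
  unfold kickE; rw [E1_zero h1, E2_zero h2, add_zero]

lemma kickE_zero : kickE 0 = 0 := kickE_zero_of_le (by simp) (by simp)

lemma norm_E1_le (w : ℂ) : ‖E1 w‖ ≤ 16 := by
  unfold E1
  have h0 := Real.smoothTransition.nonneg ((‖w‖ ^ 2 * 262144 - 1) / 3)
  have h1 := Real.smoothTransition.le_one ((‖w‖ ^ 2 * 262144 - 1) / 3)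
  rw [norm_mul, Complex.norm_real, Real.norm_of_nonneg (by positivity), norm_pow]
  by_cases hw : ‖w‖ = 0
  · rw [hw]; simp
  · rw [div_mul_cancel₀ _ (by positivity)]
    linarith

lemma norm_E2_le (w : ℂ) : ‖E2 w‖ ≤ 16 := by
  unfold E2
  have h0 := Real.smoothTransition.nonneg ((‖w‖ ^ 2 * 16777216 - 1) / 15)
  have h1 := Real.smoothTransition.le_one ((‖w‖ ^ 2 * 16777216 - 1) / 15)
  rw [norm_mul, Complex.norm_real, Real.norm_of_nonneg (by positivity)]
  by_cases hw : ‖w‖ = 0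
  · rw [hw]; simp
  · rw [div_mul_cancel₀ _ hw]
    linarith

lemma norm_kickE_le (w : ℂ × ℂ) : ‖kickE w‖ ≤ 32 := by
  unfold kickE
  refine (norm_add_le _ _).trans ?_
  linarith [norm_E1_le w.1, norm_E2_le w.2]

/-- alignment of the first half -/
lemma E1_align {c : ℝ} (w : ℂ) : ∃ e : ℝ, 0 ≤ e ∧ E1 ((c : ℂ) * w) = (e : ℂ) * w ^ 2 := by
  have h0 := Real.smoothTransition.nonneg ((‖(c : ℂ) * w‖ ^ 2 * 262144 - 1) / 3)
  refine ⟨16 * Real.smoothTransition ((‖(c : ℂ) * w‖ ^ 2 * 262144 - 1) / 3) /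
    ‖(c : ℂ) * w‖ ^ 2 * c ^ 2, by positivity, ?_⟩
  unfold E1
  push_cast
  ring

/-- alignment of the second half -/
lemma E2_align {c : ℝ} (hc : 0 ≤ c) (w : ℂ) :
    ∃ e : ℝ, 0 ≤ e ∧ E2 ((c : ℂ) * w) = (e : ℂ) * w := by
  have h0 := Real.smoothTransition.nonneg ((‖(c : ℂ) * w‖ ^ 2 * 16777216 - 1) / 15)
  refine ⟨16 * Real.smoothTransition ((‖(c : ℂ) * w‖ ^ 2 * 16777216 - 1) / 15) /
    ‖(c : ℂ) * w‖ * c, by positivity, ?_⟩
  unfold E2
  push_cast
  ring

lemma norm_E1_of_ge {w : ℂ} (h : 1 / 256 ≤ ‖w‖) : ‖E1 w‖ = 16 := by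
  unfold E1
  rw [Real.smoothTransition.one_of_one_le]
  · rw [norm_mul, Complex.norm_real, Real.norm_of_nonneg (by positivity), norm_pow]
    have : ‖w‖ ≠ 0 := by linarith
    field_simp
  · nlinarith

lemma norm_E2_of_ge {w : ℂ} (h : 1 / 1024 ≤ ‖w‖) : ‖E2 w‖ = 16 := by
  unfold E2
  rw [Real.smoothTransition.one_of_one_le]
  · rw [norm_mul, Complex.norm_real, Real.norm_of_nonneg (by positivity)]
    have : ‖w‖ ≠ 0 := by linarith
    field_simp
  · nlinarith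

/-- alignment of `E (c H(v))` with `v²`, for `0 ≤ c ≤ 1` -/
lemma kickE_H_align {c : ℝ} (hc : 0 ≤ c) (hc1 : c ≤ 1) (v : ℂ) :
    (∃ e : ℝ, 0 ≤ e ∧ E1 ((c : ℂ) * (H v).1) = (e : ℂ) * v ^ 2) ∧
    (∃ e : ℝ, 0 ≤ e ∧ E2 ((c : ℂ) * (H v).2) = (e : ℂ) * v ^ 2) := by
  constructor
  · by_cases h : ‖v‖ ≤ 4
    · refine ⟨0, le_rfl, ?_⟩
      rw [E1_zero]
      · simp
      · rw [norm_mul, Complex.norm_real, Real.norm_of_nonneg hc]
        have h1 := norm_H_fst_le_of_le h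
        have h2 := norm_nonneg (H v).1
        nlinarith
    · obtain ⟨e, he, h1⟩ := E1_align (c := c) (H v).1
      have h2 : (H v).1 = ((bump v / 2048 : ℝ) : ℂ) * v := G_ray (le_of_not_ge h)
      refine ⟨e * (bump v / 2048) ^ 2, by positivity, ?_⟩
      rw [h1, h2]
      push_cast
      ring
  · by_cases h : ‖v‖ ≤ 2
    · refine ⟨0, le_rfl, ?_⟩
      rw [E2_zero]
      · simp
      · rw [norm_mul, Complex.norm_real, Real.norm_of_nonneg hc]
        have h1 := norm_H_snd_le_of_le h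
        have h2 := norm_nonneg (H v).2
        nlinarith
    · obtain ⟨e, he, h1⟩ := E2_align hc (H v).2
      have h3 : 4 ≤ ‖v ^ 2‖ := by
        rw [norm_pow]
        have := le_of_not_ge h
        nlinarith
      have h2 : (H v).2 = (((bump (v ^ 2) / 2048 : ℝ) : ℂ) * v ^ 2) / 8 := by
        show G (v ^ 2) / 8 = _
        rw [G_ray h3]
      refine ⟨e * (bump (v ^ 2) / 2048 / 8), ?_, ?_⟩
      · have := bump_nonneg (v ^ 2)
        positivity
      · rw [h1, h2]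
        push_cast
        ring

/-- adding aligned vectors -/
lemma norm_aligned_add {a b : ℝ} (ha : 0 ≤ a) (hb : 0 ≤ b) (v : ℂ) :
    ‖(a : ℂ) * v + (b : ℂ) * v‖ = ‖(a : ℂ) * v‖ + ‖(b : ℂ) * v‖ := by
  rw [← add_mul, ← Complex.ofReal_add, norm_mul, norm_mul, norm_mul, Complex.norm_real,
    Complex.norm_real, Complex.norm_real, Real.norm_of_nonneg ha, Real.norm_of_nonneg hb,
    Real.norm_of_nonneg (by positivity)]
  ring

/-- alignment of `E (c H(v))` with `v²`, for `0 ≤ c ≤ 1` -/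
lemma kickE_align {c : ℝ} (hc : 0 ≤ c) (hc1 : c ≤ 1) (v : ℂ) :
    ∃ e : ℝ, 0 ≤ e ∧ kickE ((c : ℂ) • H v) = (e : ℂ) * v ^ 2 := by
  obtain ⟨⟨e, he, h1⟩, ⟨e', he', h2⟩⟩ := kickE_H_align hc hc1 v
  refine ⟨e + e', by positivity, ?_⟩
  unfold kickE
  simp only [Prod.smul_fst, Prod.smul_snd, smul_eq_mul]
  rw [h1, h2]
  push_cast
  ring

/-- the kick is at least `16` when `4 ≤ ‖v‖ ≤ 16` -/
lemma norm_kickE_ge {v : ℂ} (h : 4 ≤ ‖v‖) (h' : ‖v‖ ≤ 16) : 16 ≤ ‖kickE (H v)‖ := by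
  obtain ⟨⟨e, he, h1⟩, ⟨e', he', h2⟩⟩ := kickE_H_align (c := 1) zero_le_one le_rfl v
  simp only [Complex.ofReal_one, one_mul] at h1 h2
  unfold kickE
  rw [h1, h2, norm_aligned_add he he', ← h1, ← h2]
  by_cases h8 : 8 ≤ ‖v‖
  · have h3 : ‖E1 (H v).1‖ = 16 := by
      apply norm_E1_of_ge
      show 1 / 256 ≤ ‖G v‖
      rw [G_mid h8 (by linarith), norm_mul, Complex.norm_real, Real.norm_of_nonneg (by norm_num)]
      linarith
    have := norm_nonneg (E2 (H v).2)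
    linarith
  · have h3 : ‖E2 (H v).2‖ = 16 := by
      apply norm_E2_of_ge
      show 1 / 1024 ≤ ‖G (v ^ 2) / 8‖
      have h4 : ‖v ^ 2‖ = ‖v‖ ^ 2 := norm_pow _ _
      have h5 : ‖v‖ < 8 := lt_of_not_ge h8
      rw [G_mid (by rw [h4]; nlinarith) (by rw [h4]; nlinarith), norm_div, norm_mul,
        Complex.norm_real, Real.norm_of_nonneg (by norm_num), h4]
      norm_num
      nlinarith
    have := norm_nonneg (E1 (H v).1)
    linarith

lemma kickE_H_zero {c : ℝ} (hc : 0 ≤ c) (hc1 : c ≤ 1) {v : ℂ} (h : ‖v‖ ≤ 2) :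
    kickE ((c : ℂ) • H v) = 0 := by
  apply kickE_zero_of_le
  · simp only [Prod.smul_fst, smul_eq_mul]
    rw [norm_mul, Complex.norm_real, Real.norm_of_nonneg hc]
    have h1 := norm_H_fst_le_of_le (v := v) (by linarith)
    have h2 := norm_nonneg (H v).1
    nlinarith
  · simp only [Prod.smul_snd, smul_eq_mul]
    rw [norm_mul, Complex.norm_real, Real.norm_of_nonneg hc]
    have h1 := norm_H_snd_le_of_le (v := v) h
    have h2 := norm_nonneg (H v).2
    nlinarith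

/-! ### smoothness -/

lemma contDiff_E1 {n : ℕ∞} : ContDiff ℝ n E1 := by
  rw [contDiff_iff_contDiffAt]
  intro w
  by_cases hw : w = 0
  · subst hw
    have h1 : E1 =ᶠ[nhds 0] fun _ => 0 := by
      filter_upwards [Metric.closedBall_mem_nhds (0 : ℂ) (ε := 1 / 512) (by norm_num)] with x hx
      exact E1_zero (by simpa using hx)
    exact contDiffAt_const.congr_of_eventuallyEq h1
  · have hn : ‖w‖ ≠ 0 := by simpa using hw
    have h1 : ContDiffAt ℝ n (fun w : ℂ => ‖w‖ ^ 2) w := (contDiff_norm_sq ℝ).contDiffAt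
    unfold E1
    refine ContDiffAt.mul ?_ (contDiffAt_id.pow 2)
    refine Complex.ofRealCLM.contDiff.contDiffAt.comp w ?_
    refine ContDiffAt.div (contDiffAt_const.mul ?_) h1 (by positivity)
    exact Real.smoothTransition.contDiff.contDiffAt.comp w
      (((h1.mul contDiffAt_const).sub contDiffAt_const).div_const _)

lemma contDiff_E2 {n : ℕ∞} : ContDiff ℝ n E2 := by
  rw [contDiff_iff_contDiffAt]
  intro w
  by_cases hw : w = 0
  · subst hw
    have h1 : E2 =ᶠ[nhds 0] fun _ => 0 := by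
      filter_upwards [Metric.closedBall_mem_nhds (0 : ℂ) (ε := 1 / 4096) (by norm_num)] with x hx
      exact E2_zero (by simpa using hx)
    exact contDiffAt_const.congr_of_eventuallyEq h1
  · have hn : ‖w‖ ≠ 0 := by simpa using hw
    have h1 : ContDiffAt ℝ n (fun w : ℂ => ‖w‖ ^ 2) w := (contDiff_norm_sq ℝ).contDiffAt
    have h2 : ContDiffAt ℝ n (fun w : ℂ => ‖w‖) w := contDiffAt_norm ℝ hw
    unfold E2
    refine ContDiffAt.mul ?_ contDiffAt_id
    refine Complex.ofRealCLM.contDiff.contDiffAt.comp w ?_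
    refine ContDiffAt.div (contDiffAt_const.mul ?_) h2 hn
    exact Real.smoothTransition.contDiff.contDiffAt.comp w
      (((h1.mul contDiffAt_const).sub contDiffAt_const).div_const _)

lemma contDiff_kickE {n : ℕ∞} : ContDiff ℝ n kickE := by
  unfold kickE
  exact (contDiff_E1.comp contDiff_fst).add (contDiff_E2.comp contDiff_snd)

end Crest.Agent.R123
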