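/-
R123 / S0163 : definitions of the explicit C¹ map.

`Mfd = S² × S² × S² × S¹`, `S² = unit sphere of ℂ × ℝ`, `S¹ = unit circle of ℂ`.
-/
import Crest.Agent.R123.Wild
import Crest.Agent.R123.XKick

set_option autoImplicit false

noncomputable section

namespace Crest.Agent.R123

open Real (smoothTransition)

/-- `ℂ × ℝ` with the euclidean norm. -/
abbrev E3 : Type := WithLp 2 (ℂ × ℝ)

instance finrankE3 : Fact (Module.finrank ℝ E3 = 2 + 1) := by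
  constructor
  rw [(WithLp.linearEquiv 2 ℝ (ℂ × ℝ)).finrank_eq]
  simp

instance finrankC : Fact (Module.finrank ℝ ℂ = 1 + 1) := finrank_real_complex_fact'

abbrev S2 : Type := Metric.sphere (0 : E3) 1
abbrev S1 : Type := Metric.sphere (0 : ℂ) 1

/-- The manifold. -/
abbrev Mfd : Type := S2 × S2 × S2 × S1

/-- horizontal coordinate of a point of `S²` -/
def ze (x : S2) : ℂ := (x : E3).fst
/-- height of a point of `S²` -/
def he (x : S2) : ℝ := (x : E3).snd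

lemma ze_he (x : S2) : ‖ze x‖ ^ 2 + he x ^ 2 = 1 := by
  have h : ‖(x : E3)‖ = 1 := by simp
  have := WithLp.prod_norm_sq_eq_of_L2 (x : E3)
  rw [h] at this
  simp only [ze, he]
  rw [← sq_abs (x : E3).snd, ← Real.norm_eq_abs]
  linarith

lemma mem_S2 (a : ℂ) (b : ℝ) (h : ‖a‖ ^ 2 + b ^ 2 = 1) :
    (WithLp.toLp 2 (a, b) : E3) ∈ Metric.sphere (0 : E3) 1 := by
  have := WithLp.prod_norm_sq_eq_of_L2 (WithLp.toLp 2 (a, b) : E3)
  simp only [mem_sphere_zero_iff_norm]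
  have h2 : ‖(WithLp.toLp 2 (a, b) : E3)‖ ^ 2 = 1 := by
    rw [this]; simp only [WithLp.toLp_fst, WithLp.toLp_snd, Real.norm_eq_abs, sq_abs]; exact h
  nlinarith [norm_nonneg (WithLp.toLp 2 (a, b) : E3)]

/-- the point of `S²` with given coordinates -/
def mkS2 (a : ℂ) (b : ℝ) (h : ‖a‖ ^ 2 + b ^ 2 = 1) : S2 := ⟨WithLp.toLp 2 (a, b), mem_S2 a b h⟩

@[simp] lemma ze_mkS2 (a : ℂ) (b : ℝ) (h) : ze (mkS2 a b h) = a := rfl
@[simp] lemma he_mkS2 (a : ℂ) (b : ℝ) (h) : he (mkS2 a b h) = b := rfl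

lemma S2_ext {x y : S2} (h1 : ze x = ze y) (h2 : he x = he y) : x = y := by
  apply Subtype.ext
  apply (WithLp.ofLp_injective 2)
  exact Prod.ext h1 h2

def north : S2 := mkS2 0 1 (by simp)
def south : S2 := mkS2 0 (-1) (by simp)

/-- inverse stereographic projection `ℂ → S²` (misses only `north`). -/
def jj (v : ℂ) : S2 := mkS2 (2 * v / (1 + ‖v‖ ^ 2 : ℝ)) ((‖v‖ ^ 2 - 1) / (1 + ‖v‖ ^ 2)) (by
  have : (0:ℝ) < 1 + ‖v‖ ^ 2 := by positivity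
  rw [norm_div, norm_mul, Complex.norm_real, Real.norm_of_nonneg this.le]
  simp only [Complex.norm_ofNat]
  field_simp
  ring)

/-- the squaring map `u ↦ u²` of the Riemann sphere -/
def sqS (x : S2) : S2 := mkS2 ((ze x) ^ 2 / ((1 + he x ^ 2 : ℝ) : ℂ)) (2 * he x / (1 + he x ^ 2)) (by
  have : (0:ℝ) < 1 + he x ^ 2 := by positivity
  have h := ze_he x
  have h2 : ‖ze x‖ ^ 2 = 1 - he x ^ 2 := by linarith
  rw [norm_div, norm_pow, Complex.norm_real, Real.norm_of_nonneg this.le, div_pow, h2]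
  field_simp
  ring)

/-- make a point of `S²` out of a vector (junk value `north` if the norm is not one). -/
def toS2 (a : ℂ) (b : ℝ) : S2 :=
  if h : ‖a‖ ^ 2 + b ^ 2 = 1 then mkS2 a b h else north

/-! ### the wild function (`G` from `Wild.lean`) -/

/-- `G` transported to the sphere (`GS (jj v) = G v`, `GS north = 0`). -/
def GS (x : S2) : ℂ := G (ze x / ((1 - he x : ℝ) : ℂ))

/-! ### cut-offs -/

/-- cut-off identity: `cut z = z` for `‖z‖ ≤ 1/8`, `‖cut z‖ ≤ 1/4`. -/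
def cut (z : ℂ) : ℂ := ((1 - smoothTransition ((64 * ‖z‖ ^ 2 - 1) / 3) : ℝ) : ℂ) * z

/-- `KK h = 0` for `h ≤ 15/17` (`|u| ≤ 4`), `KK h = 1` for `h ≥ 255/257` (`|u| ≥ 16`). -/
def KK (h : ℝ) : ℝ := smoothTransition ((4369 * h - 3855) / 480)

/-! ### the clock -/

/-- one hour: rotation by `2π/12` -/
def hour (t : ℝ) : ℂ := Complex.exp (((Real.pi / 6 * t : ℝ) : ℂ) * Complex.I)

/-- cosine of the angular distance to hour 4 -/
def rho (z : ℂ) : ℝ := (z * (starRingEnd ℂ) (hour 4)).re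

/-- `SZ z = 1` on hours `[1,7]`, `0` on hours `[-4,0]` -/
def SZ (z : ℂ) : ℝ := smoothTransition (1 + 2 * rho z)
/-- `sz z = 1` on hours `[3,5]`, `0` off hours `(2,6)` -/
def sz (z : ℂ) : ℝ := smoothTransition (4 * rho z - 2)
def gam (z : ℂ) : ℝ := SZ z * (1 - SZ (z * hour (-1)))
/-- `psi z = 1` only at hour 5 -/
def psi (z : ℂ) : ℝ := (1 + (z * (starRingEnd ℂ) (hour 5)).re) / 2

/-- speed of the clock -/
def tau (p : Mfd) : ℝ :=
  1 - psi (p.2.2.2 : ℂ) * smoothTransition (-he p.1) * ((1 - he p.2.1) * (1 - he p.2.2.1) / 4)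

/-! ### the map -/

/-- On the Riemann sphere: `u ↦ (k₁/k₂) u² + e`. Unnormalised data. -/
def UX (k₁ k₂ : ℝ) (e a : ℂ) (b : ℝ) : ℂ :=
  ((k₁ * k₂ : ℝ) : ℂ) * (a / 2) ^ 2 + e * ((k₂ ^ 2 * ((1 - b) / 2) ^ 2 : ℝ) : ℂ)
def UY (k₁ k₂ : ℝ) (e a : ℂ) (b : ℝ) : ℝ :=
  k₁ ^ 2 * ((1 + b) / 2) ^ 2 + 2 * k₁ * k₂ * ((a / 2) ^ 2 * (starRingEnd ℂ) e).re
    + ‖e‖ ^ 2 * (k₂ ^ 2 * ((1 - b) / 2) ^ 2)
def UZ (k₂ b : ℝ) : ℝ := k₂ ^ 2 * ((1 - b) / 2) ^ 2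

def UU (k₁ k₂ : ℝ) (e : ℂ) (x : S2) : S2 :=
  toS2 (2 * UX k₁ k₂ e (ze x) (he x) / ((UY k₁ k₂ e (ze x) (he x) + UZ k₂ (he x) : ℝ) : ℂ))
    ((UY k₁ k₂ e (ze x) (he x) - UZ k₂ (he x)) / (UY k₁ k₂ e (ze x) (he x) + UZ k₂ (he x)))

/-- section over the southern hemisphere -/
def sec (ξ : ℂ) : S2 := toS2 ξ (-Real.sqrt (1 - ‖ξ‖ ^ 2))

def k1 (z : ℂ) (x : S2) : ℝ := 1 - sz z + sz z * KK (he x)
def k2 (z : ℂ) (x : S2) : ℝ := 1 - sz z * KK (he x)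

def nextZ (t : ℝ) (z : S1) : S1 := ⟨z * hour t, by
  have h : ‖(z : ℂ)‖ = 1 := by simp
  simp only [mem_sphere_zero_iff_norm, norm_mul, h, hour, Complex.norm_exp_ofReal_mul_I, mul_one]⟩

def xi1 (p : Mfd) : ℂ :=
  (SZ (p.2.2.2 : ℂ) : ℂ) * cut (8 * ze p.2.2.1) + (gam (p.2.2.2 : ℂ) : ℂ) * GS (sqS p.1)
def xi2 (p : Mfd) : ℂ :=
  (SZ (p.2.2.2 : ℂ) : ℂ) * cut (8 * ze p.2.1) + (gam (p.2.2.2 : ℂ) : ℂ) * (GS (sqS (sqS p.1)) / 8)

/-- THE MAP. -/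
def F (p : Mfd) : Mfd :=
  (UU (k1 (p.2.2.2 : ℂ) p.1) (k2 (p.2.2.2 : ℂ) p.1) (kickE (ze p.2.1, ze p.2.2.1)) p.1,
   sec (xi1 p), sec (xi2 p), nextZ (tau p) p.2.2.2)

/-- the point where orbits wait -/
def PP : Mfd := (south, south, south, ⟨hour 5, by
  simp only [mem_sphere_zero_iff_norm, hour, Complex.norm_exp_ofReal_mul_I]⟩)

/-- the rotation circle which absorbs everything else -/
def Circ : Set Mfd := {p | p.1 = north ∧ p.2.1 = south ∧ p.2.2.1 = south}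

end Crest.Agent.R123
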