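/-
R123 / S0163, task CHARTS : transport of the product manifold structure of `Mfd` to the model
`EuclideanSpace ℝ (Fin 7)`.
-/
import Crest.Agent.R123.XDefs
import Crest.Agent.R123.Mfd

set_option autoImplicit false

open scoped Manifold ContDiff

namespace Crest.Agent.R123

theorem exists_charts :
    ∃ (_ : ChartedSpace (EuclideanSpace ℝ (Fin 7)) Mfd)
      (_ : IsManifold (modelWithCornersSelf ℝ (EuclideanSpace ℝ (Fin 7))) ∞ Mfd),
      ∀ f : Mfd → Mfd,
        ContMDiff ((𝓡 2).prod ((𝓡 2).prod ((𝓡 2).prod (𝓡 1))))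
          ((𝓡 2).prod ((𝓡 2).prod ((𝓡 2).prod (𝓡 1)))) 1 f →
        ContMDiff (modelWithCornersSelf ℝ (EuclideanSpace ℝ (Fin 7)))
          (modelWithCornersSelf ℝ (EuclideanSpace ℝ (Fin 7))) 1 f := by
  let _ := pmCharted E3 ℂ
  have _ : IsManifold (modelWithCornersSelf ℝ Mod7) ∞ (PM E3 ℂ) := pm_isManifold E3 ℂ
  refine ⟨tCharted mod7Equiv (PM E3 ℂ), tCharted_isManifold mod7Equiv (PM E3 ℂ), ?_⟩
  intro f hf
  have h : ContMDiff (modelWithCornersSelf ℝ Mod7) (modelWithCornersSelf ℝ Mod7) 1 f := by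
    rw [model_eq]
    exact hf
  exact tCharted_contMDiff mod7Equiv (PM E3 ℂ) f h

end Crest.Agent.R123
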