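import Crest.Agent.R123.XKick

/-!
R123 / XDyn (helper758): abstract orbit theorem for the design of note 3094.

`XOrb` packages the sequences of coordinates of an orbit together with the facts about the map which
the argument uses. Main theorem `XOrb.main`: if the clock is unbounded then eventually the orbit is on
the rotation circle (`inf` and `w = 0`).
-/

set_option autoImplicit false

open Filter

namespace Crest.Agent.R123

/-- coordinates of an orbit: `inf n` means that the first sphere coordinate is `∞`, otherwise it is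
`u n`; `w n` are the carriers, `σ n` is the (lifted) clock. -/
structure XOrb where
  inf : ℕ → Prop
  u : ℕ → ℂ
  w : ℕ → ℂ × ℂ
  σ : ℕ → ℝ
  /-- step of the clock -/
  τ : ℕ → ℝ
  /-- `u' = κ u² + E w` -/
  κ : ℕ → ℝ
  /-- values of the hour functions along the orbit -/
  S : ℕ → ℝ
  γ : ℕ → ℝ
  /-- the cut-off identity -/
  b : ℂ × ℂ → ℂ × ℂ
  b_id : ∀ w : ℂ × ℂ, ‖w‖ ≤ 1 / 8 → b w = w
  σ_succ : ∀ n, σ (n + 1) = σ n + τ n
  τ_nonneg : ∀ n, 0 ≤ τ n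
  τ_le_one : ∀ n, τ n ≤ 1
  /-- the clock has full speed for `1 ≤ ‖u‖` -/
  τ_one : ∀ n, ¬ inf n → 1 ≤ ‖u n‖ → τ n = 1
  /-- waiting near hour 5 when `u = 0` -/
  wait_neg : ∀ n (k : ℤ), ¬ inf n → u n = 0 → 12 * (k : ℝ) + 3 ≤ σ n → σ n ≤ 12 * k + 5 →
    ‖w n‖ ≤ 1 / 512 → σ (n + 1) ≤ 12 * k + 5 + ‖w n‖
  wait_pos : ∀ n (k : ℤ), ¬ inf n → u n = 0 → 12 * (k : ℝ) + 5 ≤ σ n → σ n ≤ 12 * k + 5 + ‖w n‖ →
    ‖w n‖ ≤ 1 / 512 → σ (n + 1) ≤ 12 * k + 5 + 8 * ‖w n‖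
  /-- first sphere -/
  inf_succ : ∀ n, inf n → inf (n + 1)
  not_inf : ∀ n, ¬ inf n → ‖u n‖ ≤ 4 → ¬ inf (n + 1)
  u_succ : ∀ n, ¬ inf n → ¬ inf (n + 1) → u (n + 1) = (κ n : ℂ) * u n ^ 2 + kickE (w n)
  κ_nonneg : ∀ n, 0 ≤ κ n
  κ_le_one : ∀ n, ¬ inf n → ‖u n‖ ≤ 4 → κ n ≤ 1
  one_le_κ : ∀ n, ¬ inf n → ¬ inf (n + 1) → 16 ≤ ‖u n‖ → 1 ≤ κ n
  κ_one : ∀ n (k : ℤ), ¬ inf n → 12 * (k : ℝ) ≤ σ n → σ n ≤ 12 * k + 2 → κ n = 1
  κ_zero : ∀ n (k : ℤ), ¬ inf n → 12 * (k : ℝ) + 3 ≤ σ n → σ n ≤ 12 * k + 4 → ‖u n‖ ≤ 4 → κ n = 0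
  inf_of : ∀ n (k : ℤ), ¬ inf n → 12 * (k : ℝ) + 3 ≤ σ n → σ n ≤ 12 * k + 4 → 16 ≤ ‖u n‖ →
    inf (n + 1)
  /-- carriers -/
  w_succ : ∀ n, ¬ inf n → w (n + 1) = (S n : ℂ) • b (A (w n)) + (γ n : ℂ) • H (u n ^ 2)
  w_succ_inf : ∀ n, inf n → w (n + 1) = (S n : ℂ) • b (A (w n))
  S_one : ∀ n (k : ℤ), 12 * (k : ℝ) + 1 ≤ σ n → σ n ≤ 12 * k + 7 → S n = 1
  S_zero : ∀ n (k : ℤ), 12 * (k : ℝ) + 11 ≤ σ n → σ n ≤ 12 * k + 12 → S n = 0
  γ_nonneg : ∀ n, 0 ≤ γ n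
  γ_le_one : ∀ n, γ n ≤ 1
  γ_zero : ∀ n (k : ℤ), 12 * (k : ℝ) + 2 ≤ σ n → σ n ≤ 12 * k + 12 → γ n = 0
  γ_add : ∀ n (k : ℤ), 12 * (k : ℝ) ≤ σ n → σ n ≤ 12 * k + 1 → σ (n + 1) = σ n + 1 →
    γ n + γ (n + 1) = 1

namespace XOrb

variable (o : XOrb)

lemma b_zero : o.b 0 = 0 := o.b_id 0 (by simp)

lemma A_zero : A (0 : ℂ × ℂ) = 0 := by
  unfold A; simp

lemma A_smul (c : ℂ) (w : ℂ × ℂ) : A (c • w) = c • A w := by
  unfold A
  refine Prod.ext ?_ ?_ <;> simp <;> ring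

lemma norm_A (w : ℂ × ℂ) : ‖A w‖ = 8 * ‖w‖ := by
  unfold A
  rw [Prod.norm_def, Prod.norm_def]
  simp only [norm_mul]
  rw [show ‖(8 : ℂ)‖ = 8 by norm_num, ← mul_max_of_nonneg _ _ (by norm_num : (0 : ℝ) ≤ 8), max_comm]

lemma norm_H_le (v : ℂ) : ‖H v‖ ≤ 1 / 8 := by
  rw [Prod.norm_def]
  exact max_le (norm_H_fst_le v) ((norm_H_snd_le v).trans (by norm_num))

lemma norm_H_le_of_le {v : ℂ} (h : ‖v‖ ≤ 2) : ‖H v‖ ≤ 1 / 512 := by
  rw [Prod.norm_def]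
  exact max_le (norm_H_fst_le_of_le (by linarith)) ((norm_H_snd_le_of_le h).trans (by norm_num))

lemma σ_mono : Monotone o.σ := by
  refine monotone_nat_of_le_succ (fun n => ?_)
  rw [o.σ_succ]
  linarith [o.τ_nonneg n]

/-- the clock does not jump over a unit interval -/
lemma exists_hit (hun : ∀ C : ℝ, ∃ n, C ≤ o.σ n) (N : ℕ) (a : ℝ) (ha : o.σ N ≤ a) :
    ∃ n, N ≤ n ∧ a ≤ o.σ n ∧ o.σ n < a + 1 := by
  classical
  have hex : ∃ n, N ≤ n ∧ a ≤ o.σ n := by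
    obtain ⟨n, hn⟩ := hun a
    exact ⟨max n N, le_max_right _ _, hn.trans (o.σ_mono (le_max_left _ _))⟩
  obtain ⟨h1, h2⟩ := Nat.find_spec hex
  refine ⟨Nat.find hex, h1, h2, ?_⟩
  rcases Nat.eq_or_lt_of_le h1 with h3 | h3
  · rw [← h3]; linarith
  · obtain ⟨m, hm⟩ : ∃ m, Nat.find hex = m + 1 := ⟨Nat.find hex - 1, by omega⟩
    have h4 : ¬ (N ≤ m ∧ a ≤ o.σ m) := Nat.find_min hex (by omega)
    have h5 : o.σ m < a := by
      by_contra hc
      exact h4 ⟨by omega, le_of_not_gt hc⟩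
    rw [hm, o.σ_succ]
    linarith [o.τ_le_one m]

/-- on the rotation circle for ever -/
lemma stay_inf {n : ℕ} (h : o.inf n) : ∀ m, n ≤ m → o.inf m := by
  intro m hm
  induction m, hm using Nat.le_induction with
  | base => exact h
  | succ m _ ih => exact o.inf_succ m ih

lemma stay_circle {n : ℕ} (h : o.inf n) (hw : o.w n = 0) : ∀ m, n ≤ m → o.inf m ∧ o.w m = 0 := by
  intro m hm
  refine ⟨o.stay_inf h m hm, ?_⟩
  induction m, hm using Nat.le_induction with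
  | base => exact hw
  | succ m hm ih =>
    rw [o.w_succ_inf m (o.stay_inf h m hm), ih, A_zero, o.b_zero, smul_zero]

/-- once `inf`, the carriers are killed at the next hour 11 -/
lemma circle_of_inf (hun : ∀ C : ℝ, ∃ n, C ≤ o.σ n) {n : ℕ} (h : o.inf n) :
    ∃ n₀, ∀ m, n₀ ≤ m → o.inf m ∧ o.w m = 0 := by
  obtain ⟨k, hk⟩ := exists_int_gt (o.σ n)
  have hk' : o.σ n ≤ 12 * ((|k| : ℤ) : ℝ) + 11 := by
    have h1 : (k : ℝ) ≤ ((|k| : ℤ) : ℝ) := by exact_mod_cast le_abs_self k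
    have h2 : (0 : ℝ) ≤ ((|k| : ℤ) : ℝ) := by exact_mod_cast abs_nonneg k
    linarith
  obtain ⟨m, hm1, hm2, hm3⟩ := o.exists_hit hun n _ hk'
  refine ⟨m + 1, o.stay_circle (o.stay_inf h _ (by omega)) ?_⟩
  rw [o.w_succ_inf m (o.stay_inf h m hm1), o.S_zero m |k| hm2 (by linarith)]
  simp

/-- large `u` is absorbing -/
lemma big_succ {n : ℕ} (h : o.inf n ∨ 16 ≤ ‖o.u n‖) : o.inf (n + 1) ∨ 16 ≤ ‖o.u (n + 1)‖ := by
  by_cases h1 : o.inf n
  · exact Or.inl (o.inf_succ n h1)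
  by_cases h2 : o.inf (n + 1)
  · exact Or.inl h2
  right
  have h3 : 16 ≤ ‖o.u n‖ := h.resolve_left h1
  rw [o.u_succ n h1 h2]
  have h4 := o.one_le_κ n h1 h2 h3
  have h5 : ‖(o.κ n : ℂ) * o.u n ^ 2‖ ≥ 256 := by
    rw [norm_mul, Complex.norm_real, Real.norm_of_nonneg (o.κ_nonneg n), norm_pow]
    have : (256 : ℝ) ≤ ‖o.u n‖ ^ 2 := by nlinarith
    nlinarith
  have h6 := norm_kickE_le (o.w n)
  have h7 := norm_sub_le_norm_add ((o.κ n : ℂ) * o.u n ^ 2) (kickE (o.w n))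
  linarith

lemma big_stay {n : ℕ} (h : o.inf n ∨ 16 ≤ ‖o.u n‖) :
    ∀ m, n ≤ m → (o.inf m ∨ 16 ≤ ‖o.u m‖) := by
  intro m hm
  induction m, hm using Nat.le_induction with
  | base => exact h
  | succ m _ ih => exact o.big_succ ih

lemma circle_of_big (hun : ∀ C : ℝ, ∃ n, C ≤ o.σ n) {n : ℕ} (h : o.inf n ∨ 16 ≤ ‖o.u n‖) :
    ∃ n₀, ∀ m, n₀ ≤ m → o.inf m ∧ o.w m = 0 := by
  obtain ⟨k, hk⟩ := exists_int_gt (o.σ n)
  have hk' : o.σ n ≤ 12 * ((|k| : ℤ) : ℝ) + 3 := by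
    have h1 : (k : ℝ) ≤ ((|k| : ℤ) : ℝ) := by exact_mod_cast le_abs_self k
    have h2 : (0 : ℝ) ≤ ((|k| : ℤ) : ℝ) := by exact_mod_cast abs_nonneg k
    linarith
  obtain ⟨m, hm1, hm2, hm3⟩ := o.exists_hit hun n _ hk'
  have h1 := o.big_stay h m hm1
  by_cases h2 : o.inf m
  · exact o.circle_of_inf hun h2
  · exact o.circle_of_inf hun (o.inf_of m |k| h2 hm2 (by linarith) (h1.resolve_left h2))

/-- there is a time with `w = 0` in hour `[0,1)` -/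
lemma exists_start (hun : ∀ C : ℝ, ∃ n, C ≤ o.σ n) :
    ∃ (m : ℕ) (k : ℤ), 12 * (k : ℝ) ≤ o.σ m ∧ o.σ m < 12 * k + 1 ∧ o.w m = 0 := by
  classical
  obtain ⟨k, hk⟩ := exists_int_gt (o.σ 0)
  have hk' : o.σ 0 < 12 * (((|k| + 1 : ℤ)) : ℝ) := by
    have h1 : (k : ℝ) ≤ ((|k| : ℤ) : ℝ) := by exact_mod_cast le_abs_self k
    have h2 : (0 : ℝ) ≤ ((|k| : ℤ) : ℝ) := by exact_mod_cast abs_nonneg k
    push_cast at h1 h2 ⊢
    linarith
  set K : ℤ := |k| + 1 with hK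
  have hex : ∃ n, 12 * (K : ℝ) ≤ o.σ n := hun _
  have h1 := Nat.find_spec hex
  obtain ⟨m, hm⟩ : ∃ m, Nat.find hex = m + 1 := by
    refine ⟨Nat.find hex - 1, ?_⟩
    have : Nat.find hex ≠ 0 := by
      intro h0
      rw [h0] at h1
      linarith
    omega
  have h2 : ¬ (12 * (K : ℝ) ≤ o.σ m) := Nat.find_min hex (by omega)
  rw [hm] at h1
  have h3 := o.σ_succ m
  have h4 := o.τ_le_one m
  have h5 : 12 * (((K - 1 : ℤ)) : ℝ) + 11 ≤ o.σ m := by push_cast; linarith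
  have h6 : o.σ m ≤ 12 * (((K - 1 : ℤ)) : ℝ) + 12 := by push_cast; linarith
  have hS := o.S_zero m (K - 1) h5 h6
  have hγ := o.γ_zero m (K - 1) (by linarith) h6
  refine ⟨m + 1, K, h1, by linarith, ?_⟩
  by_cases h7 : o.inf m
  · rw [o.w_succ_inf m h7, hS]; simp
  · rw [o.w_succ m h7, hS, hγ]; simp

/-- `‖u‖ ≤ 1` and `w = 0` at hour `[0,1)` contradicts an unbounded clock. -/
lemma small_absurd (hun : ∀ C : ℝ, ∃ n, C ≤ o.σ n) {m : ℕ} {k : ℤ}
    (h2 : o.σ m < 12 * k + 1) (hw : o.w m = 0)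
    (hi : ¬ o.inf m) (hu : ‖o.u m‖ ≤ 1) : False := by
  have key : ∀ n, m ≤ n → ¬ o.inf n ∧ ‖o.u n‖ ≤ 1 ∧ o.w n = 0 := by
    intro n hn
    induction n, hn using Nat.le_induction with
    | base => exact ⟨hi, hu, hw⟩
    | succ n hn ih =>
      obtain ⟨a1, a2, a3⟩ := ih
      have a4 := o.not_inf n a1 (by linarith)
      have a5 : ‖o.u n ^ 2‖ ≤ 1 := by
        rw [norm_pow]; exact pow_le_one₀ (norm_nonneg _) a2
      refine ⟨a4, ?_, ?_⟩
      · rw [o.u_succ n a1 a4, a3, kickE_zero, add_zero, norm_mul, Complex.norm_real,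
          Real.norm_of_nonneg (o.κ_nonneg n)]
        have a6 := o.κ_le_one n a1 (by linarith)
        have a7 := o.κ_nonneg n
        nlinarith [norm_nonneg (o.u n ^ 2)]
      · rw [o.w_succ n a1, a3, A_zero, o.b_zero, H_zero_of_le_one a5]
        simp
  obtain ⟨p, hp1, hp2, hp3⟩ := o.exists_hit hun m (12 * (k : ℝ) + 3) (by linarith)
  obtain ⟨b1, b2, b3⟩ := key p hp1
  have b4 : o.u (p + 1) = 0 := by
    rw [o.u_succ p b1 (key (p + 1) (by omega)).1,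
      o.κ_zero p k b1 hp2 (by linarith) (by linarith), b3, kickE_zero]
    simp
  have hu0 : ∀ n, p + 1 ≤ n → o.u n = 0 := by
    intro n hn
    induction n, hn using Nat.le_induction with
    | base => exact b4
    | succ n hn ih =>
      rw [o.u_succ n (key n (by omega)).1 (key (n + 1) (by omega)).1, ih,
        (key n (by omega)).2.2, kickE_zero]
      simp
  have hσ : ∀ n, p + 1 ≤ n → 12 * (k : ℝ) + 3 ≤ o.σ n ∧ o.σ n ≤ 12 * k + 5 := by
    intro n hn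
    induction n, hn using Nat.le_induction with
    | base =>
      have := o.σ_succ p
      have h4 := o.τ_le_one p
      have h5 := o.τ_nonneg p
      constructor <;> linarith
    | succ n hn ih =>
      have h3 := (key n (by omega)).2.2
      have h4 := o.wait_neg n k (key n (by omega)).1 (hu0 n hn) ih.1 ih.2 (by rw [h3]; simp)
      rw [h3, norm_zero, add_zero] at h4
      exact ⟨ih.1.trans (o.σ_mono (Nat.le_succ n)), h4⟩
  obtain ⟨q, hq⟩ := hun (12 * (k : ℝ) + 6)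
  have h3 := (hσ (max q (p + 1)) (le_max_right _ _)).2
  have h4 := o.σ_mono (le_max_left q (p + 1))
  linarith

/-- one aligned step -/
lemma aligned_step {n : ℕ} {v : ℂ} (hv : ‖v‖ ≤ 4) (hi : ¬ o.inf n) (hi' : ¬ o.inf (n + 1))
    (hw : o.w n = H v) (hu : ∃ r : ℝ, 0 ≤ r ∧ o.u n = (r : ℂ) * v) (hS : o.S n = 1)
    (hγ : o.γ n = 0) :
    o.w (n + 1) = H (v ^ 2) ∧ ∃ r : ℝ, 0 ≤ r ∧ o.u (n + 1) = (r : ℂ) * v ^ 2 := by
  constructor
  · rw [o.w_succ n hi, hS, hγ, hw, A_H hv, o.b_id _ (norm_H_le _)]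
    simp
  · obtain ⟨r, hr, hr'⟩ := hu
    obtain ⟨e, he, he'⟩ := kickE_align (c := 1) zero_le_one le_rfl v
    rw [Complex.ofReal_one, one_smul] at he'
    refine ⟨o.κ n * r ^ 2 + e, ?_, ?_⟩
    · have := o.κ_nonneg n
      positivity
    · rw [o.u_succ n hi hi', hw, he', hr']
      push_cast
      ring

/-- an aligned state with `4 ≤ ‖v‖ ≤ 16` becomes big -/
lemma aligned_big {n : ℕ} {v : ℂ} (hv : 4 ≤ ‖v‖) (hv' : ‖v‖ ≤ 16) (hi : ¬ o.inf n)
    (hi' : ¬ o.inf (n + 1)) (hw : o.w n = H v) (hu : ∃ r : ℝ, 0 ≤ r ∧ o.u n = (r : ℂ) * v) :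
    16 ≤ ‖o.u (n + 1)‖ := by
  obtain ⟨r, hr, hr'⟩ := hu
  obtain ⟨e, he, he'⟩ := kickE_align (c := 1) zero_le_one le_rfl v
  rw [Complex.ofReal_one, one_smul] at he'
  have h1 := norm_kickE_ge hv hv'
  have hκ := o.κ_nonneg n
  have h2 : o.u (n + 1) = ((o.κ n * r ^ 2 : ℝ) : ℂ) * v ^ 2 + (e : ℂ) * v ^ 2 := by
    rw [o.u_succ n hi hi', hw, he', hr']
    push_cast
    ring
  rw [h2, norm_aligned_add (by positivity) he, ← he']
  have := norm_nonneg (((o.κ n * r ^ 2 : ℝ) : ℂ) * v ^ 2)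
  linarith

/-- `‖u‖ > 1` and `w = 0` at hour `[0,1)`: the orbit gets big. -/
lemma large_big {m : ℕ} {k : ℤ}
    (h1 : 12 * (k : ℝ) ≤ o.σ m) (h2 : o.σ m < 12 * k + 1) (hw : o.w m = 0)
    (hu : 1 < ‖o.u m‖) : ∃ n, o.inf n ∨ 16 ≤ ‖o.u n‖ := by
  classical
  by_contra hcon
  push Not at hcon
  have hinf : ∀ n, ¬ o.inf n := fun n => (hcon n).1
  have hlt : ∀ n, ‖o.u n‖ < 16 := fun n => (hcon n).2
  -- the clock
  have t0 : o.τ m = 1 := o.τ_one m (hinf m) hu.le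
  have s1 : o.σ (m + 1) = o.σ m + 1 := by rw [o.σ_succ, t0]
  have k0 : o.κ m = 1 := o.κ_one m k (hinf m) h1 (by linarith)
  have k1 : o.κ (m + 1) = 1 := o.κ_one (m + 1) k (hinf _) (by linarith) (by linarith)
  -- the virtual coordinate
  set V : ℕ → ℂ := fun j => o.u m ^ (2 ^ j) with hV
  have hVs : ∀ j, V (j + 1) = V j ^ 2 := by
    intro j
    simp only [hV]
    rw [← pow_mul, pow_succ]
  have hVn : ∀ j, ‖V (j + 1)‖ = ‖V j‖ ^ 2 := by
    intro j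
    rw [hVs, norm_pow]
  have hV0 : V 0 = o.u m := by simp [hV]
  have hV1 : V 1 = o.u m ^ 2 := by simp [hV]
  have hex : ∃ j, 4 ≤ ‖V j‖ := by
    obtain ⟨N, hN⟩ := pow_unbounded_of_one_lt 4 hu
    refine ⟨N, ?_⟩
    simp only [hV]
    rw [norm_pow]
    calc (4 : ℝ) ≤ ‖o.u m‖ ^ N := hN.le
      _ ≤ ‖o.u m‖ ^ (2 ^ N) := pow_le_pow_right₀ hu.le Nat.lt_two_pow_self.le
  -- times 1 and 2
  have u1 : o.u (m + 1) = V 1 := by
    rw [o.u_succ m (hinf _) (hinf _), k0, hw, kickE_zero, hV1]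
    simp
  have w1 : o.w (m + 1) = (o.γ m : ℂ) • H (V 1) := by
    rw [o.w_succ m (hinf _), hw, A_zero, o.b_zero, smul_zero, zero_add, hV1]
  have hone : ∀ j, 1 < ‖V j‖ := by
    intro j
    simp only [hV]
    rw [norm_pow]
    exact one_lt_pow₀ hu (by positivity)
  have t1 : o.τ (m + 1) = 1 := o.τ_one (m + 1) (hinf _) (by rw [u1]; exact (hone 1).le)
  have s2 : o.σ (m + 2) = o.σ m + 2 := by
    rw [show m + 2 = m + 1 + 1 from rfl, o.σ_succ, t1, s1]; ring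
  have g0 := o.γ_nonneg m
  have g1 := o.γ_le_one m
  have u2 : o.u (m + 2) = V 2 + kickE ((o.γ m : ℂ) • H (V 1)) := by
    rw [show m + 2 = m + 1 + 1 from rfl, o.u_succ (m + 1) (hinf _) (hinf _), k1, w1, u1,
      hVs 1]
    simp
  obtain ⟨e, he, he'⟩ := kickE_align g0 g1 (V 1)
  rw [← hVs 1] at he'
  have t2 : o.τ (m + 2) = 1 := by
    refine o.τ_one (m + 2) (hinf _) ?_
    have h5 : V 2 + (e : ℂ) * V (1 + 1) = ((1 + e : ℝ) : ℂ) * V 2 := by
      push_cast; ring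
    rw [u2, he', h5, norm_mul, Complex.norm_real, Real.norm_of_nonneg (by positivity)]
    nlinarith [hone 2]
  have s3 : o.σ (m + 3) = o.σ m + 3 := by
    rw [show m + 3 = m + 2 + 1 from rfl, o.σ_succ, t2, s2]; ring
  have hV1lt : ‖V 1‖ < 4 := by
    by_contra hc
    have h3 := hlt (m + 2)
    rw [u2, he'] at h3
    have h4 : V (1 + 1) = ((1 : ℝ) : ℂ) * V (1 + 1) := by simp
    have h5 : V 2 + (e : ℂ) * V (1 + 1) = ((1 : ℝ) : ℂ) * V (1 + 1) + (e : ℂ) * V (1 + 1) := by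
      rw [← h4]
    rw [h5, norm_aligned_add zero_le_one he, ← h4, hVn 1] at h3
    have := norm_nonneg ((e : ℂ) * V (1 + 1))
    have := le_of_not_gt hc
    nlinarith
  have w2 : o.w (m + 2) = H (V 2) := by
    have hS : o.S (m + 1) = 1 := o.S_one (m + 1) k (by linarith) (by linarith)
    have h3 : A ((o.γ m : ℂ) • H (V 1)) = (o.γ m : ℂ) • H (V 2) := by
      rw [A_smul, A_H hV1lt.le, hVs 1]
    have h4 : ‖(o.γ m : ℂ) • H (V 2)‖ ≤ 1 / 8 := by
      rw [norm_smul, Complex.norm_real, Real.norm_of_nonneg g0]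
      nlinarith [norm_H_le (V 2), norm_nonneg (H (V 2))]
    rw [show m + 2 = m + 1 + 1 from rfl, o.w_succ (m + 1) (hinf _), hS, w1, h3, o.b_id _ h4, u1,
      ← hVs 1, Complex.ofReal_one, one_smul, ← add_smul, ← Complex.ofReal_add,
      o.γ_add m k h1 h2.le s1, Complex.ofReal_one, one_smul]
  have a2 : ∃ r : ℝ, 0 ≤ r ∧ o.u (m + 2) = (r : ℂ) * V 2 := by
    refine ⟨1 + e, by positivity, ?_⟩
    rw [u2, he']
    push_cast
    ring
  -- first time with `‖V‖ ≥ 4`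
  set J := Nat.find hex with hJ
  have hJ4 : 4 ≤ ‖V J‖ := Nat.find_spec hex
  have hJlt : ∀ j, j < J → ‖V j‖ < 4 := by
    intro j hj
    have := Nat.find_min hex hj
    exact lt_of_not_ge this
  have hJlt2 : ∀ j, j + 1 < J → ‖V j‖ < 2 := by
    intro j hj
    have h3 := hJlt (j + 1) hj
    rw [hVn] at h3
    nlinarith [norm_nonneg (V j)]
  have hJ2 : 2 ≤ J := by
    by_contra hc
    have h3 : J = 0 ∨ J = 1 := by omega
    rcases h3 with h3 | h3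
    · rw [h3, hV0] at hJ4
      have h4 : ‖V 1‖ = ‖o.u m‖ ^ 2 := by rw [hV1, norm_pow]
      nlinarith
    · rw [h3] at hJ4; linarith
  have hJ16 : ‖V J‖ ≤ 16 := by
    obtain ⟨j, hj⟩ : ∃ j, J = j + 1 := ⟨J - 1, by omega⟩
    have h3 := hJlt j (by omega)
    rw [hj, hVn]
    nlinarith [norm_nonneg (V j)]
  -- it suffices to be aligned at time `J`
  have fin : ¬ (o.w (m + J) = H (V J) ∧ ∃ r : ℝ, 0 ≤ r ∧ o.u (m + J) = (r : ℂ) * V J) := by
    rintro ⟨h3, h4⟩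
    have := o.aligned_big hJ4 hJ16 (hinf _) (hinf _) h3 h4
    linarith [hlt (m + J + 1)]
  by_cases J2 : J = 2
  · rw [J2] at fin; exact fin ⟨w2, a2⟩
  have v2 : ‖V 2‖ < 4 := hJlt 2 (by omega)
  have v1 : ‖V 1‖ < 2 := hJlt2 1 (by omega)
  have u2' : o.u (m + 2) = V 2 := by
    rw [u2, kickE_H_zero g0 g1 v1.le, add_zero]
  obtain ⟨w3, a3⟩ := o.aligned_step v2.le (hinf (m + 2)) (hinf _) w2 a2
    (o.S_one _ k (by linarith) (by linarith)) (o.γ_zero _ k (by linarith) (by linarith))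
  rw [← hVs 2] at w3 a3
  by_cases J3 : J = 3
  · rw [J3] at fin; exact fin ⟨w3, a3⟩
  have v3 : ‖V 3‖ < 4 := hJlt 3 (by omega)
  have v2' : ‖V 2‖ < 2 := hJlt2 2 (by omega)
  have e2 : kickE (H (V 2)) = 0 := by
    have := kickE_H_zero (c := 1) zero_le_one le_rfl v2'.le
    simpa using this
  have u3 : ‖o.u (m + 3)‖ ≤ 4 := by
    rw [show m + 3 = m + 2 + 1 from rfl, o.u_succ (m + 2) (hinf _) (hinf _), w2, e2, add_zero, u2',
      norm_mul, Complex.norm_real, Real.norm_of_nonneg (o.κ_nonneg _), ← hVs 2]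
    have h3 := o.κ_le_one (m + 2) (hinf _) (by rw [u2']; exact v2.le)
    have h4 := o.κ_nonneg (m + 2)
    have : V (2 + 1) = V 3 := rfl
    rw [this]
    nlinarith [norm_nonneg (V 3)]
  obtain ⟨w4, a4⟩ := o.aligned_step v3.le (hinf (m + 3)) (hinf _) w3 a3
    (o.S_one _ k (by linarith) (by linarith)) (o.γ_zero _ k (by linarith) (by linarith))
  rw [← hVs 3] at w4 a4
  by_cases J4 : J = 4
  · rw [J4] at fin; exact fin ⟨w4, a4⟩
  have v3' : ‖V 3‖ < 2 := hJlt2 3 (by omega)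
  have e3 : kickE (H (V 3)) = 0 := by
    have := kickE_H_zero (c := 1) zero_le_one le_rfl v3'.le
    simpa using this
  have u4 : o.u (m + 4) = 0 := by
    rw [show m + 4 = m + 3 + 1 from rfl, o.u_succ (m + 3) (hinf _) (hinf _),
      o.κ_zero (m + 3) k (hinf _) (by linarith) (by linarith) u3, w3]
    have : V (2 + 1) = V 3 := rfl
    rw [this, e3]
    simp
  have s4 : o.σ (m + 4) = o.σ (m + 3) + o.τ (m + 3) := o.σ_succ (m + 3)
  have t3 := o.τ_nonneg (m + 3)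
  have t3' := o.τ_le_one (m + 3)
  -- waiting
  have wait : ∀ j, 4 ≤ j → j + 1 ≤ J → o.w (m + j) = H (V j) ∧ o.u (m + j) = 0 ∧
      12 * (k : ℝ) + 3 ≤ o.σ (m + j) ∧ o.σ (m + j) ≤ 12 * k + 5 + ‖H (V j)‖ := by
    intro j hj
    induction j, hj using Nat.le_induction with
    | base =>
      intro _
      refine ⟨w4, u4, by linarith, ?_⟩
      have := norm_nonneg (H (V 4))
      linarith
    | succ j hj ih =>
      intro hj'
      obtain ⟨i1, i2, i3, i4⟩ := ih (by omega)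
      have vj : ‖V j‖ < 2 := hJlt2 j (by omega)
      have hH : ‖H (V j)‖ ≤ 1 / 512 := norm_H_le_of_le vj.le
      obtain ⟨w5, _⟩ := o.aligned_step (v := V j) (by linarith) (hinf (m + j)) (hinf _) i1
        ⟨0, le_rfl, by rw [i2]; simp⟩
        (o.S_one _ k (by linarith) (by linarith)) (o.γ_zero _ k (by linarith) (by linarith))
      rw [← hVs j] at w5
      have ej : kickE (H (V j)) = 0 := by
        have := kickE_H_zero (c := 1) zero_le_one le_rfl vj.le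
        simpa using this
      have hA : ‖H (V (j + 1))‖ = 8 * ‖H (V j)‖ := by
        rw [hVs j, ← A_H (v := V j) (by linarith), norm_A]
      refine ⟨w5, ?_, ?_, ?_⟩
      · rw [show m + (j + 1) = m + j + 1 from rfl, o.u_succ (m + j) (hinf _) (hinf _), i1, i2, ej]
        simp
      · exact i3.trans (o.σ_mono (by omega))
      · rw [hA]
        by_cases hs : o.σ (m + j) ≤ 12 * k + 5
        · have h3 := o.wait_neg (m + j) k (hinf _) i2 i3 hs (by rw [i1]; exact hH)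
          rw [i1] at h3
          have h4 := norm_nonneg (H (V j))
          have h5 : o.σ (m + (j + 1)) ≤ 12 * k + 5 + ‖H (V j)‖ := h3
          linarith
        · have h3 := o.wait_pos (m + j) k (hinf _) i2 (le_of_not_ge hs)
            (by rw [i1]; exact i4) (by rw [i1]; exact hH)
          rw [i1] at h3
          exact h3
  obtain ⟨j, hj⟩ : ∃ j, J = j + 1 := ⟨J - 1, by omega⟩
  obtain ⟨i1, i2, i3, i4⟩ := wait j (by omega) (by omega)
  have vj : ‖V j‖ < 4 := hJlt j (by omega)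
  have hH : ‖H (V j)‖ ≤ 1 / 8 := norm_H_le _
  have last := o.aligned_step (v := V j) vj.le (hinf (m + j)) (hinf _) i1
    ⟨0, le_rfl, by rw [i2]; simp⟩
    (o.S_one _ k (by linarith) (by linarith)) (o.γ_zero _ k (by linarith) (by linarith))
  rw [← hVs j] at last
  rw [hj] at fin
  exact fin last

/-- **Main theorem**: if the clock is unbounded, then the orbit is eventually on the circle. -/
theorem main (hun : ∀ C : ℝ, ∃ n, C ≤ o.σ n) : ∃ n₀, ∀ m, n₀ ≤ m → o.inf m ∧ o.w m = 0 := by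
  obtain ⟨m, k, h1, h2, hw⟩ := o.exists_start hun
  by_cases hi : o.inf m
  · exact o.circle_of_inf hun hi
  by_cases hu : ‖o.u m‖ ≤ 1
  · exact (o.small_absurd hun h2 hw hi hu).elim
  · obtain ⟨n, hn⟩ := o.large_big h1 h2 hw (lt_of_not_ge hu)
    exact o.circle_of_big hun hn

end XOrb

end Crest.Agent.R123
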