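import Crest.Agent.R123.XLocal
import Crest.Agent.R123.XDyn

/-!
R123 / XOrbits (helper758): every orbit of `F` with unbounded clock is eventually in `Circ`.
-/

set_option autoImplicit false

noncomputable section

open Filter

namespace Crest.Agent.R123

namespace XO

/-- affine coordinate on the first sphere -/
def uc (x : S2) : ℂ := by
  classical
  exact if h : ∃ v : ℂ, x = jj v then h.choose else 0

lemma uc_jj (v : ℂ) : uc (jj v) = v := by
  have h : ∃ v' : ℂ, jj v = jj v' := ⟨v, rfl⟩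
  unfold uc
  rw [dif_pos h]
  exact (jj_injective h.choose_spec).symm

lemma jj_uc {x : S2} (h : x ≠ north) : jj (uc x) = x := by
  obtain ⟨v, hv⟩ := (eq_north_or_jj x).resolve_left h
  rw [hv, uc_jj]

/-- the orbit (started at `F p`) -/
def xx (p : Mfd) (n : ℕ) : Mfd := F^[n + 1] p

lemma xx_succ (p : Mfd) (n : ℕ) : xx p (n + 1) = F (xx p n) := by
  unfold xx
  rw [Function.iterate_succ_apply']

/-- the lifted clock -/
def sg (p : Mfd) (n : ℕ) : ℝ :=
  (exists_hour (xx p 0).2.2.2).choose + ∑ k ∈ Finset.range n, tau (xx p k)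

lemma sg_succ (p : Mfd) (n : ℕ) : sg p (n + 1) = sg p n + tau (xx p n) := by
  unfold sg
  rw [Finset.sum_range_succ]
  ring

lemma z_eq (p : Mfd) (n : ℕ) : ((xx p n).2.2.2 : ℂ) = hour (sg p n) := by
  induction n with
  | zero =>
    unfold sg
    simp only [Finset.range_zero, Finset.sum_empty, add_zero]
    exact (exists_hour (xx p 0).2.2.2).choose_spec
  | succ n ih =>
    rw [sg_succ, hour_add, ← ih, xx_succ]
    rfl

def ww (p : Mfd) (n : ℕ) : ℂ × ℂ := (ze (xx p n).2.1, ze (xx p n).2.2.1)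

lemma sec1 (p : Mfd) (n : ℕ) : (xx p n).2.1 = sec (ww p n).1 := by
  have h : (xx p n).2.1 = sec (xi1 (F^[n] p)) := by
    unfold xx
    rw [Function.iterate_succ_apply']
    rfl
  show (xx p n).2.1 = sec (ze (xx p n).2.1)
  rw [h, ze_sec ((norm_xi1_le _).trans (by norm_num))]

lemma sec2 (p : Mfd) (n : ℕ) : (xx p n).2.2.1 = sec (ww p n).2 := by
  have h : (xx p n).2.2.1 = sec (xi2 (F^[n] p)) := by
    unfold xx
    rw [Function.iterate_succ_apply']
    rfl
  show (xx p n).2.2.1 = sec (ze (xx p n).2.2.1)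
  rw [h, ze_sec ((norm_xi2_le _).trans (by norm_num))]

lemma ww_succ (p : Mfd) (n : ℕ) : ww p (n + 1) = (xi1 (xx p n), xi2 (xx p n)) := by
  show (ze (xx p (n + 1)).2.1, ze (xx p (n + 1)).2.2.1) = _
  rw [xx_succ]
  show (ze (sec (xi1 (xx p n))), ze (sec (xi2 (xx p n)))) = _
  rw [ze_sec ((norm_xi1_le _).trans (by norm_num)), ze_sec ((norm_xi2_le _).trans (by norm_num))]

def ee (p : Mfd) (n : ℕ) : ℂ := kickE (ww p n)

def kk1 (p : Mfd) (n : ℕ) : ℝ := k1 ((xx p n).2.2.2 : ℂ) (xx p n).1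
def kk2 (p : Mfd) (n : ℕ) : ℝ := k2 ((xx p n).2.2.2 : ℂ) (xx p n).1

lemma fst_succ (p : Mfd) (n : ℕ) :
    (xx p (n + 1)).1 = UU (kk1 p n) (kk2 p n) (ee p n) (xx p n).1 := by
  rw [xx_succ]
  rfl

lemma kk1_nonneg (p : Mfd) (n : ℕ) : 0 ≤ kk1 p n := by
  unfold kk1 k1
  have h1 := sz_nonneg ((xx p n).2.2.2 : ℂ)
  have h2 := sz_le_one ((xx p n).2.2.2 : ℂ)
  have h3 := KK_nonneg (he (xx p n).1)
  nlinarith

lemma kk2_nonneg (p : Mfd) (n : ℕ) : 0 ≤ kk2 p n := by
  unfold kk2 k2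
  have h1 := sz_nonneg ((xx p n).2.2.2 : ℂ)
  have h2 := sz_le_one ((xx p n).2.2.2 : ℂ)
  have h3 := KK_nonneg (he (xx p n).1)
  have h4 := KK_le_one (he (xx p n).1)
  nlinarith

lemma kk_small {p : Mfd} {n : ℕ} (h : (xx p n).1 ≠ north) (hu : ‖uc (xx p n).1‖ ≤ 4) :
    kk1 p n = 1 - sz ((xx p n).2.2.2 : ℂ) ∧ kk2 p n = 1 := by
  have h1 : KK (he (xx p n).1) = 0 := by
    rw [← jj_uc h]; exact KK_jj_of_le hu
  unfold kk1 kk2 k1 k2
  rw [h1]
  constructor <;> ring

lemma kk_large {p : Mfd} {n : ℕ} (h : (xx p n).1 ≠ north) (hu : 16 ≤ ‖uc (xx p n).1‖) :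
    kk1 p n = 1 ∧ kk2 p n = 1 - sz ((xx p n).2.2.2 : ℂ) := by
  have h1 : KK (he (xx p n).1) = 1 := by
    rw [← jj_uc h]; exact KK_jj_of_ge hu
  unfold kk1 kk2 k1 k2
  rw [h1]
  constructor <;> ring

/-- if `k₂ = 0` then the next point is `north` -/
lemma north_of_kk2 {p : Mfd} {n : ℕ} (h : (xx p n).1 ≠ north) (h2 : kk2 p n = 0) :
    (xx p (n + 1)).1 = north := by
  have h3 : sz ((xx p n).2.2.2 : ℂ) * KK (he (xx p n).1) = 1 := by
    unfold kk2 k2 at h2; linarith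
  have h4 := sz_nonneg ((xx p n).2.2.2 : ℂ)
  have h5 := sz_le_one ((xx p n).2.2.2 : ℂ)
  have h6 := KK_nonneg (he (xx p n).1)
  have h7 := KK_le_one (he (xx p n).1)
  have h8 : sz ((xx p n).2.2.2 : ℂ) = 1 := by nlinarith
  have h9 : KK (he (xx p n).1) = 1 := by nlinarith
  have h10 : kk1 p n = 1 := by
    unfold kk1 k1; rw [h8, h9]; ring
  have h11 : uc (xx p n).1 ≠ 0 := by
    intro h0
    have := (kk_small h (by rw [h0]; simp)).2
    linarith
  rw [fst_succ, h2, ← jj_uc h]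
  exact UU_jj_top _ (by rw [h10]; norm_num) h11

lemma fst_succ_jj {p : Mfd} {n : ℕ} (h : (xx p n).1 ≠ north) (h2 : kk2 p n ≠ 0) :
    (xx p (n + 1)).1 = jj ((kk1 p n / kk2 p n : ℝ) * uc (xx p n).1 ^ 2 + ee p n) := by
  have h3 : 0 < kk2 p n := lt_of_le_of_ne (kk2_nonneg p n) (Ne.symm h2)
  rw [fst_succ, ← jj_uc h, UU_jj _ _ (kk1_nonneg p n) h3, jj_uc h]

lemma xx_eq_south {p : Mfd} {n : ℕ} (h : (xx p n).1 ≠ north) (hu : uc (xx p n).1 = 0) :
    xx p n = (south, sec (ww p n).1, sec (ww p n).2, (xx p n).2.2.2) := by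
  have h1 : (xx p n).1 = south := by
    rw [← jj_uc h, hu, jj_zero]
  refine Prod.ext h1 (Prod.ext (sec1 p n) (Prod.ext (sec2 p n) rfl))

/-- the abstract orbit attached to `p` -/
def orb (p : Mfd) : XOrb where
  inf n := (xx p n).1 = north
  u n := uc (xx p n).1
  w n := ww p n
  σ n := sg p n
  τ n := tau (xx p n)
  κ n := kk1 p n / kk2 p n
  S n := SZ ((xx p n).2.2.2 : ℂ)
  γ n := gam ((xx p n).2.2.2 : ℂ)
  b w := (cut w.1, cut w.2)
  b_id w hw := by
    rw [Prod.norm_def] at hw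
    rw [cut_of_le ((le_max_left _ _).trans hw), cut_of_le ((le_max_right _ _).trans hw)]
  σ_succ := sg_succ p
  τ_nonneg n := tau_nonneg _
  τ_le_one n := tau_le_one _
  τ_one n h hu := tau_of_one_le (jj_uc h).symm hu
  wait_neg n k h hu h3 h5 hw := by
    have h6 := tau_wait k (ww p n).1 (ww p n).2
      ((norm_fst_le (ww p n)).trans (hw.trans (by norm_num)))
      ((norm_snd_le (ww p n)).trans (hw.trans (by norm_num))) (xx p n).2.2.2 (z_eq p n)
    rw [← xx_eq_south h hu] at h6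
    have h7 := tau_le_one (xx p n)
    have h8 := norm_fst_le (ww p n)
    have h9 := norm_snd_le (ww p n)
    have h10 := norm_nonneg (ww p n).1
    have h11 := norm_nonneg (ww p n).2
    rw [sg_succ]
    by_cases hs : sg p n ≤ 12 * k + 4
    · have := norm_nonneg (ww p n)
      linarith
    · have hs' := le_of_not_ge hs
      have h12 : ‖(ww p n).1‖ ^ 2 ≤ ‖ww p n‖ := by nlinarith
      have h13 : ‖(ww p n).2‖ ^ 2 ≤ ‖ww p n‖ := by nlinarith
      have h14 : (sg p n - (12 * k + 5)) ^ 2 ≤ -(sg p n - (12 * k + 5)) := by nlinarith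
      linarith
  wait_pos n k h hu h3 h5 hw := by
    have h6 := tau_wait k (ww p n).1 (ww p n).2
      ((norm_fst_le (ww p n)).trans (hw.trans (by norm_num)))
      ((norm_snd_le (ww p n)).trans (hw.trans (by norm_num))) (xx p n).2.2.2 (z_eq p n)
    rw [← xx_eq_south h hu] at h6
    have h8 := norm_fst_le (ww p n)
    have h9 := norm_snd_le (ww p n)
    have h10 := norm_nonneg (ww p n).1
    have h11 := norm_nonneg (ww p n).2
    rw [sg_succ]
    have h12 : ‖(ww p n).1‖ ^ 2 ≤ ‖ww p n‖ := by nlinarith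
    have h13 : ‖(ww p n).2‖ ^ 2 ≤ ‖ww p n‖ := by nlinarith
    have h14 : (sg p n - (12 * k + 5)) ^ 2 ≤ ‖ww p n‖ := by nlinarith [norm_nonneg (ww p n)]
    linarith
  inf_succ n h := by
    show (xx p (n + 1)).1 = north
    rw [fst_succ, show (xx p n).1 = north from h]
    refine UU_north _ ?_
    unfold kk1 k1
    rw [show (xx p n).1 = north from h, KK_north]
    linarith
  not_inf n h hu := by
    show ¬ (xx p (n + 1)).1 = north
    rw [fst_succ_jj h (by rw [(kk_small h hu).2]; norm_num)]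
    exact jj_ne_north _
  u_succ n h h' := by
    have h2 : kk2 p n ≠ 0 := fun h0 => h' (north_of_kk2 h h0)
    rw [fst_succ_jj h h2, uc_jj]
    rfl
  κ_nonneg n := div_nonneg (kk1_nonneg p n) (kk2_nonneg p n)
  κ_le_one n h hu := by
    rw [(kk_small h hu).1, (kk_small h hu).2, div_one]
    linarith [sz_nonneg ((xx p n).2.2.2 : ℂ)]
  one_le_κ n h h' hu := by
    have h2 : kk2 p n ≠ 0 := fun h0 => h' (north_of_kk2 h h0)
    have h3 : 0 < kk2 p n := lt_of_le_of_ne (kk2_nonneg p n) (Ne.symm h2)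
    rw [le_div_iff₀ h3, (kk_large h hu).1, (kk_large h hu).2]
    linarith [sz_nonneg ((xx p n).2.2.2 : ℂ)]
  κ_one n k h h1 h2 := by
    have h3 : sz ((xx p n).2.2.2 : ℂ) = 0 := by
      rw [z_eq]; exact sz_zero k (by linarith) h2
    have h4 : kk1 p n = 1 := by unfold kk1 k1; rw [h3]; ring
    have h5 : kk2 p n = 1 := by unfold kk2 k2; rw [h3]; ring
    rw [h4, h5, div_one]
  κ_zero n k h h1 h2 hu := by
    have h3 : sz ((xx p n).2.2.2 : ℂ) = 1 := by
      rw [z_eq]; exact sz_one k h1 (by linarith)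
    rw [(kk_small h hu).1, h3]
    simp
  inf_of n k h h1 h2 hu := by
    have h3 : sz ((xx p n).2.2.2 : ℂ) = 1 := by
      rw [z_eq]; exact sz_one k h1 (by linarith)
    exact north_of_kk2 h (by rw [(kk_large h hu).2, h3]; ring)
  w_succ n h := by
    have h1 : (xx p n).1 = jj (uc (xx p n).1) := (jj_uc h).symm
    have h2 : xi1 (xx p n) = (SZ ((xx p n).2.2.2 : ℂ) : ℂ) * cut (8 * ze (xx p n).2.2.1) +
        (gam ((xx p n).2.2.2 : ℂ) : ℂ) * G (uc (xx p n).1 ^ 2) := by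
      unfold xi1
      rw [← GS_jj, ← sqS_jj, ← h1]
    have h3 : xi2 (xx p n) = (SZ ((xx p n).2.2.2 : ℂ) : ℂ) * cut (8 * ze (xx p n).2.1) +
        (gam ((xx p n).2.2.2 : ℂ) : ℂ) * (G ((uc (xx p n).1 ^ 2) ^ 2) / 8) := by
      unfold xi2
      rw [← GS_jj, ← sqS_jj, ← sqS_jj, ← h1]
    rw [ww_succ, h2, h3]
    rfl
  w_succ_inf n h := by
    have h1 : (xx p n).1 = north := h
    have h2 : xi1 (xx p n) = (SZ ((xx p n).2.2.2 : ℂ) : ℂ) * cut (8 * ze (xx p n).2.2.1) := by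
      unfold xi1
      rw [h1, sqS_north, GS_north, mul_zero, add_zero]
    have h3 : xi2 (xx p n) = (SZ ((xx p n).2.2.2 : ℂ) : ℂ) * cut (8 * ze (xx p n).2.1) := by
      unfold xi2
      rw [h1, sqS_north, sqS_north, GS_north, zero_div, mul_zero, add_zero]
    rw [ww_succ, h2, h3]
    rfl
  S_one n k h1 h2 := by rw [z_eq]; exact SZ_one k h1 h2
  S_zero n k h1 h2 := by
    rw [z_eq]
    exact SZ_zero (k + 1) (by push_cast; linarith) (by push_cast; linarith)
  γ_nonneg n := gam_nonneg _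
  γ_le_one n := gam_le_one _
  γ_zero n k h1 h2 := by
    rw [z_eq]
    by_cases h3 : sg p n ≤ 12 * k + 8
    · exact gam_zero k h1 h3
    · have := le_of_not_ge h3
      exact gam_reset (k + 1) (by push_cast; linarith) (by push_cast; linarith)
  γ_add n k h1 h2 h3 := by
    rw [z_eq, z_eq, h3, gam_first k h1 h2, gam_second k (by linarith) (by linarith),
      add_sub_cancel_right]
    ring

end XO

/-- Every orbit of `F` along which the clock is unbounded is eventually in the rotation circle. -/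
theorem eventually_circ (p : Mfd)
    (hun : ∀ C : ℝ, ∃ n : ℕ, C ≤ ∑ k ∈ Finset.range n, tau (F^[k] p)) :
    ∃ n₀ : ℕ, ∀ n, n₀ ≤ n → F^[n] p ∈ Circ := by
  have h1 : ∀ C : ℝ, ∃ n, C ≤ (XO.orb p).σ n := by
    intro C
    obtain ⟨n, hn⟩ := hun (C + 1 - (exists_hour (XO.xx p 0).2.2.2).choose)
    refine ⟨n, ?_⟩
    show C ≤ XO.sg p n
    unfold XO.sg
    have h2 : ∑ k ∈ Finset.range n, tau (F^[k] p) ≤
        ∑ k ∈ Finset.range (n + 1), tau (F^[k] p) := by
      rw [Finset.sum_range_succ]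
      linarith [tau_nonneg (F^[n] p)]
    rw [Finset.sum_range_succ'] at h2
    have h3 := tau_le_one (F^[0] p)
    have h4 : ∑ k ∈ Finset.range n, tau (XO.xx p k) = ∑ k ∈ Finset.range n, tau (F^[k + 1] p) := rfl
    rw [h4]
    linarith
  obtain ⟨n₀, hn₀⟩ := (XO.orb p).main h1
  refine ⟨n₀ + 1, fun n hn => ?_⟩
  obtain ⟨m, rfl⟩ : ∃ m, n = m + 1 := ⟨n - 1, by omega⟩
  obtain ⟨h2, h3⟩ := hn₀ m (by omega)
  have h4 : XO.ww p m = 0 := h3
  have h5 : (F^[m + 1] p).2.1 = sec (XO.ww p m).1 := XO.sec1 p m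
  have h6 : (F^[m + 1] p).2.2.1 = sec (XO.ww p m).2 := XO.sec2 p m
  refine ⟨h2, ?_, ?_⟩
  · rw [h5, h4]; exact sec_zero
  · rw [h6, h4]; exact sec_zero

end Crest.Agent.R123
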