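/-
R123 / S0163, task SMOOTH : `F` is the restriction of an ambient map which is `C¹` near `Mfd`.
-/
import Crest.Agent.R123.XLocal
import Crest.Agent.R123.Mfd

set_option autoImplicit false

open scoped ContDiff

namespace Crest.Agent.R123

/-- hypothesis of `manifold_package` (Mfd.lean) for `F`. -/
theorem exists_ambient : ∃ Fa : E3 × E3 × E3 × ℂ → E3 × E3 × E3 × ℂ,
    (∀ p : Mfd, ContDiffAt ℝ 1 Fa (pmι E3 ℂ p)) ∧ (∀ p : Mfd, pmι E3 ℂ (F p) = Fa (pmι E3 ℂ p)) := by
  sorry

theorem continuous_F : Continuous F := by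
  obtain ⟨Fa, h1, h2⟩ := exists_ambient
  exact (pm_contMDiff E3 ℂ h1 h2).continuous

end Crest.Agent.R123
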