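/-
R123 / S0163, task FINAL : assembly.
-/
import Crest.Agent.R123.XOrbits
import Crest.Agent.R123.XSmooth
import Crest.Agent.R123.Entropy
import Crest.Agent.R123.HomS2

set_option autoImplicit false

open scoped Manifold ContDiff
open Filter Topology

namespace Crest.Agent.R123

/-- on the circle `F` is a rotation of order 12 -/
theorem iterate_twelve {p : Mfd} (hp : p ∈ Circ) : F^[12] p = p := by
  sorry

/-- absorbed or convergent to `PP` -/
theorem dichotomy (p : Mfd) : (∃ n, F^[n] p ∈ Circ) ∨ Tendsto (fun n => F^[n] p) atTop (𝓝 PP) := by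
  sorry

theorem entropy_zero : Dynamics.coverEntropy F Set.univ = 0 := by
  haveI : Nonempty Mfd := ⟨PP⟩
  refine coverEntropy_eq_zero_of_tendsto F continuous_F (q := 12) (by norm_num) ?_
  sorry

/-- `F` as a continuous map -/
noncomputable def FC : C(Mfd, Mfd) := ⟨F, continuous_F⟩

/-- uses `Hom.hasEigenvalue_of` of HomS2.lean -/
theorem eigen_FC : Module.End.HasEigenvalue
          (((AlgebraicTopology.singularHomologyFunctor (ModuleCat.{0} ℝ) 2).obj
              (ModuleCat.of ℝ ℝ)).map (TopCat.ofHom FC)).hom (2 : ℝ) := by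
  sorry

theorem main :
    ∃ (n : ℕ) (M : Type) (_ : MetricSpace M) (_ : CompactSpace M) (_ : Nonempty M)
      (_ : ChartedSpace (EuclideanSpace ℝ (Fin n)) M)
      (_ : IsManifold (modelWithCornersSelf ℝ (EuclideanSpace ℝ (Fin n))) ∞ M)
      (f : C(M, M)),
      ContMDiff (modelWithCornersSelf ℝ (EuclideanSpace ℝ (Fin n)))
          (modelWithCornersSelf ℝ (EuclideanSpace ℝ (Fin n))) 1 ⇑f ∧
        Dynamics.coverEntropy ⇑f Set.univ = 0 ∧
        Module.End.HasEigenvalue
          (((AlgebraicTopology.singularHomologyFunctor (ModuleCat.{0} ℝ) 2).obj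
              (ModuleCat.of ℝ ℝ)).map (TopCat.ofHom f)).hom (2 : ℝ) := by
  obtain ⟨Fa, h1, h2⟩ := exists_ambient
  obtain ⟨hc, hm, H⟩ := manifold_package E3 ℂ F Fa h1 h2
  exact ⟨7, Mfd, inferInstance, inferInstance, ⟨PP⟩, hc, hm, FC, H, entropy_zero, eigen_FC⟩

end Crest.Agent.R123
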