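/-
R123 / S0163, task XFINAL-B : order 12 rotation on the circle, dichotomy, zero entropy.
-/
import Crest.Agent.R123.XLocal
import Crest.Agent.R123.Entropy

set_option autoImplicit false

open Filter Topology

namespace Crest.Agent.R123.FB

open Crest.Agent.R123

lemma Circ_F {p : Mfd} (hp : p ∈ Circ) : (F p).2.2.2 = nextZ 1 p.2.2.2 := by
  show nextZ (tau p) p.2.2.2 = nextZ 1 p.2.2.2
  rw [tau_of_north hp.1]

lemma Circ_ext {p q : Mfd} (hp : p ∈ Circ) (hq : q ∈ Circ)
    (h : (p.2.2.2 : ℂ) = (q.2.2.2 : ℂ)) : p = q := by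
  obtain ⟨h1, h2, h3⟩ := hp
  obtain ⟨k1, k2, k3⟩ := hq
  refine Prod.ext (h1.trans k1.symm) (Prod.ext (h2.trans k2.symm) (Prod.ext (h3.trans k3.symm) ?_))
  exact Subtype.ext h

lemma iterate_mem_Circ {p : Mfd} (hp : p ∈ Circ) (n : ℕ) : F^[n] p ∈ Circ :=
  Circ_mapsTo.iterate n hp

lemma iterate_clock {p : Mfd} (hp : p ∈ Circ) (n : ℕ) :
    ((F^[n] p).2.2.2 : ℂ) = (p.2.2.2 : ℂ) * hour n := by
  induction n with
  | zero => simp [hour]
  | succ n ih =>
    rw [Function.iterate_succ_apply', Circ_F (iterate_mem_Circ hp n)]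
    show ((F^[n] p).2.2.2 : ℂ) * hour 1 = _
    rw [ih, mul_assoc, ← hour_add]
    push_cast
    rfl

lemma hour_twelve : hour 12 = 1 := by
  have h := hour_add_int 0 1
  rw [Int.cast_one, mul_one, zero_add] at h
  rw [h]
  simp [hour]

/-- on the circle `F` is a rotation of order 12 -/
theorem iterate_twelve {p : Mfd} (hp : p ∈ Circ) : F^[12] p = p := by
  apply Circ_ext (iterate_mem_Circ hp 12) hp
  rw [iterate_clock hp 12]
  have : ((12 : ℕ) : ℝ) = 12 := by norm_num
  rw [this, hour_twelve, mul_one]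

lemma continuous_he : Continuous he := by
  unfold he
  exact (WithLp.continuous_snd (p := 2) (α := ℂ) (β := ℝ)).comp continuous_subtype_val

lemma continuous_ze : Continuous ze := by
  unfold ze
  exact (WithLp.continuous_fst (p := 2) (α := ℂ) (β := ℝ)).comp continuous_subtype_val

lemma continuous_psi : Continuous psi := by
  unfold psi
  fun_prop

lemma continuous_tau : Continuous tau := by
  unfold tau
  have h1 : Continuous fun p : Mfd => psi (p.2.2.2 : ℂ) :=
    continuous_psi.comp (continuous_subtype_val.comp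
      (continuous_snd.comp (continuous_snd.comp continuous_snd)))
  have h2 : Continuous fun p : Mfd => he p.1 := continuous_he.comp continuous_fst
  have h3 : Continuous fun p : Mfd => he p.2.1 :=
    continuous_he.comp (continuous_fst.comp continuous_snd)
  have h4 : Continuous fun p : Mfd => he p.2.2.1 :=
    continuous_he.comp (continuous_fst.comp (continuous_snd.comp continuous_snd))
  have h5 : Continuous fun p : Mfd => Real.smoothTransition (-he p.1) :=
    Real.smoothTransition.continuous.comp h2.neg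
  exact continuous_const.sub ((h1.mul h5).mul
    (((continuous_const.sub h3).mul (continuous_const.sub h4)).div_const 4))

/-- the clock is bounded below off a ball around `PP`. -/
lemma exists_tau_lower (ε : ℝ) (hε : 0 < ε) :
    ∃ c : ℝ, 0 < c ∧ ∀ p : Mfd, ε ≤ dist p PP → c ≤ tau p := by
  by_cases hne : ({p : Mfd | ε ≤ dist p PP}).Nonempty
  · have hcl : IsCompact {p : Mfd | ε ≤ dist p PP} :=
      (isClosed_le continuous_const (continuous_id.dist continuous_const)).isCompact
    obtain ⟨p0, hp0, hmin⟩ := hcl.exists_isMinOn hne continuous_tau.continuousOn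
    refine ⟨tau p0, ?_, fun p hp => hmin hp⟩
    refine lt_of_le_of_ne (tau_nonneg p0) (fun h => ?_)
    have h1 := (tau_eq_zero_iff p0).1 h.symm
    have h2 : ε ≤ dist p0 PP := hp0
    rw [h1, dist_self] at h2
    linarith
  · refine ⟨1, one_pos, fun p hp => ?_⟩
    exact absurd ⟨p, hp⟩ hne

/-- if the total displacement is bounded, the orbit converges to `PP`. -/
theorem tendsto_PP_of_bounded (p : Mfd) (C : ℝ)
    (hC : ∀ n, ∑ k ∈ Finset.range n, tau (F^[k] p) ≤ C) :
    Tendsto (fun n => F^[n] p) atTop (𝓝 PP) := by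
  have hsum : Summable fun k => tau (F^[k] p) :=
    summable_of_sum_range_le (fun k => tau_nonneg _) hC
  have h0 := hsum.tendsto_atTop_zero
  rw [Metric.tendsto_atTop]
  intro ε hε
  obtain ⟨c, hc, hlow⟩ := exists_tau_lower ε hε
  obtain ⟨N, hN⟩ := eventually_atTop.1 (h0.eventually (gt_mem_nhds hc))
  refine ⟨N, fun n hn => ?_⟩
  by_contra hcon
  exact absurd (hlow _ (not_lt.1 hcon)) (not_le.2 (hN n hn))

/-- absorbed or convergent to `PP` -/
theorem dichotomy_of (habs : ∀ p : Mfd, (∀ C : ℝ, ∃ n, C ≤ ∑ k ∈ Finset.range n, tau (F^[k] p)) →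
      ∃ n0, ∀ n ≥ n0, F^[n] p ∈ Circ) (p : Mfd) :
    (∃ n, F^[n] p ∈ Circ) ∨ Tendsto (fun n => F^[n] p) atTop (𝓝 PP) := by
  by_cases hun : ∀ C : ℝ, ∃ n, C ≤ ∑ k ∈ Finset.range n, tau (F^[k] p)
  · obtain ⟨n0, h0⟩ := habs p hun
    exact Or.inl ⟨n0, h0 n0 le_rfl⟩
  · push Not at hun
    obtain ⟨C, hC⟩ := hun
    exact Or.inr (tendsto_PP_of_bounded p C fun n => (hC n).le)

theorem entropy_zero_of (hcont : Continuous F)
    (hd : ∀ p : Mfd, (∃ n, F^[n] p ∈ Circ) ∨ Tendsto (fun n => F^[n] p) atTop (𝓝 PP)) :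
    Dynamics.coverEntropy F Set.univ = 0 := by
  have : Nonempty Mfd := ⟨PP⟩
  refine coverEntropy_eq_zero_of_tendsto F hcont (q := 12) (by norm_num) ?_
  intro p
  rcases hd p with ⟨n, hn⟩ | h
  · apply tendsto_atTop_of_eventually_const (i₀ := n)
    intro m hm
    obtain ⟨k, rfl⟩ := Nat.exists_eq_add_of_le hm
    have h1 : F^[n + k] p ∈ Circ := by
      rw [add_comm, Function.iterate_add_apply]
      exact iterate_mem_Circ hn k
    have h2 : F^[n + k + 12] p = F^[n + k] p := by
      rw [add_comm (n + k) 12, Function.iterate_add_apply]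
      exact iterate_twelve h1
    rw [h2, dist_self]
  · have h1 : Tendsto (fun n => F^[n + 12] p) atTop (𝓝 PP) := (tendsto_add_atTop_iff_nat 12).2 h
    have h2 := h.dist h1
    rwa [dist_self] at h2

end Crest.Agent.R123.FB
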