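/-
R123 / S0163, task SMOOTH : `F` is C¹ for the product manifold structure.
-/
import Crest.Agent.R123.XLocal

set_option autoImplicit false
set_option maxHeartbeats 800000

open scoped Manifold ContDiff

namespace Crest.Agent.R123

/-- product model with corners of `Mfd` -/
noncomputable abbrev IM := (𝓡 2).prod ((𝓡 2).prod ((𝓡 2).prod (𝓡 1)))

namespace SmoothAux

open Real (smoothTransition)

lemma cdiv {E : Type*} [NormedAddCommGroup E] [NormedSpace ℝ E] {f : E → ℂ} {g : E → ℝ} {x : E}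
    (hf : ContDiffAt ℝ 1 f x) (hg : ContDiffAt ℝ 1 g x) (h : g x ≠ 0) :
    ContDiffAt ℝ 1 (fun y => f y / ((g y : ℝ) : ℂ)) x := by
  have h1 : ContDiffAt ℝ 1 (fun y => ((g y : ℝ) : ℂ)) x :=
    (Complex.ofRealCLM.contDiff.contDiffAt).comp x hg
  have h2 : ContDiffAt ℝ 1 (fun y => ((g y : ℝ) : ℂ)⁻¹) x := h1.inv (by exact_mod_cast h)
  have h3 := hf.mul h2
  simpa only [div_eq_mul_inv] using h3

lemma contDiff_cut : ContDiff ℝ 1 cut := by
  unfold cut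
  apply ContDiff.mul _ contDiff_id
  apply Complex.ofRealCLM.contDiff.comp
  apply contDiff_const.sub
  apply (smoothTransition.contDiff (n := 1)).comp
  apply ContDiff.div_const
  apply ContDiff.sub _ contDiff_const
  exact contDiff_const.mul (contDiff_norm_sq ℝ)

/-! ### coordinates on `S²` -/

lemma contMDiff_ze : ContMDiff (𝓡 2) 𝓘(ℝ, ℂ) 1 ze := by
  have h : ContDiff ℝ 1 (fun v : E3 => v.fst) := by
    have := ((ContinuousLinearMap.fst ℝ ℂ ℝ).comp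
      (WithLp.prodContinuousLinearEquiv 2 ℝ ℂ ℝ : E3 →L[ℝ] ℂ × ℝ)).contDiff (n := 1)
    exact this
  exact h.comp_contMDiff contMDiff_coe_sphere

lemma contMDiff_he : ContMDiff (𝓡 2) 𝓘(ℝ, ℝ) 1 he := by
  have h : ContDiff ℝ 1 (fun v : E3 => v.snd) := by
    have := ((ContinuousLinearMap.snd ℝ ℂ ℝ).comp
      (WithLp.prodContinuousLinearEquiv 2 ℝ ℂ ℝ : E3 →L[ℝ] ℂ × ℝ)).contDiff (n := 1)
    exact this
  exact h.comp_contMDiff contMDiff_coe_sphere

section gen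

variable {E : Type*} [NormedAddCommGroup E] [NormedSpace ℝ E] {H : Type*} [TopologicalSpace H]
  {I : ModelWithCorners ℝ E H} {M : Type*} [TopologicalSpace M] [ChartedSpace H M]
  [IsManifold I 1 M]

/-- a map into `S²` is C¹ if both coordinates are -/
lemma contMDiff_into_S2 {f : M → S2} (h1 : ContMDiff I 𝓘(ℝ, ℂ) 1 (fun p => ze (f p)))
    (h2 : ContMDiff I 𝓘(ℝ, ℝ) 1 (fun p => he (f p))) : ContMDiff I (𝓡 2) 1 f := by
  have h3 : ContDiff ℝ 1 (fun q : ℂ × ℝ => (WithLp.toLp 2 q : E3)) :=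
    ((WithLp.prodContinuousLinearEquiv 2 ℝ ℂ ℝ).symm : ℂ × ℝ →L[ℝ] E3).contDiff (n := 1)
  have h4 : ContMDiff I 𝓘(ℝ, E3) 1 (fun p => (f p : E3)) :=
    h3.comp_contMDiff (h1.prodMk_space h2)
  exact h4.codRestrict_sphere (fun p => (f p).2)

lemma contMDiff_into_S1 {f : M → S1} (h1 : ContMDiff I 𝓘(ℝ, ℂ) 1 (fun p => (f p : ℂ))) :
    ContMDiff I (𝓡 1) 1 f :=
  h1.codRestrict_sphere (fun p => (f p).2)

end gen

lemma contMDiff_sqS : ContMDiff (𝓡 2) (𝓡 2) 1 sqS := by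
  have hpair : ContMDiff (𝓡 2) 𝓘(ℝ, ℂ × ℝ) 1 (fun x : S2 => (ze x, he x)) :=
    contMDiff_ze.prodMk_space contMDiff_he
  have hden : ContDiff ℝ 1 (fun q : ℂ × ℝ => 1 + q.2 ^ 2) := contDiff_const.add (contDiff_snd.pow 2)
  have hpos : ∀ q : ℂ × ℝ, (1 + q.2 ^ 2 : ℝ) ≠ 0 := fun q => by positivity
  apply contMDiff_into_S2
  · have h : ContDiff ℝ 1 (fun q : ℂ × ℝ => (q.1) ^ 2 / ((1 + q.2 ^ 2 : ℝ) : ℂ)) := by
      rw [contDiff_iff_contDiffAt]
      intro q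
      exact cdiv (contDiff_fst.pow 2).contDiffAt hden.contDiffAt (hpos q)
    exact h.comp_contMDiff hpair
  · have h : ContDiff ℝ 1 (fun q : ℂ × ℝ => 2 * q.2 / (1 + q.2 ^ 2)) := by
      apply ContDiff.div (contDiff_const.mul contDiff_snd) hden hpos
    exact h.comp_contMDiff hpair

lemma contMDiff_GS : ContMDiff (𝓡 2) 𝓘(ℝ, ℂ) 1 GS := by
  intro x
  by_cases hx : he x = 1
  · -- locally zero
    have hev : ∀ᶠ y in nhds x, GS y = 0 := by
      have hc : ContinuousAt he x := contMDiff_he.continuous.continuousAt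
      have h1 : ∀ᶠ y in nhds x, 1 - 1 / 100000 < he y := by
        apply hc.eventually (lt_mem_nhds (by rw [hx]; norm_num))
      filter_upwards [h1] with y hy
      unfold GS
      by_cases hy1 : he y = 1
      · rw [hy1]; simp only [sub_self, Complex.ofReal_zero, div_zero]
        exact G_zero_of_le_one (by simp)
      · apply G_zero_of_ge
        have hlt : he y < 1 := lt_of_le_of_ne (by nlinarith [ze_he y, sq_nonneg ‖ze y‖, sq_nonneg (he y - 1)]) hy1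
        have hpos : 0 < 1 - he y := by linarith
        rw [norm_div, Complex.norm_real, Real.norm_of_nonneg hpos.le, le_div_iff₀ hpos]
        have h2 : ‖ze y‖ ^ 2 = (1 - he y) * (1 + he y) := by nlinarith [ze_he y]
        apply le_of_sq_le_sq _ (norm_nonneg _)
        rw [h2]
        nlinarith
    have : ContMDiffAt (𝓡 2) 𝓘(ℝ, ℂ) 1 (fun _ : S2 => (0 : ℂ)) x := contMDiffAt_const
    exact this.congr_of_eventuallyEq hev
  · have hne : 1 - he x ≠ 0 := sub_ne_zero.2 (Ne.symm hx)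
    have h : ContDiffAt ℝ 1 (fun q : ℂ × ℝ => G (q.1 / ((1 - q.2 : ℝ) : ℂ))) (ze x, he x) := by
      have h1 : ContDiffAt ℝ 1 (fun q : ℂ × ℝ => q.1 / ((1 - q.2 : ℝ) : ℂ)) (ze x, he x) :=
        cdiv contDiffAt_fst (contDiff_const.sub contDiff_snd).contDiffAt hne
      exact ContDiffAt.comp _ (contDiff_G.contDiffAt) h1
    exact ContDiffAt.comp_contMDiffAt (f := fun x : S2 => (ze x, he x)) h
      (contMDiff_ze.prodMk_space contMDiff_he).contMDiffAt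

/-! ### the sphere formula -/

lemma KK_of_zero {h : ℝ} (h0 : KK h ≠ 0) : 3855 / 4369 < h := by
  by_contra hlt
  push Not at hlt
  exact h0 (smoothTransition.zero_of_nonpos (by linarith))

lemma KK_one : KK 1 = 1 := smoothTransition.one_of_one_le (by norm_num)

lemma he_abs (x : S2) : -1 ≤ he x ∧ he x ≤ 1 := by
  have := ze_he x
  constructor <;> nlinarith [sq_nonneg ‖ze x‖]

/-- norm identity -/
lemma UX_sq (k₁ k₂ : ℝ) (e a : ℂ) (b : ℝ) (h : ‖a‖ ^ 2 + b ^ 2 = 1) :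
    ‖UX k₁ k₂ e a b‖ ^ 2 = UY k₁ k₂ e a b * UZ k₂ b := by
  have ha : a.re * a.re + a.im * a.im = 1 - b ^ 2 := by
    rw [Complex.sq_norm, Complex.normSq_apply] at h; linarith
  rw [Complex.sq_norm, Complex.normSq_apply]
  unfold UX UY UZ
  rw [Complex.sq_norm, Complex.normSq_apply]
  simp only [Complex.add_re, Complex.add_im, Complex.mul_re, Complex.mul_im, Complex.ofReal_re,
    Complex.ofReal_im, pow_two, Complex.conj_re, Complex.conj_im]
  have h2re : (a / 2).re = a.re / 2 := by simp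
  have h2im : (a / 2).im = a.im / 2 := by simp
  rw [h2re, h2im]
  have ha2 : (a.re * a.re + a.im * a.im) ^ 2 = (1 - b ^ 2) ^ 2 := by rw [ha]
  linear_combination (k₁ ^ 2 * k₂ ^ 2 / 16) * ha2

lemma UY_nonneg (k₁ k₂ : ℝ) (e a : ℂ) (b : ℝ) (h : ‖a‖ ^ 2 + b ^ 2 = 1)
    (h1 : b = 1 → k₁ = 1) (h2 : k₂ = 0 → k₁ = 1 ∧ -1 < b) :
    0 < UY k₁ k₂ e a b + UZ k₂ b := by
  by_cases hZ : UZ k₂ b = 0
  · rw [hZ, add_zero]
    unfold UZ at hZ
    have : k₂ = 0 ∨ b = 1 := by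
      rcases mul_eq_zero.1 hZ with h' | h'
      · left; exact pow_eq_zero_iff (two_ne_zero) |>.1 h'
      · right
        have := pow_eq_zero_iff (two_ne_zero) |>.1 h'
        linarith
    rcases this with hk | hb
    · obtain ⟨hk1, hb⟩ := h2 hk
      unfold UY
      rw [hk, hk1]
      have : 0 < 1 + b := by linarith
      simp only [mul_zero, zero_mul, add_zero, ne_eq, OfNat.ofNat_ne_zero, not_false_eq_true, zero_pow]
      positivity
    · have hk1 := h1 hb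
      have ha : a = 0 := by
        rw [hb] at h
        have : ‖a‖ ^ 2 = 0 := by linarith
        simpa using this
      unfold UY
      rw [ha, hb, hk1]
      norm_num
  · have hZ0 : 0 ≤ UZ k₂ b := by unfold UZ; positivity
    have hZp : 0 < UZ k₂ b := lt_of_le_of_ne hZ0 (Ne.symm hZ)
    have hY : 0 ≤ UY k₁ k₂ e a b := by
      have := UX_sq k₁ k₂ e a b h
      by_contra hlt
      push Not at hlt
      nlinarith [sq_nonneg ‖UX k₁ k₂ e a b‖, mul_neg_of_neg_of_pos hlt hZp]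
    linarith

lemma UU_cond (k₁ k₂ : ℝ) (e a : ℂ) (b : ℝ) (h : ‖a‖ ^ 2 + b ^ 2 = 1)
    (hpos : 0 < UY k₁ k₂ e a b + UZ k₂ b) :
    ‖2 * UX k₁ k₂ e a b / ((UY k₁ k₂ e a b + UZ k₂ b : ℝ) : ℂ)‖ ^ 2 +
      ((UY k₁ k₂ e a b - UZ k₂ b) / (UY k₁ k₂ e a b + UZ k₂ b)) ^ 2 = 1 := by
  have := UX_sq k₁ k₂ e a b h
  rw [norm_div, Complex.norm_real, Real.norm_of_nonneg hpos.le, norm_mul, Complex.norm_ofNat,
    div_pow, mul_pow, this, div_pow, ← add_div, div_eq_one_iff_eq (by positivity)]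
  ring

/-! ### smoothness of the ingredients -/

section ingr

variable {E : Type*} [NormedAddCommGroup E] [NormedSpace ℝ E]

lemma cof {f : E → ℝ} (hf : ContDiff ℝ 1 f) : ContDiff ℝ 1 (fun x => ((f x : ℝ) : ℂ)) :=
  Complex.ofRealCLM.contDiff.comp hf

lemma cre {f : E → ℂ} (hf : ContDiff ℝ 1 f) : ContDiff ℝ 1 (fun x => (f x).re) :=
  Complex.reCLM.contDiff.comp hf

lemma cconj {f : E → ℂ} (hf : ContDiff ℝ 1 f) : ContDiff ℝ 1 (fun x => (starRingEnd ℂ) (f x)) :=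
  Complex.conjCLE.contDiff.comp hf

lemma cst {f : E → ℝ} (hf : ContDiff ℝ 1 f) : ContDiff ℝ 1 (fun x => smoothTransition (f x)) :=
  smoothTransition.contDiff.comp hf

lemma cnsq {f : E → ℂ} (hf : ContDiff ℝ 1 f) : ContDiff ℝ 1 (fun x => ‖f x‖ ^ 2) :=
  hf.norm_sq ℝ

lemma c_rho {f : E → ℂ} (hf : ContDiff ℝ 1 f) : ContDiff ℝ 1 (fun x => rho (f x)) :=
  cre (hf.mul contDiff_const)

lemma c_SZ {f : E → ℂ} (hf : ContDiff ℝ 1 f) : ContDiff ℝ 1 (fun x => SZ (f x)) :=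
  cst (contDiff_const.add (contDiff_const.mul (c_rho hf)))

lemma c_sz {f : E → ℂ} (hf : ContDiff ℝ 1 f) : ContDiff ℝ 1 (fun x => sz (f x)) :=
  cst ((contDiff_const.mul (c_rho hf)).sub contDiff_const)

lemma c_gam {f : E → ℂ} (hf : ContDiff ℝ 1 f) : ContDiff ℝ 1 (fun x => gam (f x)) :=
  (c_SZ hf).mul (contDiff_const.sub (c_SZ (hf.mul contDiff_const)))

lemma c_psi {f : E → ℂ} (hf : ContDiff ℝ 1 f) : ContDiff ℝ 1 (fun x => psi (f x)) :=
  (contDiff_const.add (cre (hf.mul contDiff_const))).div_const 2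

lemma c_KK {f : E → ℝ} (hf : ContDiff ℝ 1 f) : ContDiff ℝ 1 (fun x => KK (f x)) :=
  cst (((contDiff_const.mul hf).sub contDiff_const).div_const 480)

lemma c_hour {f : E → ℝ} (hf : ContDiff ℝ 1 f) : ContDiff ℝ 1 (fun x => hour (f x)) :=
  Complex.contDiff_exp.comp ((cof (contDiff_const.mul hf)).mul contDiff_const)

lemma c_UX {k₁ k₂ b : E → ℝ} {e a : E → ℂ} (h1 : ContDiff ℝ 1 k₁) (h2 : ContDiff ℝ 1 k₂)
    (h3 : ContDiff ℝ 1 b) (h4 : ContDiff ℝ 1 e) (h5 : ContDiff ℝ 1 a) :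
    ContDiff ℝ 1 (fun x => UX (k₁ x) (k₂ x) (e x) (a x) (b x)) :=
  ((cof (h1.mul h2)).mul ((h5.div_const 2).pow 2)).add
    (h4.mul (cof ((h2.pow 2).mul (((contDiff_const.sub h3).div_const 2).pow 2))))

lemma c_UY {k₁ k₂ b : E → ℝ} {e a : E → ℂ} (h1 : ContDiff ℝ 1 k₁) (h2 : ContDiff ℝ 1 k₂)
    (h3 : ContDiff ℝ 1 b) (h4 : ContDiff ℝ 1 e) (h5 : ContDiff ℝ 1 a) :
    ContDiff ℝ 1 (fun x => UY (k₁ x) (k₂ x) (e x) (a x) (b x)) :=
  (((h1.pow 2).mul (((contDiff_const.add h3).div_const 2).pow 2)).add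
    (((contDiff_const.mul h1).mul h2).mul (cre (((h5.div_const 2).pow 2).mul (cconj h4))))).add
    ((cnsq h4).mul ((h2.pow 2).mul (((contDiff_const.sub h3).div_const 2).pow 2)))

lemma c_UZ {k₂ b : E → ℝ} (h2 : ContDiff ℝ 1 k₂)
    (h3 : ContDiff ℝ 1 b) :
    ContDiff ℝ 1 (fun x => UZ (k₂ x) (b x)) :=
  (h2.pow 2).mul (((contDiff_const.sub h3).div_const 2).pow 2)

end ingr

/-- all coordinates -/
noncomputable abbrev V := (ℂ × ℝ) × (ℂ × ℝ) × (ℂ × ℝ) × ℂ × (ℂ × ℂ)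

noncomputable def Phi (p : Mfd) : V :=
  ((ze p.1, he p.1), (ze p.2.1, he p.2.1), (ze p.2.2.1, he p.2.2.1), (p.2.2.2 : ℂ),
    (GS (sqS p.1), GS (sqS (sqS p.1))))

lemma contMDiff_Phi : ContMDiff IM 𝓘(ℝ, V) 1 Phi := by
  have p1 : ContMDiff IM (𝓡 2) 1 (fun p : Mfd => p.1) := contMDiff_fst
  have p2 : ContMDiff IM (𝓡 2) 1 (fun p : Mfd => p.2.1) := contMDiff_fst.comp contMDiff_snd
  have p3 : ContMDiff IM (𝓡 2) 1 (fun p : Mfd => p.2.2.1) :=
    contMDiff_fst.comp (contMDiff_snd.comp contMDiff_snd)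
  have p4 : ContMDiff IM (𝓡 1) 1 (fun p : Mfd => p.2.2.2) :=
    contMDiff_snd.comp (contMDiff_snd.comp contMDiff_snd)
  have z4 : ContMDiff IM 𝓘(ℝ, ℂ) 1 (fun p : Mfd => (p.2.2.2 : ℂ)) := contMDiff_coe_sphere.comp p4
  exact ((contMDiff_ze.comp p1).prodMk_space (contMDiff_he.comp p1)).prodMk_space
    (((contMDiff_ze.comp p2).prodMk_space (contMDiff_he.comp p2)).prodMk_space
    (((contMDiff_ze.comp p3).prodMk_space (contMDiff_he.comp p3)).prodMk_space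
    (z4.prodMk_space ((contMDiff_GS.comp (contMDiff_sqS.comp p1)).prodMk_space
      (contMDiff_GS.comp (contMDiff_sqS.comp (contMDiff_sqS.comp p1)))))))

lemma via_Phi {F' : Type*} [NormedAddCommGroup F'] [NormedSpace ℝ F'] {g : V → F'} {f : Mfd → F'}
    (hfg : ∀ p, f p = g (Phi p)) (hg : ∀ p, ContDiffAt ℝ 1 g (Phi p)) :
    ContMDiff IM 𝓘(ℝ, F') 1 f := by
  intro p
  have : f = fun p => g (Phi p) := funext hfg
  rw [this]
  exact ContDiffAt.comp_contMDiffAt (hg p) contMDiff_Phi.contMDiffAt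

/-! ### first component -/

lemma k_pos (p : Mfd) : 0 < UY (k1 (p.2.2.2 : ℂ) p.1) (k2 (p.2.2.2 : ℂ) p.1)
    (kickE (ze p.2.1, ze p.2.2.1)) (ze p.1) (he p.1) + UZ (k2 (p.2.2.2 : ℂ) p.1) (he p.1) := by
  apply UY_nonneg _ _ _ _ _ (ze_he p.1)
  · intro hb
    unfold k1
    rw [hb, KK_one]; ring
  · intro hk
    unfold k2 at hk
    have h1 : sz (p.2.2.2 : ℂ) * KK (he p.1) = 1 := by linarith
    have hK1 : KK (he p.1) ≤ 1 := smoothTransition.le_one _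
    have hs1 : sz (p.2.2.2 : ℂ) ≤ 1 := smoothTransition.le_one _
    have hK0 : 0 ≤ KK (he p.1) := smoothTransition.nonneg _
    have hs0 : 0 ≤ sz (p.2.2.2 : ℂ) := smoothTransition.nonneg _
    constructor
    · unfold k1
      have : sz (p.2.2.2 : ℂ) = 1 := by nlinarith
      linarith
    · have : KK (he p.1) ≠ 0 := by
        intro h0; rw [h0] at h1; simp at h1
      have := KK_of_zero this
      linarith

/-- coordinate functions -/
noncomputable def K1 (v : V) : ℝ := 1 - sz v.2.2.2.1 + sz v.2.2.2.1 * KK v.1.2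
noncomputable def K2 (v : V) : ℝ := 1 - sz v.2.2.2.1 * KK v.1.2
noncomputable def EV (v : V) : ℂ := kickE (v.2.1.1, v.2.2.1.1)
noncomputable def XX (v : V) : ℂ := UX (K1 v) (K2 v) (EV v) v.1.1 v.1.2
noncomputable def YY (v : V) : ℝ := UY (K1 v) (K2 v) (EV v) v.1.1 v.1.2
noncomputable def ZZ (v : V) : ℝ := UZ (K2 v) v.1.2

lemma c_fst1 : ContDiff ℝ 1 (fun v : V => v.1.1) := contDiff_fst.comp contDiff_fst
lemma c_snd1 : ContDiff ℝ 1 (fun v : V => v.1.2) := contDiff_snd.comp contDiff_fst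
lemma c_w1 : ContDiff ℝ 1 (fun v : V => v.2.1.1) :=
  contDiff_fst.comp (contDiff_fst.comp contDiff_snd)
lemma c_w2 : ContDiff ℝ 1 (fun v : V => v.2.2.1.1) :=
  contDiff_fst.comp (contDiff_fst.comp (contDiff_snd.comp contDiff_snd))
lemma c_z : ContDiff ℝ 1 (fun v : V => v.2.2.2.1) :=
  contDiff_fst.comp (contDiff_snd.comp (contDiff_snd.comp contDiff_snd))
lemma c_w12 : ContDiff ℝ 1 (fun v : V => (v.2.1.1, v.2.2.1.1)) := c_w1.prodMk c_w2

lemma EV_eq : EV = kickE ∘ (fun v : V => (v.2.1.1, v.2.2.1.1)) := by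
  funext v
  simp only [EV, Function.comp]

lemma c_EV : ContDiff ℝ 1 EV := by
  rw [EV_eq]
  exact ContDiff.comp (contDiff_kickE (n := 1)) c_w12

lemma c_K2 : ContDiff ℝ 1 K2 := by
  unfold K2
  exact contDiff_const.sub ((c_sz c_z).mul (c_KK c_snd1))

lemma c_K1 : ContDiff ℝ 1 K1 := by
  unfold K1
  exact (contDiff_const.sub (c_sz c_z)).add ((c_sz c_z).mul (c_KK c_snd1))

lemma cXX : ContDiff ℝ 1 XX := by
  unfold XX
  exact c_UX c_K1 c_K2 c_snd1 c_EV c_fst1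

lemma cYY : ContDiff ℝ 1 YY := by
  unfold YY
  exact c_UY c_K1 c_K2 c_snd1 c_EV c_fst1

lemma cZZ : ContDiff ℝ 1 ZZ := by
  unfold ZZ
  exact c_UZ c_K2 c_snd1

lemma cXYZ : ContDiff ℝ 1 XX ∧ ContDiff ℝ 1 YY ∧ ContDiff ℝ 1 ZZ := ⟨cXX, cYY, cZZ⟩

lemma XX_Phi (p : Mfd) : XX (Phi p) = UX (k1 (p.2.2.2 : ℂ) p.1) (k2 (p.2.2.2 : ℂ) p.1)
    (kickE (ze p.2.1, ze p.2.2.1)) (ze p.1) (he p.1) := rfl

lemma YY_Phi (p : Mfd) : YY (Phi p) = UY (k1 (p.2.2.2 : ℂ) p.1) (k2 (p.2.2.2 : ℂ) p.1)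
    (kickE (ze p.2.1, ze p.2.2.1)) (ze p.1) (he p.1) := rfl

lemma ZZ_Phi (p : Mfd) : ZZ (Phi p) = UZ (k2 (p.2.2.2 : ℂ) p.1) (he p.1) := rfl

lemma YZ_pos (p : Mfd) : YY (Phi p) + ZZ (Phi p) ≠ 0 := by
  rw [YY_Phi, ZZ_Phi]
  exact (k_pos p).ne'

lemma F_fst (p : Mfd) : (F p).1 = UU (k1 (p.2.2.2 : ℂ) p.1) (k2 (p.2.2.2 : ℂ) p.1)
    (kickE (ze p.2.1, ze p.2.2.1)) p.1 := rfl

lemma ze_F (p : Mfd) : ze (F p).1 = 2 * XX (Phi p) / ((YY (Phi p) + ZZ (Phi p) : ℝ) : ℂ) := by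
  rw [F_fst, XX_Phi, YY_Phi, ZZ_Phi]
  unfold UU toS2
  rw [dif_pos (UU_cond _ _ _ _ _ (ze_he p.1) (k_pos p)), ze_mkS2]

lemma he_F (p : Mfd) : he (F p).1 = (YY (Phi p) - ZZ (Phi p)) / (YY (Phi p) + ZZ (Phi p)) := by
  rw [F_fst, YY_Phi, ZZ_Phi]
  unfold UU toS2
  rw [dif_pos (UU_cond _ _ _ _ _ (ze_he p.1) (k_pos p)), he_mkS2]

lemma smooth1 : ContMDiff IM (𝓡 2) 1 (fun p : Mfd => (F p).1) := by
  obtain ⟨cX, cY, cZ⟩ := cXYZ
  apply contMDiff_into_S2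
  · exact via_Phi (g := fun v : V => 2 * XX v / ((YY v + ZZ v : ℝ) : ℂ)) ze_F
      (fun p => cdiv (contDiff_const.mul cX).contDiffAt (cY.add cZ).contDiffAt (YZ_pos p))
  · exact via_Phi (g := fun v : V => (YY v - ZZ v) / (YY v + ZZ v)) he_F
      (fun p => (cY.sub cZ).contDiffAt.div (cY.add cZ).contDiffAt (YZ_pos p))

/-! ### the sections -/

lemma smooth_sec {ξ : Mfd → ℂ} (hξ : ContMDiff IM 𝓘(ℝ, ℂ) 1 ξ) (hn : ∀ p, ‖ξ p‖ ≤ 3 / 8) :
    ContMDiff IM (𝓡 2) 1 (fun p => sec (ξ p)) := by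
  apply contMDiff_into_S2
  · have : (fun p => ze (sec (ξ p))) = ξ := funext fun p => ze_sec (by linarith [hn p])
    rw [this]; exact hξ
  · have : (fun p => he (sec (ξ p))) = fun p => -Real.sqrt (1 - ‖ξ p‖ ^ 2) :=
      funext fun p => he_sec (by linarith [hn p])
    rw [this]
    intro p
    have h1 : ContDiffAt ℝ 1 (fun z : ℂ => -Real.sqrt (1 - ‖z‖ ^ 2)) (ξ p) := by
      apply ContDiffAt.neg
      apply ContDiffAt.sqrt
      · exact (contDiff_const.sub (cnsq contDiff_id)).contDiffAt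
      · have := hn p
        have h0 := norm_nonneg (ξ p)
        nlinarith
    exact ContDiffAt.comp_contMDiffAt (g := fun z : ℂ => -Real.sqrt (1 - ‖z‖ ^ 2)) h1
      hξ.contMDiffAt

lemma smooth2 : ContMDiff IM (𝓡 2) 1 (fun p : Mfd => sec (xi1 p)) := by
  apply smooth_sec _ norm_xi1_le
  have cw2 : ContDiff ℝ 1 (fun v : V => v.2.2.1.1) :=
    contDiff_fst.comp (contDiff_fst.comp (contDiff_snd.comp contDiff_snd))
  have cz : ContDiff ℝ 1 (fun v : V => v.2.2.2.1) :=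
    contDiff_fst.comp (contDiff_snd.comp (contDiff_snd.comp contDiff_snd))
  have cg : ContDiff ℝ 1 (fun v : V => v.2.2.2.2.1) :=
    contDiff_fst.comp (contDiff_snd.comp (contDiff_snd.comp (contDiff_snd.comp contDiff_snd)))
  have h : ContDiff ℝ 1 (fun v : V => (SZ v.2.2.2.1 : ℂ) * cut (8 * v.2.2.1.1) +
      (gam v.2.2.2.1 : ℂ) * v.2.2.2.2.1) :=
    ((cof (c_SZ cz)).mul (contDiff_cut.comp (contDiff_const.mul cw2))).add
      ((cof (c_gam cz)).mul cg)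
  exact via_Phi (fun p => rfl) (fun p => h.contDiffAt)

lemma smooth3 : ContMDiff IM (𝓡 2) 1 (fun p : Mfd => sec (xi2 p)) := by
  apply smooth_sec _ norm_xi2_le
  have cw1 : ContDiff ℝ 1 (fun v : V => v.2.1.1) :=
    contDiff_fst.comp (contDiff_fst.comp contDiff_snd)
  have cz : ContDiff ℝ 1 (fun v : V => v.2.2.2.1) :=
    contDiff_fst.comp (contDiff_snd.comp (contDiff_snd.comp contDiff_snd))
  have cg : ContDiff ℝ 1 (fun v : V => v.2.2.2.2.2) :=
    contDiff_snd.comp (contDiff_snd.comp (contDiff_snd.comp (contDiff_snd.comp contDiff_snd)))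
  have h : ContDiff ℝ 1 (fun v : V => (SZ v.2.2.2.1 : ℂ) * cut (8 * v.2.1.1) +
      (gam v.2.2.2.1 : ℂ) * (v.2.2.2.2.2 / 8)) :=
    ((cof (c_SZ cz)).mul (contDiff_cut.comp (contDiff_const.mul cw1))).add
      ((cof (c_gam cz)).mul (cg.div_const 8))
  exact via_Phi (fun p => rfl) (fun p => h.contDiffAt)

lemma smooth4 : ContMDiff IM (𝓡 1) 1 (fun p : Mfd => nextZ (tau p) p.2.2.2) := by
  apply contMDiff_into_S1
  have cb : ContDiff ℝ 1 (fun v : V => v.1.2) := contDiff_snd.comp contDiff_fst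
  have ch1 : ContDiff ℝ 1 (fun v : V => v.2.1.2) :=
    contDiff_snd.comp (contDiff_fst.comp contDiff_snd)
  have ch2 : ContDiff ℝ 1 (fun v : V => v.2.2.1.2) :=
    contDiff_snd.comp (contDiff_fst.comp (contDiff_snd.comp contDiff_snd))
  have cz : ContDiff ℝ 1 (fun v : V => v.2.2.2.1) :=
    contDiff_fst.comp (contDiff_snd.comp (contDiff_snd.comp contDiff_snd))
  have ct : ContDiff ℝ 1 (fun v : V => 1 - psi v.2.2.2.1 * smoothTransition (-v.1.2) *
      ((1 - v.2.1.2) * (1 - v.2.2.1.2) / 4)) :=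
    contDiff_const.sub (((c_psi cz).mul (cst cb.neg)).mul
      (((contDiff_const.sub ch1).mul (contDiff_const.sub ch2)).div_const 4))
  have h := cz.mul (c_hour ct)
  exact via_Phi (fun p => rfl) (fun p => h.contDiffAt)

end SmoothAux

theorem contMDiff_F : ContMDiff IM IM 1 F :=
  SmoothAux.smooth1.prodMk (SmoothAux.smooth2.prodMk (SmoothAux.smooth3.prodMk SmoothAux.smooth4))

end Crest.Agent.R123
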