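/-
R123 / S0163, task FINAL : homology of `F` and assembly.
-/
import Crest.Agent.R123.XFinalB
import Crest.Agent.R123.XOrbits
import Crest.Agent.R123.XSmoothM
import Crest.Agent.R123.XCharts
import Crest.Agent.R123.HomS2

set_option autoImplicit false

open scoped Manifold ContDiff

namespace Crest.Agent.R123

open FB

theorem dichotomy (p : Mfd) :
    (∃ n, F^[n] p ∈ Circ) ∨ Filter.Tendsto (fun n => F^[n] p) Filter.atTop (nhds PP) :=
  FB.dichotomy_of (fun p hun => eventually_circ p hun) p

theorem entropy_zero : Dynamics.coverEntropy F Set.univ = 0 :=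
  FB.entropy_zero_of contMDiff_F.continuous dichotomy

/-- `F` as a continuous map -/
noncomputable def FC : C(Mfd, Mfd) := ⟨F, contMDiff_F.continuous⟩

lemma hour_zero : hour 0 = 1 := by simp [hour]

/-- from the subtype of `ℂ × ℝ` to the metric sphere -/
noncomputable def toSph (q : Hom.S2) : S2 := mkS2 q.1.1 q.1.2 q.2

lemma continuous_toSph : Continuous toSph := by
  unfold toSph mkS2
  refine Continuous.subtype_mk ?_ _
  exact (WithLp.prod_continuous_toLp (p := 2) (α := ℂ) (β := ℝ)).comp continuous_subtype_val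

lemma toSph_sq (q : Hom.S2) : toSph (Hom.sq q) = sqS (toSph q) := by
  apply S2_ext
  · show (((1 / (1 + q.1.2 ^ 2) : ℝ) : ℂ) * q.1.1 ^ 2) = q.1.1 ^ 2 / ((1 + q.1.2 ^ 2 : ℝ) : ℂ)
    push_cast
    ring
  · rfl

lemma UU_one (x : S2) : UU 1 1 0 x = sqS x := by
  have hp : (0 : ℝ) < 1 + he x ^ 2 := by positivity
  have hp' : ((1 + he x ^ 2 : ℝ) : ℂ) ≠ 0 := by exact_mod_cast hp.ne'
  have hden : UY 1 1 0 (ze x) (he x) + UZ 1 (he x) = (1 + he x ^ 2) / 2 := by
    simp only [UY, UZ, norm_zero, map_zero, mul_zero, Complex.zero_re]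
    ring
  have hnum : UY 1 1 0 (ze x) (he x) - UZ 1 (he x) = he x := by
    simp only [UY, UZ, norm_zero, map_zero, mul_zero, Complex.zero_re]
    ring
  have hX : UX 1 1 0 (ze x) (he x) = (ze x) ^ 2 / 4 := by
    simp only [UX, zero_mul, add_zero]
    push_cast
    ring
  have e1 : 2 * UX 1 1 0 (ze x) (he x) /
      ((UY 1 1 0 (ze x) (he x) + UZ 1 (he x) : ℝ) : ℂ) = ze (sqS x) := by
    show _ = (ze x) ^ 2 / ((1 + he x ^ 2 : ℝ) : ℂ)
    rw [hden, hX]
    push_cast at hp' ⊢
    field_simp
    ring
  have e2 : (UY 1 1 0 (ze x) (he x) - UZ 1 (he x)) / (UY 1 1 0 (ze x) (he x) + UZ 1 (he x)) =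
      he (sqS x) := by
    show _ = 2 * he x / (1 + he x ^ 2)
    rw [hden, hnum]
    field_simp
  unfold UU toS2
  rw [e1, e2, dif_pos (ze_he (sqS x))]
  exact S2_ext rfl rfl

/-- base point of the circle -/
noncomputable def z0 : S1 := ⟨hour 0, by
  simp only [mem_sphere_zero_iff_norm, hour, Complex.norm_exp_ofReal_mul_I]⟩

lemma F_slice (x : S2) :
    F (x, south, south, z0) = (sqS x, south, south, nextZ (tau (x, south, south, z0)) z0) := by
  have hS : SZ (hour 0) = 0 := SZ_zero (t := 0) 0 (by norm_num) (by norm_num)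
  have hs : sz (hour 0) = 0 := sz_zero (t := 0) 0 (by norm_num) (by norm_num)
  have hg : gam (hour 0) = 0 := gam_reset (t := 0) 0 (by norm_num) (by norm_num)
  have h1 : xi1 (x, south, south, z0) = 0 := by
    show ((SZ (hour 0) : ℝ) : ℂ) * _ + ((gam (hour 0) : ℝ) : ℂ) * _ = 0
    rw [hS, hg]
    simp
  have h2 : xi2 (x, south, south, z0) = 0 := by
    show ((SZ (hour 0) : ℝ) : ℂ) * _ + ((gam (hour 0) : ℝ) : ℂ) * _ = 0
    rw [hS, hg]
    simp
  have h3 : k1 (hour 0) x = 1 := by simp [k1, hs]
  have h4 : k2 (hour 0) x = 1 := by simp [k2, hs]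
  unfold F
  rw [h1, h2, sec_zero]
  show (UU (k1 (hour 0) x) (k2 (hour 0) x) (kickE (ze south, ze south)) x, _) = _
  rw [h3, h4, ze_south, show ((0 : ℂ), (0 : ℂ)) = 0 from rfl, kickE_zero, UU_one]

/-- inclusion of the first sphere -/
noncomputable def incl : C(Hom.S2, Mfd) where
  toFun q := (toSph q, south, south, z0)
  continuous_toFun := continuous_toSph.prodMk (by fun_prop)

/-- projection to the first sphere -/
noncomputable def projS : C(Mfd, Hom.S2) where
  toFun p := ⟨(ze p.1, he p.1), ze_he p.1⟩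
  continuous_toFun := Continuous.subtype_mk
    ((continuous_ze.comp continuous_fst).prodMk (continuous_he.comp continuous_fst)) _

lemma continuous_hour : Continuous hour := by
  unfold hour
  fun_prop

lemma continuous_nextZ : Continuous (fun q : ℝ × S1 => nextZ q.1 q.2) := by
  unfold nextZ
  refine Continuous.subtype_mk ?_ _
  exact (continuous_subtype_val.comp continuous_snd).mul (continuous_hour.comp continuous_fst)

lemma nextZ_zero (z : S1) : nextZ 0 z = z := by
  apply Subtype.ext
  show (z : ℂ) * hour 0 = z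
  rw [hour_zero, mul_one]

lemma FC_homotopic : (FC.comp incl).Homotopic (incl.comp Hom.sq) := by
  refine ⟨ContinuousMap.Homotopy.symm ?_⟩
  refine
    { toFun := fun p => (toSph (Hom.sq p.2), south, south,
        nextZ ((p.1 : ℝ) * tau (incl p.2)) z0)
      continuous_toFun := ?_
      map_zero_left := fun q => ?_
      map_one_left := fun q => ?_ }
  · refine (continuous_toSph.comp (Hom.sq.continuous.comp continuous_snd)).prodMk
      (continuous_const.prodMk (continuous_const.prodMk ?_))
    refine continuous_nextZ.comp (Continuous.prodMk ?_ continuous_const)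
    exact (continuous_subtype_val.comp continuous_fst).mul
      (continuous_tau.comp (incl.continuous.comp continuous_snd))
  · show (toSph (Hom.sq q), south, south, nextZ (((0 : unitInterval) : ℝ) * tau (incl q)) z0) =
      (toSph (Hom.sq q), south, south, z0)
    simp [nextZ_zero]
  · show (toSph (Hom.sq q), south, south, nextZ (((1 : unitInterval) : ℝ) * tau (incl q)) z0) =
      F (toSph q, south, south, z0)
    rw [F_slice, toSph_sq]
    have h1 : ((1 : unitInterval) : ℝ) = 1 := rfl
    rw [h1, one_mul]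
    rfl

theorem eigen_FC : Module.End.HasEigenvalue
    (((AlgebraicTopology.singularHomologyFunctor (ModuleCat.{0} ℝ) 2).obj
        (ModuleCat.of ℝ ℝ)).map (TopCat.ofHom FC)).hom (2 : ℝ) := by
  refine Hom.hasEigenvalue_of FC incl projS ?_ FC_homotopic
  have h : projS.comp incl = ContinuousMap.id Hom.S2 := by
    ext q <;> rfl
  rw [h]

theorem main :
    ∃ (n : ℕ) (M : Type) (_ : MetricSpace M) (_ : CompactSpace M) (_ : Nonempty M)
      (_ : ChartedSpace (EuclideanSpace ℝ (Fin n)) M)
      (_ : IsManifold (modelWithCornersSelf ℝ (EuclideanSpace ℝ (Fin n))) ∞ M)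
      (f : C(M, M)),
      ContMDiff (modelWithCornersSelf ℝ (EuclideanSpace ℝ (Fin n)))
          (modelWithCornersSelf ℝ (EuclideanSpace ℝ (Fin n))) 1 ⇑f ∧
        Dynamics.coverEntropy ⇑f Set.univ = 0 ∧
        Module.End.HasEigenvalue
          (((AlgebraicTopology.singularHomologyFunctor (ModuleCat.{0} ℝ) 2).obj
              (ModuleCat.of ℝ ℝ)).map (TopCat.ofHom f)).hom (2 : ℝ) := by
  obtain ⟨hc, hm, H⟩ := exists_charts
  exact ⟨7, Mfd, inferInstance, inferInstance, ⟨PP⟩, hc, hm, FC, H F contMDiff_F,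
    entropy_zero, eigen_FC⟩

end Crest.Agent.R123
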