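/-
R123 / S0163, task XLOCAL-A : pointwise formulas for the pieces of `F` (first part).
-/
import Crest.Agent.R123.XClock
import Crest.Agent.R123.XKick

set_option autoImplicit false

namespace Crest.Agent.R123

open Real (smoothTransition)

@[simp] lemma ze_north : ze north = 0 := rfl
@[simp] lemma he_north : he north = 1 := rfl
@[simp] lemma ze_south : ze south = 0 := rfl
@[simp] lemma he_south : he south = -1 := rfl

lemma ze_jj (v : ℂ) : ze (jj v) = 2 * v / ((1 + ‖v‖ ^ 2 : ℝ) : ℂ) := rfl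
lemma he_jj (v : ℂ) : he (jj v) = (‖v‖ ^ 2 - 1) / (1 + ‖v‖ ^ 2) := rfl

lemma jj_zero : jj 0 = south := by
  apply S2_ext
  · simp [ze_jj]
  · simp [he_jj]

lemma he_eq_one {x : S2} (h : he x = 1) : x = north := by
  have h2 := ze_he x
  rw [h] at h2
  apply S2_ext
  · have : ‖ze x‖ ^ 2 = 0 := by linarith
    simpa using this
  · simpa using h

lemma he_eq_neg_one {x : S2} (h : he x = -1) : x = south := by
  have h2 := ze_he x
  rw [h] at h2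
  apply S2_ext
  · have : ‖ze x‖ ^ 2 = 0 := by linarith
    simpa using this
  · simpa using h

lemma he_le_one (x : S2) : he x ≤ 1 := by
  have h2 := ze_he x
  nlinarith [sq_nonneg ‖ze x‖]

lemma neg_one_le_he (x : S2) : -1 ≤ he x := by
  have h2 := ze_he x
  nlinarith [sq_nonneg ‖ze x‖]

/-- every point is `north` or some `jj v` -/
lemma eq_north_or_jj (x : S2) : x = north ∨ ∃ v : ℂ, x = jj v := by
  by_cases hx : he x = 1
  · exact Or.inl (he_eq_one hx)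
  · right
    have hlt : he x < 1 := lt_of_le_of_ne (he_le_one x) hx
    have hpos : 0 < 1 - he x := by linarith
    have h2 := ze_he x
    refine ⟨ze x / ((1 - he x : ℝ) : ℂ), ?_⟩
    have hn : ‖ze x / ((1 - he x : ℝ) : ℂ)‖ ^ 2 = (1 + he x) / (1 - he x) := by
      rw [norm_div, Complex.norm_real, Real.norm_of_nonneg hpos.le, div_pow]
      rw [div_eq_div_iff (by positivity) (by positivity)]
      have : ‖ze x‖ ^ 2 = (1 - he x) * (1 + he x) := by linarith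
      rw [this]; ring
    have hs : 1 + (1 + he x) / (1 - he x) = 2 / (1 - he x) := by
      field_simp; ring
    apply S2_ext
    · rw [ze_jj, hn, hs]
      have hc : ((1 - he x : ℝ) : ℂ) ≠ 0 := by exact_mod_cast hpos.ne'
      push_cast at hc ⊢
      field_simp
    · rw [he_jj, hn, hs]
      field_simp
      ring

lemma one_add_sq_pos (v : ℂ) : 0 < 1 + ‖v‖ ^ 2 := by positivity

lemma one_sub_he_jj (v : ℂ) : 1 - he (jj v) = 2 / (1 + ‖v‖ ^ 2) := by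
  have := one_add_sq_pos v
  rw [he_jj]
  field_simp
  ring

/-- stereographic coordinate of `jj v` -/
lemma st_jj (v : ℂ) : ze (jj v) / ((1 - he (jj v) : ℝ) : ℂ) = v := by
  rw [one_sub_he_jj, ze_jj]
  have h : ((1 + ‖v‖ ^ 2 : ℝ) : ℂ) ≠ 0 := by exact_mod_cast (one_add_sq_pos v).ne'
  push_cast at h ⊢
  field_simp

lemma jj_ne_north (v : ℂ) : jj v ≠ north := by
  intro h
  have h1 := one_sub_he_jj v
  rw [h, he_north] at h1
  have := one_add_sq_pos v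
  have h2 : 0 < 2 / (1 + ‖v‖ ^ 2) := by positivity
  linarith

lemma jj_injective : Function.Injective jj := by
  intro v w h
  rw [← st_jj v, ← st_jj w, h]

lemma sqS_jj (v : ℂ) : sqS (jj v) = jj (v ^ 2) := by
  have h := one_add_sq_pos v
  have h' := one_add_sq_pos (v ^ 2)
  have hn : ‖v ^ 2‖ ^ 2 = (‖v‖ ^ 2) ^ 2 := by rw [norm_pow]
  have e : 1 + he (jj v) ^ 2 = 2 * (1 + (‖v‖ ^ 2) ^ 2) / (1 + ‖v‖ ^ 2) ^ 2 := by
    rw [he_jj]
    field_simp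
    ring
  apply S2_ext
  · show (ze (jj v)) ^ 2 / ((1 + he (jj v) ^ 2 : ℝ) : ℂ) = _
    rw [e, ze_jj, ze_jj, hn]
    have h1 : ((1 + ‖v‖ ^ 2 : ℝ) : ℂ) ≠ 0 := by exact_mod_cast h.ne'
    have h2 : ((1 + (‖v‖ ^ 2) ^ 2 : ℝ) : ℂ) ≠ 0 := by
      rw [← hn]; exact_mod_cast h'.ne'
    push_cast at h1 h2 ⊢
    field_simp
  · show 2 * he (jj v) / (1 + he (jj v) ^ 2) = _
    rw [e, he_jj, he_jj, hn]
    field_simp
    ring

@[simp] lemma sqS_north : sqS north = north := by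
  apply S2_ext
  · show (ze north) ^ 2 / ((1 + he north ^ 2 : ℝ) : ℂ) = _
    simp
  · show 2 * he north / (1 + he north ^ 2) = _
    simp; norm_num

lemma GS_jj (v : ℂ) : GS (jj v) = G v := by
  unfold GS
  rw [st_jj]

@[simp] lemma GS_north : GS north = 0 := by
  unfold GS
  rw [ze_north, zero_div]
  exact G_zero_of_le_one (by simp)

lemma toS2_self (x : S2) : toS2 (ze x) (he x) = x := by
  unfold toS2
  rw [dif_pos (ze_he x)]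
  exact S2_ext rfl rfl

lemma UU_north {k₁ k₂ : ℝ} (e : ℂ) (h1 : 0 < k₁) : UU k₁ k₂ e north = north := by
  have hX : UX k₁ k₂ e (ze north) (he north) = 0 := by simp [UX]
  have hY : UY k₁ k₂ e (ze north) (he north) = k₁ ^ 2 := by simp [UY]
  have hZ : UZ k₂ (he north) = 0 := by simp [UZ]
  unfold UU
  rw [hX, hY, hZ]
  have : (k₁ ^ 2 - 0) / (k₁ ^ 2 + 0) = he north := by
    rw [he_north, sub_zero, add_zero, div_self (by positivity)]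
  rw [this, mul_zero, zero_div]
  exact toS2_self north

lemma one_add_he_jj (v : ℂ) : (1 + he (jj v)) / 2 = ‖v‖ ^ 2 / (1 + ‖v‖ ^ 2) := by
  have := one_add_sq_pos v
  rw [he_jj]
  field_simp
  ring

lemma one_sub_he_jj' (v : ℂ) : (1 - he (jj v)) / 2 = 1 / (1 + ‖v‖ ^ 2) := by
  rw [one_sub_he_jj]; ring

lemma ze_jj_half (v : ℂ) : ze (jj v) / 2 = v / ((1 + ‖v‖ ^ 2 : ℝ) : ℂ) := by
  rw [ze_jj]; ring

lemma UX_jj (k₁ k₂ : ℝ) (e v : ℂ) : UX k₁ k₂ e (ze (jj v)) (he (jj v)) =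
    (k₂ : ℂ) * ((k₁ : ℂ) * v ^ 2 + (k₂ : ℂ) * e) / (((1 + ‖v‖ ^ 2) ^ 2 : ℝ) : ℂ) := by
  unfold UX
  rw [one_sub_he_jj', ze_jj_half]
  have h1 : ((1 + ‖v‖ ^ 2 : ℝ) : ℂ) ≠ 0 := by exact_mod_cast (one_add_sq_pos v).ne'
  push_cast at h1 ⊢
  field_simp

lemma UZ_jj (k₂ : ℝ) (v : ℂ) : UZ k₂ (he (jj v)) = k₂ ^ 2 / (1 + ‖v‖ ^ 2) ^ 2 := by
  unfold UZ
  rw [one_sub_he_jj', div_pow, one_pow, mul_one_div]

lemma norm_sq_add_mul (a b : ℂ) (s t : ℝ) :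
    ‖(s : ℂ) * a + (t : ℂ) * b‖ ^ 2 =
      s ^ 2 * ‖a‖ ^ 2 + 2 * s * t * (a * (starRingEnd ℂ) b).re + t ^ 2 * ‖b‖ ^ 2 := by
  rw [Complex.sq_norm, Complex.sq_norm, Complex.sq_norm]
  simp only [Complex.normSq_apply, Complex.add_re, Complex.add_im, Complex.mul_re,
    Complex.mul_im, Complex.conj_re, Complex.conj_im, Complex.ofReal_re, Complex.ofReal_im]
  ring

lemma UY_jj (k₁ k₂ : ℝ) (e v : ℂ) : UY k₁ k₂ e (ze (jj v)) (he (jj v)) =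
    ‖(k₁ : ℂ) * v ^ 2 + (k₂ : ℂ) * e‖ ^ 2 / (1 + ‖v‖ ^ 2) ^ 2 := by
  unfold UY
  rw [one_sub_he_jj', ze_jj_half, one_add_he_jj, norm_sq_add_mul]
  have h := one_add_sq_pos v
  have e1 : ((v / ((1 + ‖v‖ ^ 2 : ℝ) : ℂ)) ^ 2 * (starRingEnd ℂ) e).re =
      (v ^ 2 * (starRingEnd ℂ) e).re / (1 + ‖v‖ ^ 2) ^ 2 := by
    have : (v / ((1 + ‖v‖ ^ 2 : ℝ) : ℂ)) ^ 2 * (starRingEnd ℂ) e =
        (v ^ 2 * (starRingEnd ℂ) e) / (((1 + ‖v‖ ^ 2) ^ 2 : ℝ) : ℂ) := by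
      rw [div_pow, div_mul_eq_mul_div, Complex.ofReal_pow]
    rw [this, Complex.div_ofReal_re]
  rw [e1, norm_pow]
  field_simp

lemma UU_jj {k₁ k₂ : ℝ} (e v : ℂ) (_h1 : 0 ≤ k₁) (h2 : 0 < k₂) :
    UU k₁ k₂ e (jj v) = jj ((k₁ / k₂ : ℝ) * v ^ 2 + e) := by
  set w : ℂ := ((k₁ / k₂ : ℝ) : ℂ) * v ^ 2 + e with hw
  have hk : (k₂ : ℂ) ≠ 0 := by exact_mod_cast h2.ne'
  have hkw : (k₁ : ℂ) * v ^ 2 + (k₂ : ℂ) * e = k₂ * w := by
    rw [hw]; push_cast; field_simp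
  have hv := one_add_sq_pos v
  have hw1 := one_add_sq_pos w
  have hnorm : ‖(k₂ : ℂ) * w‖ ^ 2 = k₂ ^ 2 * ‖w‖ ^ 2 := by
    rw [norm_mul, Complex.norm_real, Real.norm_of_nonneg h2.le, mul_pow]
  unfold UU
  rw [UX_jj, UY_jj, UZ_jj, hkw, hnorm]
  have hsum : k₂ ^ 2 * ‖w‖ ^ 2 / (1 + ‖v‖ ^ 2) ^ 2 + k₂ ^ 2 / (1 + ‖v‖ ^ 2) ^ 2 =
      k₂ ^ 2 * (1 + ‖w‖ ^ 2) / (1 + ‖v‖ ^ 2) ^ 2 := by ring
  rw [hsum]
  have e1 : 2 * ((k₂ : ℂ) * (k₂ * w) / (((1 + ‖v‖ ^ 2) ^ 2 : ℝ) : ℂ)) /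
      ((k₂ ^ 2 * (1 + ‖w‖ ^ 2) / (1 + ‖v‖ ^ 2) ^ 2 : ℝ) : ℂ) = ze (jj w) := by
    rw [ze_jj]
    have h1 : ((1 + ‖v‖ ^ 2 : ℝ) : ℂ) ≠ 0 := by exact_mod_cast hv.ne'
    have h3 : ((1 + ‖w‖ ^ 2 : ℝ) : ℂ) ≠ 0 := by exact_mod_cast hw1.ne'
    push_cast at h1 h3 ⊢
    field_simp
  have e2 : (k₂ ^ 2 * ‖w‖ ^ 2 / (1 + ‖v‖ ^ 2) ^ 2 - k₂ ^ 2 / (1 + ‖v‖ ^ 2) ^ 2) /
      (k₂ ^ 2 * (1 + ‖w‖ ^ 2) / (1 + ‖v‖ ^ 2) ^ 2) = he (jj w) := by
    rw [he_jj]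
    field_simp
  rw [e1, e2]
  exact toS2_self _

lemma UU_jj_top {k₁ : ℝ} (e : ℂ) {v : ℂ} (h1 : 0 < k₁) (hv : v ≠ 0) :
    UU k₁ 0 e (jj v) = north := by
  unfold UU
  rw [UX_jj, UY_jj, UZ_jj]
  have hv0 : 0 < ‖v‖ := norm_pos_iff.2 hv
  have h := one_add_sq_pos v
  have hn : ‖(k₁ : ℂ) * v ^ 2 + ((0:ℝ) : ℂ) * e‖ ^ 2 = k₁ ^ 2 * ‖v‖ ^ 4 := by
    rw [Complex.ofReal_zero, zero_mul, add_zero, norm_mul, Complex.norm_real,
      Real.norm_of_nonneg h1.le, norm_pow]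
    ring
  rw [hn]
  have e2 : (k₁ ^ 2 * ‖v‖ ^ 4 / (1 + ‖v‖ ^ 2) ^ 2 - 0 ^ 2 / (1 + ‖v‖ ^ 2) ^ 2) /
      (k₁ ^ 2 * ‖v‖ ^ 4 / (1 + ‖v‖ ^ 2) ^ 2 + 0 ^ 2 / (1 + ‖v‖ ^ 2) ^ 2) = he north := by
    rw [he_north]
    have : (0:ℝ) ^ 2 = 0 := by norm_num
    rw [this, zero_div, sub_zero, add_zero, div_self (by positivity)]
  rw [e2]
  have e1 : 2 * (((0:ℝ) : ℂ) * ((k₁ : ℂ) * v ^ 2 + ((0:ℝ) : ℂ) * e) / (((1 + ‖v‖ ^ 2) ^ 2 : ℝ) : ℂ)) /
      ((k₁ ^ 2 * ‖v‖ ^ 4 / (1 + ‖v‖ ^ 2) ^ 2 + 0 ^ 2 / (1 + ‖v‖ ^ 2) ^ 2 : ℝ) : ℂ) = ze north := by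
    simp
  rw [e1]
  exact toS2_self _

/-- The cut-off of the height. -/
lemma KK_nonneg (h : ℝ) : 0 ≤ KK h := smoothTransition.nonneg _
lemma KK_le_one (h : ℝ) : KK h ≤ 1 := smoothTransition.le_one _

lemma KK_jj_of_le {v : ℂ} (h : ‖v‖ ≤ 4) : KK (he (jj v)) = 0 := by
  unfold KK
  apply smoothTransition.zero_of_nonpos
  have h16 : ‖v‖ ^ 2 ≤ 16 := by nlinarith [norm_nonneg v]
  have hp := one_add_sq_pos v
  have : he (jj v) ≤ 15 / 17 := by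
    rw [he_jj, div_le_div_iff₀ hp (by norm_num)]
    linarith
  linarith

lemma KK_jj_of_ge {v : ℂ} (h : 16 ≤ ‖v‖) : KK (he (jj v)) = 1 := by
  unfold KK
  apply smoothTransition.one_of_one_le
  have h16 : 256 ≤ ‖v‖ ^ 2 := by nlinarith [norm_nonneg v]
  have hp := one_add_sq_pos v
  have : 255 / 257 ≤ he (jj v) := by
    rw [he_jj, div_le_div_iff₀ (by norm_num) hp]
    linarith
  linarith

lemma KK_north : KK (he north) = 1 := by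
  unfold KK
  apply smoothTransition.one_of_one_le
  rw [he_north]
  norm_num

/-! ### the cut-off identity -/

lemma cut_of_le {z : ℂ} (h : ‖z‖ ≤ 1 / 8) : cut z = z := by
  unfold cut
  rw [smoothTransition.zero_of_nonpos]
  · simp
  · have : ‖z‖ ^ 2 ≤ (1 / 8) ^ 2 := by gcongr
    norm_num at this ⊢
    linarith

@[simp] lemma cut_zero : cut 0 = 0 := by
  simp [cut]

lemma norm_cut_le (z : ℂ) : ‖cut z‖ ≤ 1 / 4 := by
  unfold cut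
  set S := smoothTransition ((64 * ‖z‖ ^ 2 - 1) / 3) with hS
  have hS0 : 0 ≤ S := smoothTransition.nonneg _
  have hS1 : S ≤ 1 := smoothTransition.le_one _
  rw [norm_mul, Complex.norm_real, Real.norm_of_nonneg (by linarith)]
  rcases le_total ‖z‖ (1 / 4) with h | h
  · have := norm_nonneg z
    nlinarith
  · have : S = 1 := by
      rw [hS]
      apply smoothTransition.one_of_one_le
      have : (1 / 4) ^ 2 ≤ ‖z‖ ^ 2 := by gcongr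
      norm_num at this ⊢
      linarith
    rw [this]
    norm_num

lemma contDiff_cut : ContDiff ℝ 1 cut := by
  unfold cut
  apply ContDiff.mul _ contDiff_id
  apply Complex.ofRealCLM.contDiff.comp
  apply contDiff_const.sub
  apply (smoothTransition.contDiff (n := 1)).comp
  apply ContDiff.div_const
  apply ContDiff.sub _ contDiff_const
  exact contDiff_const.mul (contDiff_norm_sq ℝ)

/-! ### the section -/

lemma sec_cond {ξ : ℂ} (h : ‖ξ‖ ≤ 1) : ‖ξ‖ ^ 2 + (-Real.sqrt (1 - ‖ξ‖ ^ 2)) ^ 2 = 1 := by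
  have : 0 ≤ 1 - ‖ξ‖ ^ 2 := by nlinarith [norm_nonneg ξ]
  rw [neg_sq, Real.sq_sqrt this]
  ring

lemma ze_sec {ξ : ℂ} (h : ‖ξ‖ ≤ 1) : ze (sec ξ) = ξ := by
  unfold sec toS2
  rw [dif_pos (sec_cond h)]
  rfl

lemma he_sec {ξ : ℂ} (h : ‖ξ‖ ≤ 1) : he (sec ξ) = -Real.sqrt (1 - ‖ξ‖ ^ 2) := by
  unfold sec toS2
  rw [dif_pos (sec_cond h)]
  rfl

@[simp] lemma sec_zero : sec 0 = south := by
  apply S2_ext
  · rw [ze_sec (by simp), ze_south]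
  · rw [he_sec (by simp), he_south]; simp

lemma norm_GS_le (x : S2) : ‖GS x‖ ≤ 1 / 8 := norm_G_le _

lemma norm_xi1_le (p : Mfd) : ‖xi1 p‖ ≤ 3 / 8 := by
  unfold xi1
  have a := SZ_nonneg (p.2.2.2 : ℂ)
  have b := SZ_le_one (p.2.2.2 : ℂ)
  have c := gam_nonneg (p.2.2.2 : ℂ)
  have d := gam_le_one (p.2.2.2 : ℂ)
  have e := norm_cut_le (8 * ze p.2.2.1)
  have f := norm_GS_le (sqS p.1)
  have e0 := norm_nonneg (cut (8 * ze p.2.2.1))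
  have f0 := norm_nonneg (GS (sqS p.1))
  refine (norm_add_le _ _).trans ?_
  rw [norm_mul, norm_mul, Complex.norm_real, Complex.norm_real, Real.norm_of_nonneg a,
    Real.norm_of_nonneg c]
  nlinarith

lemma norm_xi2_le (p : Mfd) : ‖xi2 p‖ ≤ 3 / 8 := by
  unfold xi2
  have a := SZ_nonneg (p.2.2.2 : ℂ)
  have b := SZ_le_one (p.2.2.2 : ℂ)
  have c := gam_nonneg (p.2.2.2 : ℂ)
  have d := gam_le_one (p.2.2.2 : ℂ)
  have e := norm_cut_le (8 * ze p.2.1)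
  have f := norm_GS_le (sqS (sqS p.1))
  have e0 := norm_nonneg (cut (8 * ze p.2.1))
  have f0 := norm_nonneg (GS (sqS (sqS p.1)))
  refine (norm_add_le _ _).trans ?_
  rw [norm_mul, norm_mul, Complex.norm_real, Complex.norm_real, Real.norm_of_nonneg a,
    Real.norm_of_nonneg c, norm_div]
  norm_num
  nlinarith

end Crest.Agent.R123
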