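/-
R123 / S0163, part of task SMOOTH : ambient `C¹` formulas for `GS`, `sqS`, `UU`.
-/
import Crest.Agent.R123.XDefs

set_option autoImplicit false

open scoped ContDiff

noncomputable section

namespace Crest.Agent.R123

open Real (smoothTransition)

lemma contDiff_fst3 {n : WithTop ℕ∞} : ContDiff ℝ n (fun x : E3 => x.fst) :=
  contDiff_fst.comp WithLp.contDiff_ofLp

lemma contDiff_snd3 {n : WithTop ℕ∞} : ContDiff ℝ n (fun x : E3 => x.snd) :=
  contDiff_snd.comp WithLp.contDiff_ofLp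

lemma contDiffAt_cdiv {E : Type*} [NormedAddCommGroup E] [NormedSpace ℝ E] {f g : E → ℂ}
    {n : WithTop ℕ∞} {x : E} (hf : ContDiffAt ℝ n f x) (hg : ContDiffAt ℝ n g x) (h : g x ≠ 0) :
    ContDiffAt ℝ n (fun y => f y / g y) x := by
  simp only [div_eq_mul_inv]
  exact hf.mul (hg.inv h)

/-- ambient formula for `GS` -/
def GSa (x : E3) : ℂ :=
  ((smoothTransition (65537 * (1 - x.snd) - 1) : ℝ) : ℂ) * G (x.fst / ((1 - x.snd : ℝ) : ℂ))

lemma contDiff_ofReal_comp {E : Type*} [NormedAddCommGroup E] [NormedSpace ℝ E] {f : E → ℝ}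
    {n : WithTop ℕ∞} {x : E} (h : ContDiffAt ℝ n f x) : ContDiffAt ℝ n (fun y => ((f y : ℝ) : ℂ)) x :=
  Complex.ofRealCLM.contDiff.contDiffAt.comp x h

theorem contDiff_GSa : ContDiff ℝ 1 GSa := by
  rw [contDiff_iff_contDiffAt]
  intro x
  by_cases hx : x.snd = 1
  · -- locally zero
    have hev : GSa =ᶠ[nhds x] fun _ => 0 := by
      have hc : ContinuousAt (fun y : E3 => 65537 * (1 - y.snd) - 1) x := by
        have : Continuous (fun y : E3 => y.snd) := (contDiff_snd3 (n := 1)).continuous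
        fun_prop
      have hlt : (fun y : E3 => 65537 * (1 - y.snd) - 1) x < 0 := by simp [hx]
      filter_upwards [hc.eventually_lt_const hlt] with y hy
      simp [GSa, smoothTransition.zero_of_nonpos hy.le]
    exact contDiffAt_const.congr_of_eventuallyEq hev
  · have h1 : ContDiffAt ℝ 1 (fun x : E3 => (smoothTransition (65537 * (1 - x.snd) - 1) : ℝ)) x := by
      have : ContDiff ℝ 1 (fun x : E3 => 65537 * (1 - x.snd) - 1) :=
        (contDiff_const.mul (contDiff_const.sub contDiff_snd3)).sub contDiff_const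
      exact ((smoothTransition.contDiff (n := 1)).comp this).contDiffAt
    have h2 : ContDiffAt ℝ 1 (fun x : E3 => x.fst / ((1 - x.snd : ℝ) : ℂ)) x := by
      apply contDiffAt_cdiv contDiff_fst3.contDiffAt
      · exact contDiff_ofReal_comp (contDiff_const.sub contDiff_snd3).contDiffAt
      · rw [Ne, Complex.ofReal_eq_zero, sub_eq_zero]; exact fun h => hx h.symm
    exact (contDiff_ofReal_comp h1).mul (contDiff_G.contDiffAt.comp x h2)

lemma GSa_coe (x : S2) : GSa (x : E3) = GS x := by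
  unfold GSa GS
  change ((smoothTransition (65537 * (1 - he x) - 1) : ℝ) : ℂ) * G (ze x / ((1 - he x : ℝ) : ℂ)) = _
  have hS := ze_he x
  by_cases h : 1 ≤ 65537 * (1 - he x) - 1
  · rw [smoothTransition.one_of_one_le h]; simp
  · push Not at h
    have hle : he x ≤ 1 := by nlinarith [sq_nonneg ‖ze x‖]
    rcases eq_or_lt_of_le hle with h1 | h1
    · have : ze x = 0 := by
        rw [h1] at hS
        have : ‖ze x‖ ^ 2 = 0 := by linarith
        simpa using this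
      rw [this]; simp [G_zero_of_le_one]
    · have hpos : 0 < 1 - he x := by linarith
      have : G (ze x / ((1 - he x : ℝ) : ℂ)) = 0 := by
        apply G_zero_of_ge
        rw [norm_div, Complex.norm_real, Real.norm_of_nonneg hpos.le, le_div_iff₀ hpos]
        have h3 : (256 * (1 - he x)) ^ 2 ≤ ‖ze x‖ ^ 2 := by
          have : ‖ze x‖ ^ 2 = (1 - he x) * (1 + he x) := by linarith
          rw [this]
          nlinarith
        exact (pow_le_pow_iff_left₀ (by positivity) (norm_nonneg _) (by norm_num)).1 h3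
      rw [this]; simp

/-- ambient formula for `sqS` -/
def sqSa (x : E3) : E3 :=
  WithLp.toLp 2 (x.fst ^ 2 / ((1 + x.snd ^ 2 : ℝ) : ℂ), 2 * x.snd / (1 + x.snd ^ 2))

theorem contDiff_sqSa : ContDiff ℝ 1 sqSa := by
  unfold sqSa
  apply WithLp.contDiff_toLp.comp
  apply ContDiff.prodMk
  · rw [contDiff_iff_contDiffAt]
    intro x
    apply contDiffAt_cdiv (contDiff_fst3.pow 2).contDiffAt
    · exact contDiff_ofReal_comp (contDiff_const.add (contDiff_snd3.pow 2)).contDiffAt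
    · rw [Ne, Complex.ofReal_eq_zero]; positivity
  · apply ContDiff.div (contDiff_const.mul contDiff_snd3) (contDiff_const.add (contDiff_snd3.pow 2))
    intro x; positivity

lemma sqSa_coe (x : S2) : sqSa (x : E3) = (sqS x : E3) := rfl

/-- ambient formula for `UU` -/
def UUa (k₁ k₂ : ℝ) (e : ℂ) (x : E3) : E3 :=
  WithLp.toLp 2 (2 * UX k₁ k₂ e x.fst x.snd / ((UY k₁ k₂ e x.fst x.snd + UZ k₂ x.snd : ℝ) : ℂ),
    (UY k₁ k₂ e x.fst x.snd - UZ k₂ x.snd) / (UY k₁ k₂ e x.fst x.snd + UZ k₂ x.snd))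

/-- `|UX|² = UY UZ` on the sphere -/
lemma norm_UX_sq (k₁ k₂ : ℝ) (e : ℂ) (x : S2) :
    ‖UX k₁ k₂ e (ze x) (he x)‖ ^ 2 = UY k₁ k₂ e (ze x) (he x) * UZ k₂ (he x) := by
  have hS := ze_he x
  set a := ze x
  set b := he x
  have ha : ‖a‖ ^ 2 = (1 - b) * (1 + b) := by linarith
  have ha4 : Complex.normSq (a ^ 2) = ((1 - b) * (1 + b)) ^ 2 := by
    rw [Complex.normSq_eq_norm_sq, norm_pow]
    rw [← ha]
  unfold UX UY UZ
  rw [← Complex.normSq_eq_norm_sq, Complex.normSq_add]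
  have e1 : Complex.normSq (((k₁ * k₂ : ℝ) : ℂ) * (a / 2) ^ 2) =
      (k₁ * k₂) ^ 2 * (((1 - b) * (1 + b)) ^ 2 / 16) := by
    rw [Complex.normSq_mul, Complex.normSq_ofReal, div_pow, Complex.normSq_div, ha4]
    have : Complex.normSq (2 ^ 2 : ℂ) = 16 := by
      rw [Complex.normSq_eq_norm_sq]; norm_num
    rw [this]
    ring
  have e2 : Complex.normSq (e * ((k₂ ^ 2 * ((1 - b) / 2) ^ 2 : ℝ) : ℂ)) =
      ‖e‖ ^ 2 * (k₂ ^ 2 * ((1 - b) / 2) ^ 2) ^ 2 := by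
    rw [Complex.normSq_mul, Complex.normSq_ofReal, Complex.normSq_eq_norm_sq]; ring
  have e3 : (((k₁ * k₂ : ℝ) : ℂ) * (a / 2) ^ 2 *
      (starRingEnd ℂ) (e * ((k₂ ^ 2 * ((1 - b) / 2) ^ 2 : ℝ) : ℂ))).re =
      (k₁ * k₂) * (k₂ ^ 2 * ((1 - b) / 2) ^ 2) * ((a / 2) ^ 2 * (starRingEnd ℂ) e).re := by
    rw [map_mul, Complex.conj_ofReal]
    have : ((k₁ * k₂ : ℝ) : ℂ) * (a / 2) ^ 2 * ((starRingEnd ℂ) e * ((k₂ ^ 2 * ((1 - b) / 2) ^ 2 : ℝ) : ℂ))
        = (((k₁ * k₂) * (k₂ ^ 2 * ((1 - b) / 2) ^ 2) : ℝ) : ℂ) * ((a / 2) ^ 2 * (starRingEnd ℂ) e) := by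
      push_cast; ring
    rw [this, Complex.re_ofReal_mul]
  rw [e1, e2, e3]
  ring

lemma UZ_nonneg (k₂ b : ℝ) : 0 ≤ UZ k₂ b := by unfold UZ; positivity

/-- positivity of the denominator -/
lemma UY_add_UZ_pos {k₁ k₂ : ℝ} (e : ℂ) (x : S2)
    (h : (k₂ ≠ 0 ∧ he x ≠ 1) ∨ (k₁ ≠ 0 ∧ he x ≠ -1 ∧ (k₂ = 0 ∨ he x = 1))) :
    0 < UY k₁ k₂ e (ze x) (he x) + UZ k₂ (he x) := by
  have hS := ze_he x
  have hq := norm_UX_sq k₁ k₂ e x
  rcases h with ⟨h1, h2⟩ | ⟨h1, h2, h3⟩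
  · have hz : 0 < UZ k₂ (he x) := by
      unfold UZ
      have : (1 - he x) / 2 ≠ 0 := by
        intro h0; apply h2; linarith
      positivity
    have hy : 0 ≤ UY k₁ k₂ e (ze x) (he x) := by
      by_contra hc
      push Not at hc
      nlinarith [sq_nonneg ‖UX k₁ k₂ e (ze x) (he x)‖]
    linarith
  · have hy : UY k₁ k₂ e (ze x) (he x) = k₁ ^ 2 * ((1 + he x) / 2) ^ 2 := by
      unfold UY
      rcases h3 with h3 | h3
      · rw [h3]; ring
      · have : ze x = 0 := by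
          rw [h3] at hS
          have : ‖ze x‖ ^ 2 = 0 := by linarith
          simpa using this
        rw [this, h3]; simp
    have : (1 + he x) / 2 ≠ 0 := by
      intro h0; apply h2; linarith
    have h4 := UZ_nonneg k₂ (he x)
    rw [hy]
    positivity

/-- norm condition in `UU` -/
lemma UU_norm {k₁ k₂ : ℝ} {e : ℂ} {x : S2}
    (h : UY k₁ k₂ e (ze x) (he x) + UZ k₂ (he x) ≠ 0) :
    ‖2 * UX k₁ k₂ e (ze x) (he x) / ((UY k₁ k₂ e (ze x) (he x) + UZ k₂ (he x) : ℝ) : ℂ)‖ ^ 2 +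
    ((UY k₁ k₂ e (ze x) (he x) - UZ k₂ (he x)) / (UY k₁ k₂ e (ze x) (he x) + UZ k₂ (he x))) ^ 2
      = 1 := by
  have hq := norm_UX_sq k₁ k₂ e x
  rw [norm_div, norm_mul, Complex.norm_real, div_pow, mul_pow, hq, Real.norm_eq_abs, sq_abs]
  simp only [Complex.norm_ofNat]
  field_simp
  ring

lemma toS2_of {a : ℂ} {b : ℝ} (h : ‖a‖ ^ 2 + b ^ 2 = 1) : toS2 a b = mkS2 a b h := by
  simp [toS2, h]

lemma UU_coe {k₁ k₂ : ℝ} {e : ℂ} {x : S2}
    (h : UY k₁ k₂ e (ze x) (he x) + UZ k₂ (he x) ≠ 0) :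
    ((UU k₁ k₂ e x : S2) : E3) = UUa k₁ k₂ e (x : E3) := by
  unfold UU
  rw [toS2_of (UU_norm h)]
  rfl

lemma contDiff_re' {n : WithTop ℕ∞} : ContDiff ℝ n (fun z : ℂ => z.re) := Complex.reCLM.contDiff

lemma contDiff_conj' {n : WithTop ℕ∞} : ContDiff ℝ n (fun z : ℂ => (starRingEnd ℂ) z) :=
  Complex.conjCLE.contDiff

lemma contDiff_norm_sq' {n : WithTop ℕ∞} : ContDiff ℝ n (fun z : ℂ => ‖z‖ ^ 2) := contDiff_norm_sq ℝ

lemma contDiff_UX : ContDiff ℝ 1 (fun q : ℝ × ℝ × ℂ × E3 =>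
    UX q.1 q.2.1 q.2.2.1 q.2.2.2.fst q.2.2.2.snd) := by
  have hx : ContDiff ℝ 1 (fun q : ℝ × ℝ × ℂ × E3 => q.2.2.2) :=
    contDiff_snd.comp (contDiff_snd.comp contDiff_snd)
  have he : ContDiff ℝ 1 (fun q : ℝ × ℝ × ℂ × E3 => q.2.2.1) :=
    contDiff_fst.comp (contDiff_snd.comp contDiff_snd)
  have h1 : ContDiff ℝ 1 (fun q : ℝ × ℝ × ℂ × E3 => q.1) := contDiff_fst
  have h2 : ContDiff ℝ 1 (fun q : ℝ × ℝ × ℂ × E3 => q.2.1) := contDiff_fst.comp contDiff_snd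
  have ha : ContDiff ℝ 1 (fun q : ℝ × ℝ × ℂ × E3 => q.2.2.2.fst) := contDiff_fst3.comp hx
  have hb : ContDiff ℝ 1 (fun q : ℝ × ℝ × ℂ × E3 => q.2.2.2.snd) := contDiff_snd3.comp hx
  unfold UX
  apply ContDiff.add
  · exact (Complex.ofRealCLM.contDiff.comp (h1.mul h2)).mul ((ha.div_const 2).pow 2)
  · exact he.mul (Complex.ofRealCLM.contDiff.comp
      ((h2.pow 2).mul (((contDiff_const.sub hb).div_const 2).pow 2)))

lemma contDiff_UY : ContDiff ℝ 1 (fun q : ℝ × ℝ × ℂ × E3 =>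
    UY q.1 q.2.1 q.2.2.1 q.2.2.2.fst q.2.2.2.snd) := by
  have hx : ContDiff ℝ 1 (fun q : ℝ × ℝ × ℂ × E3 => q.2.2.2) :=
    contDiff_snd.comp (contDiff_snd.comp contDiff_snd)
  have he : ContDiff ℝ 1 (fun q : ℝ × ℝ × ℂ × E3 => q.2.2.1) :=
    contDiff_fst.comp (contDiff_snd.comp contDiff_snd)
  have h1 : ContDiff ℝ 1 (fun q : ℝ × ℝ × ℂ × E3 => q.1) := contDiff_fst
  have h2 : ContDiff ℝ 1 (fun q : ℝ × ℝ × ℂ × E3 => q.2.1) := contDiff_fst.comp contDiff_snd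
  have ha : ContDiff ℝ 1 (fun q : ℝ × ℝ × ℂ × E3 => q.2.2.2.fst) := contDiff_fst3.comp hx
  have hb : ContDiff ℝ 1 (fun q : ℝ × ℝ × ℂ × E3 => q.2.2.2.snd) := contDiff_snd3.comp hx
  unfold UY
  apply ContDiff.add
  · apply ContDiff.add
    · exact (h1.pow 2).mul (((contDiff_const.add hb).div_const 2).pow 2)
    · exact ((contDiff_const.mul h1).mul h2).mul
        (contDiff_re'.comp (((ha.div_const 2).pow 2).mul (contDiff_conj'.comp he)))
  · exact (contDiff_norm_sq'.comp he).mul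
      ((h2.pow 2).mul (((contDiff_const.sub hb).div_const 2).pow 2))

lemma contDiff_UZ : ContDiff ℝ 1 (fun q : ℝ × ℝ × ℂ × E3 => UZ q.2.1 q.2.2.2.snd) := by
  have hx : ContDiff ℝ 1 (fun q : ℝ × ℝ × ℂ × E3 => q.2.2.2) :=
    contDiff_snd.comp (contDiff_snd.comp contDiff_snd)
  have h2 : ContDiff ℝ 1 (fun q : ℝ × ℝ × ℂ × E3 => q.2.1) := contDiff_fst.comp contDiff_snd
  have hb : ContDiff ℝ 1 (fun q : ℝ × ℝ × ℂ × E3 => q.2.2.2.snd) := contDiff_snd3.comp hx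
  unfold UZ
  exact (h2.pow 2).mul (((contDiff_const.sub hb).div_const 2).pow 2)

theorem contDiffAt_UUa (q : ℝ × ℝ × ℂ × E3)
    (h : UY q.1 q.2.1 q.2.2.1 q.2.2.2.fst q.2.2.2.snd + UZ q.2.1 q.2.2.2.snd ≠ 0) :
    ContDiffAt ℝ 1 (fun q : ℝ × ℝ × ℂ × E3 => UUa q.1 q.2.1 q.2.2.1 q.2.2.2) q := by
  have hS : ContDiff ℝ 1 (fun q : ℝ × ℝ × ℂ × E3 =>
      UY q.1 q.2.1 q.2.2.1 q.2.2.2.fst q.2.2.2.snd + UZ q.2.1 q.2.2.2.snd) :=
    contDiff_UY.add contDiff_UZ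
  unfold UUa
  refine WithLp.contDiff_toLp.contDiffAt.comp q (ContDiffAt.prodMk ?_ ?_)
  · exact contDiffAt_cdiv (contDiff_const.mul contDiff_UX).contDiffAt
      (contDiff_ofReal_comp hS.contDiffAt) (by rw [Ne, Complex.ofReal_eq_zero]; exact h)
  · exact (contDiff_UY.sub contDiff_UZ).contDiffAt.div hS.contDiffAt h

/-! ### the denominators which actually occur -/

lemma KK_of_he_one : KK 1 = 1 := smoothTransition.one_of_one_le (by norm_num)

lemma KK_of_he_neg_one : KK (-1) = 0 := smoothTransition.zero_of_nonpos (by norm_num)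

lemma k_cases (z : ℂ) (x : S2) :
    (k2 z x ≠ 0 ∧ he x ≠ 1) ∨ (k1 z x ≠ 0 ∧ he x ≠ -1 ∧ (k2 z x = 0 ∨ he x = 1)) := by
  have hs0 : 0 ≤ sz z := smoothTransition.nonneg _
  have hs1 : sz z ≤ 1 := smoothTransition.le_one _
  have hK0 : 0 ≤ KK (he x) := smoothTransition.nonneg _
  have hK1 : KK (he x) ≤ 1 := smoothTransition.le_one _
  by_cases h1 : he x = 1
  · right
    refine ⟨?_, ?_, Or.inr h1⟩
    · unfold k1; rw [h1, KK_of_he_one]; norm_num
    · rw [h1]; norm_num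
  · by_cases h2 : k2 z x = 0
    · right
      have h3 : sz z * KK (he x) = 1 := by unfold k2 at h2; linarith
      refine ⟨?_, ?_, Or.inl h2⟩
      · unfold k1; rw [h3]
        intro h4
        have : sz z = 2 := by linarith
        linarith
      · intro h4
        rw [h4, KK_of_he_neg_one] at h3
        norm_num at h3
    · left; exact ⟨h2, h1⟩

/-- the denominator of `UU` in the map `F` is positive. -/
theorem UU_den_pos (z : ℂ) (e : ℂ) (x : S2) :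
    0 < UY (k1 z x) (k2 z x) e (ze x) (he x) + UZ (k2 z x) (he x) :=
  UY_add_UZ_pos e x (k_cases z x)

end Crest.Agent.R123
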