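/-
R123 / S0163, task SMOOTH : `F` is the restriction of an ambient map which is `C¹` near `Mfd`
(complete proof).
-/
import Crest.Agent.R123.XLocal
import Crest.Agent.R123.XSmoothA
import Crest.Agent.R123.Mfd

set_option autoImplicit false

open scoped ContDiff

noncomputable section

namespace Crest.Agent.R123

open Real (smoothTransition)

/-! ### smoothness of the clock functions -/

lemma contDiff_rho : ContDiff ℝ 1 rho := by
  unfold rho
  exact contDiff_re'.comp (contDiff_id.mul contDiff_const)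

lemma contDiff_SZ : ContDiff ℝ 1 SZ := by
  unfold SZ
  exact smoothTransition.contDiff.comp (contDiff_const.add (contDiff_const.mul contDiff_rho))

lemma contDiff_sz : ContDiff ℝ 1 sz := by
  unfold sz
  exact smoothTransition.contDiff.comp ((contDiff_const.mul contDiff_rho).sub contDiff_const)

lemma contDiff_gam : ContDiff ℝ 1 gam := by
  unfold gam
  exact contDiff_SZ.mul (contDiff_const.sub (contDiff_SZ.comp (contDiff_id.mul contDiff_const)))

lemma contDiff_psi : ContDiff ℝ 1 psi := by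
  unfold psi
  exact (contDiff_const.add (contDiff_re'.comp (contDiff_id.mul contDiff_const))).div_const 2

lemma contDiff_KK : ContDiff ℝ 1 KK := by
  unfold KK
  exact smoothTransition.contDiff.comp
    (((contDiff_const.mul contDiff_id).sub contDiff_const).div_const 480)

lemma contDiff_hour : ContDiff ℝ 1 hour := by
  unfold hour
  exact Complex.contDiff_exp.comp
    ((Complex.ofRealCLM.contDiff.comp (contDiff_const.mul contDiff_id)).mul contDiff_const)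

lemma contDiff_cut : ContDiff ℝ 1 cut := by
  unfold cut
  refine ContDiff.mul (Complex.ofRealCLM.contDiff.comp ?_) contDiff_id
  exact contDiff_const.sub (smoothTransition.contDiff.comp
    (((contDiff_const.mul contDiff_norm_sq').sub contDiff_const).div_const 3))

/-- ambient section -/
def seca (ξ : ℂ) : E3 := WithLp.toLp 2 (ξ, -Real.sqrt (1 - ‖ξ‖ ^ 2))

lemma sec_coe {ξ : ℂ} (h : ‖ξ‖ ≤ 3 / 8) : ((sec ξ : S2) : E3) = seca ξ := by
  unfold sec
  rw [toS2_of (sec_cond (by linarith))]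
  rfl

lemma contDiffAt_seca {ξ : ℂ} (h : ‖ξ‖ ≤ 3 / 8) : ContDiffAt ℝ 1 seca ξ := by
  unfold seca
  refine WithLp.contDiff_toLp.contDiffAt.comp ξ (contDiffAt_id.prodMk ?_)
  apply ContDiffAt.neg
  apply ContDiffAt.sqrt
  · exact (contDiff_const.sub contDiff_norm_sq').contDiffAt
  · have := norm_nonneg ξ
    nlinarith

/-! ### the ambient map -/

abbrev Amb : Type := E3 × E3 × E3 × ℂ

def k1a (q : Amb) : ℝ := 1 - sz q.2.2.2 + sz q.2.2.2 * KK q.1.snd
def k2a (q : Amb) : ℝ := 1 - sz q.2.2.2 * KK q.1.snd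
def xi1a (q : Amb) : ℂ :=
  (SZ q.2.2.2 : ℂ) * cut (8 * q.2.2.1.fst) + (gam q.2.2.2 : ℂ) * GSa (sqSa q.1)
def xi2a (q : Amb) : ℂ :=
  (SZ q.2.2.2 : ℂ) * cut (8 * q.2.1.fst) + (gam q.2.2.2 : ℂ) * (GSa (sqSa (sqSa q.1)) / 8)
def taua (q : Amb) : ℝ :=
  1 - psi q.2.2.2 * smoothTransition (-q.1.snd) * ((1 - q.2.1.snd) * (1 - q.2.2.1.snd) / 4)

def Fa (q : Amb) : Amb :=
  (UUa (k1a q) (k2a q) (kickE (q.2.1.fst, q.2.2.1.fst)) q.1, seca (xi1a q), seca (xi2a q),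
    q.2.2.2 * hour (taua q))

lemma cd1 : ContDiff ℝ 1 (fun q : Amb => q.1) := contDiff_fst
lemma cd2 : ContDiff ℝ 1 (fun q : Amb => q.2.1) := contDiff_fst.comp contDiff_snd
lemma cd3 : ContDiff ℝ 1 (fun q : Amb => q.2.2.1) :=
  contDiff_fst.comp (contDiff_snd.comp contDiff_snd)
lemma cd4 : ContDiff ℝ 1 (fun q : Amb => q.2.2.2) :=
  contDiff_snd.comp (contDiff_snd.comp contDiff_snd)

lemma contDiff_ofReal' {E : Type*} [NormedAddCommGroup E] [NormedSpace ℝ E] {f : E → ℝ}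
    {n : WithTop ℕ∞} (h : ContDiff ℝ n f) : ContDiff ℝ n (fun y => ((f y : ℝ) : ℂ)) :=
  Complex.ofRealCLM.contDiff.comp h

lemma contDiff_k1a : ContDiff ℝ 1 k1a := by
  unfold k1a
  exact (contDiff_const.sub (contDiff_sz.comp cd4)).add
    ((contDiff_sz.comp cd4).mul (contDiff_KK.comp (contDiff_snd3.comp cd1)))

lemma contDiff_k2a : ContDiff ℝ 1 k2a := by
  unfold k2a
  exact contDiff_const.sub
    ((contDiff_sz.comp cd4).mul (contDiff_KK.comp (contDiff_snd3.comp cd1)))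

lemma contDiff_xi1a : ContDiff ℝ 1 xi1a := by
  unfold xi1a
  exact ((contDiff_ofReal' (contDiff_SZ.comp cd4)).mul
      (contDiff_cut.comp (contDiff_const.mul (contDiff_fst3.comp cd3)))).add
    ((contDiff_ofReal' (contDiff_gam.comp cd4)).mul (contDiff_GSa.comp (contDiff_sqSa.comp cd1)))

lemma contDiff_xi2a : ContDiff ℝ 1 xi2a := by
  unfold xi2a
  exact ((contDiff_ofReal' (contDiff_SZ.comp cd4)).mul
      (contDiff_cut.comp (contDiff_const.mul (contDiff_fst3.comp cd2)))).add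
    ((contDiff_ofReal' (contDiff_gam.comp cd4)).mul
      ((contDiff_GSa.comp (contDiff_sqSa.comp (contDiff_sqSa.comp cd1))).div_const 8))

lemma contDiff_taua : ContDiff ℝ 1 taua := by
  unfold taua
  exact contDiff_const.sub
    (((contDiff_psi.comp cd4).mul (smoothTransition.contDiff.comp (contDiff_snd3.comp cd1).neg)).mul
      (((contDiff_const.sub (contDiff_snd3.comp cd2)).mul
        (contDiff_const.sub (contDiff_snd3.comp cd3))).div_const 4))

lemma xi1a_pm (p : Mfd) : xi1a (pmι E3 ℂ p) = xi1 p := by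
  have h : GSa (sqSa (p.1 : E3)) = GS (sqS p.1) := by rw [sqSa_coe, GSa_coe]
  unfold xi1a xi1
  simp only [pmι]
  rw [h]; rfl

lemma xi2a_pm (p : Mfd) : xi2a (pmι E3 ℂ p) = xi2 p := by
  have h : GSa (sqSa (sqSa (p.1 : E3))) = GS (sqS (sqS p.1)) := by
    rw [sqSa_coe, sqSa_coe, GSa_coe]
  unfold xi2a xi2
  simp only [pmι]
  rw [h]; rfl

lemma k1a_pm (p : Mfd) : k1a (pmι E3 ℂ p) = k1 (p.2.2.2 : ℂ) p.1 := rfl
lemma k2a_pm (p : Mfd) : k2a (pmι E3 ℂ p) = k2 (p.2.2.2 : ℂ) p.1 := rfl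
lemma pm_1 (p : Mfd) : (pmι E3 ℂ p).1 = (p.1 : E3) := rfl
lemma pm_21 (p : Mfd) : (pmι E3 ℂ p).2.1 = (p.2.1 : E3) := rfl
lemma pm_221 (p : Mfd) : (pmι E3 ℂ p).2.2.1 = (p.2.2.1 : E3) := rfl
lemma pm_222 (p : Mfd) : (pmι E3 ℂ p).2.2.2 = (p.2.2.2 : ℂ) := rfl

/-- arguments of `UUa` -/
def gg (q : Amb) : ℝ × ℝ × ℂ × E3 := (k1a q, k2a q, kickE (q.2.1.fst, q.2.2.1.fst), q.1)

lemma contDiff_gg : ContDiff ℝ 1 gg := by
  unfold gg
  refine contDiff_k1a.prodMk (contDiff_k2a.prodMk (ContDiff.prodMk ?_ cd1))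
  exact contDiff_kickE.comp ((contDiff_fst3.comp cd2).prodMk (contDiff_fst3.comp cd3))

lemma gg_den (p : Mfd) : UY (gg (pmι E3 ℂ p)).1 (gg (pmι E3 ℂ p)).2.1 (gg (pmι E3 ℂ p)).2.2.1
    (gg (pmι E3 ℂ p)).2.2.2.fst (gg (pmι E3 ℂ p)).2.2.2.snd +
    UZ (gg (pmι E3 ℂ p)).2.1 (gg (pmι E3 ℂ p)).2.2.2.snd ≠ 0 := by
  have h := (UU_den_pos (p.2.2.2 : ℂ) (kickE (ze p.2.1, ze p.2.2.1)) p.1).ne'
  unfold gg
  simp only [k1a_pm, k2a_pm, pm_1, pm_21, pm_221]
  exact h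

lemma contDiffAt_first (p : Mfd) :
    ContDiffAt ℝ 1 (fun q : Amb => UUa (k1a q) (k2a q) (kickE (q.2.1.fst, q.2.2.1.fst)) q.1)
      (pmι E3 ℂ p) := by
  have h1 := contDiffAt_UUa _ (gg_den p)
  exact h1.comp (pmι E3 ℂ p) contDiff_gg.contDiffAt

lemma contDiffAt_second (p : Mfd) :
    ContDiffAt ℝ 1 (fun q : Amb => seca (xi1a q)) (pmι E3 ℂ p) := by
  have h1 : ContDiffAt ℝ 1 seca (xi1a (pmι E3 ℂ p)) := by
    rw [xi1a_pm]; exact contDiffAt_seca (norm_xi1_le p)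
  exact h1.comp (pmι E3 ℂ p) contDiff_xi1a.contDiffAt

lemma contDiffAt_third (p : Mfd) :
    ContDiffAt ℝ 1 (fun q : Amb => seca (xi2a q)) (pmι E3 ℂ p) := by
  have h1 : ContDiffAt ℝ 1 seca (xi2a (pmι E3 ℂ p)) := by
    rw [xi2a_pm]; exact contDiffAt_seca (norm_xi2_le p)
  exact h1.comp (pmι E3 ℂ p) contDiff_xi2a.contDiffAt

lemma contDiff_fourth : ContDiff ℝ 1 (fun q : Amb => q.2.2.2 * hour (taua q)) :=
  cd4.mul (contDiff_hour.comp contDiff_taua)

lemma first_coe (p : Mfd) : (((F p).1 : S2) : E3) = (Fa (pmι E3 ℂ p)).1 := by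
  have h := UU_coe (UU_den_pos (p.2.2.2 : ℂ) (kickE (ze p.2.1, ze p.2.2.1)) p.1).ne'
  unfold F Fa
  simp only [k1a_pm, k2a_pm, pm_1, pm_21, pm_221]
  exact h

lemma second_coe (p : Mfd) : (((F p).2.1 : S2) : E3) = (Fa (pmι E3 ℂ p)).2.1 := by
  unfold F Fa
  simp only [xi1a_pm]
  exact sec_coe (norm_xi1_le p)

lemma third_coe (p : Mfd) : (((F p).2.2.1 : S2) : E3) = (Fa (pmι E3 ℂ p)).2.2.1 := by
  unfold F Fa
  simp only [xi2a_pm]
  exact sec_coe (norm_xi2_le p)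

lemma fourth_coe (p : Mfd) : (((F p).2.2.2 : S1) : ℂ) = (Fa (pmι E3 ℂ p)).2.2.2 := rfl

theorem exists_ambient' : ∃ Fa : E3 × E3 × E3 × ℂ → E3 × E3 × E3 × ℂ,
    (∀ p : Mfd, ContDiffAt ℝ 1 Fa (pmι E3 ℂ p)) ∧ (∀ p : Mfd, pmι E3 ℂ (F p) = Fa (pmι E3 ℂ p)) := by
  refine ⟨Fa, ?_, ?_⟩
  · intro p
    exact (contDiffAt_first p).prodMk ((contDiffAt_second p).prodMk ((contDiffAt_third p).prodMk
      contDiff_fourth.contDiffAt))
  · intro p
    exact Prod.ext (first_coe p) (Prod.ext (second_coe p) (Prod.ext (third_coe p) (fourth_coe p)))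

end Crest.Agent.R123
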